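import Mathlib

/-!
# Continuous actions on open sets of a Euclidean space
-/

namespace Vale.Agent.P228

open Set Metric Filter Function
open scoped Topology

variable {E : Type*} [NormedAddCommGroup E]
variable {K : Type*} [Group K] [TopologicalSpace K]

/-- A continuous action on the open set `V`. -/
structure IsAction (A : K → E → E) (V : Set E) : Prop where
  isOpen : IsOpen V
  mapsTo : ∀ g, MapsTo (A g) V V
  one : ∀ x ∈ V, A 1 x = x
  mul : ∀ g h, ∀ x ∈ V, A (g * h) x = A g (A h x)
  continuousOn : ContinuousOn (uncurry A) (univ ×ˢ V)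

/-- The interior of the common fixed set of a subgroup. -/
def fixInterior (A : K → E → E) (V : Set E) (H : OpenNormalSubgroup K) : Set E :=
  interior {x ∈ V | ∀ k ∈ H, A k x = x}

variable {A : K → E → E} {V : Set E}

theorem IsAction.iterate (hA : IsAction A V) (h : K) (m : ℕ) :
    ∀ x ∈ V, (A h)^[m] x = A (h ^ m) x := by
  induction m with
  | zero => intro x hx; simp [hA.one x hx]
  | succ m ih =>
    intro x hx
    rw [iterate_succ_apply', ih x hx, pow_succ', hA.mul _ _ x hx]

theorem IsAction.inv_apply (hA : IsAction A V) (g : K) {x : E} (hx : x ∈ V) :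
    A g⁻¹ (A g x) = x := by
  rw [← hA.mul _ _ x hx, inv_mul_cancel, hA.one x hx]

theorem IsAction.continuous_orbit (hA : IsAction A V) {x : E} (hx : x ∈ V) :
    Continuous fun g : K => A g x :=
  hA.continuousOn.comp_continuous (continuous_id.prodMk continuous_const) fun _ => ⟨trivial, hx⟩

theorem IsAction.continuousOn_apply (hA : IsAction A V) (g : K) : ContinuousOn (A g) V :=
  hA.continuousOn.comp (continuous_const.prodMk continuous_id).continuousOn
    fun _ hx => ⟨trivial, hx⟩

theorem IsAction.continuousAt_apply (hA : IsAction A V) (g : K) {x : E} (hx : x ∈ V) :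
    ContinuousAt (A g) x :=
  (hA.continuousOn_apply g).continuousAt (hA.isOpen.mem_nhds hx)

theorem fixInterior_subset (H : OpenNormalSubgroup K) : fixInterior A V H ⊆ V :=
  fun _ hx => (interior_subset (s := {x ∈ V | ∀ k ∈ H, A k x = x}) hx).1

theorem fixInterior_fixed {H : OpenNormalSubgroup K} {x : E} (hx : x ∈ fixInterior A V H)
    {k : K} (hk : k ∈ H) : A k x = x :=
  (interior_subset (s := {x ∈ V | ∀ k ∈ H, A k x = x}) hx).2 k hk

theorem IsAction.mapsTo_fixInterior (hA : IsAction A V) (H : OpenNormalSubgroup K)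
    (g : K) : MapsTo (A g) (fixInterior A V H) (fixInterior A V H) := by
  intro x hx
  have hxV := fixInterior_subset H hx
  refine interior_maximal (t := V ∩ A g⁻¹ ⁻¹' fixInterior A V H) ?_
    ((hA.continuousOn_apply g⁻¹).isOpen_inter_preimage hA.isOpen isOpen_interior)
    ⟨hA.mapsTo g hxV, by rw [mem_preimage, hA.inv_apply g hxV]; exact hx⟩
  rintro z ⟨hz, hzF⟩
  refine ⟨hz, fun k hk => ?_⟩
  have hk' : g⁻¹ * k * g ∈ H := by
    have := H.isNormal'.conj_mem k hk g⁻¹
    rwa [inv_inv] at this
  have e := fixInterior_fixed hzF hk'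
  rw [← hA.mul _ _ z hz, mul_inv_cancel_right] at e
  have := congrArg (A g) e
  rwa [← hA.mul _ _ z hz, ← hA.mul _ _ z hz, ← mul_assoc, mul_inv_cancel, one_mul,
    hA.one z hz] at this

/-- Group elements near `1` move a compact set only a little. -/
theorem IsAction.eventually_small (hA : IsAction A V) {B : Set E} (hB : IsCompact B) (hBV : B ⊆ V)
    {ε : ℝ} (hε : 0 < ε) : ∀ᶠ h in 𝓝 (1 : K), ∀ y ∈ B, dist (A h y) y < ε := by
  refine hB.eventually_forall_of_forall_eventually
    (P := fun h y => dist (A h y) y < ε) fun y hy => ?_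
  have hc : ContinuousAt (fun z : K × E => dist (A z.1 z.2) z.2) (1, y) :=
    (hA.continuousOn.continuousAt
      ((isOpen_univ.prod hA.isOpen).mem_nhds ⟨trivial, hBV hy⟩)).dist continuousAt_snd
  exact hc.eventually (gt_mem_nhds (by simpa [hA.one y (hBV hy)] using hε))

end Vale.Agent.P228
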