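import Mathlib

/-!
# Subgroups with prime power quotients inside compact totally disconnected groups
-/

namespace Vale.Agent.P228

open Set Filter
open scoped Topology

/-- Every open proper subgroup has index divisible by `p`. -/
def IsOrbitPrime (p : ℕ) (H : Type*) [Group H] [TopologicalSpace H] : Prop :=
  ∀ S : Subgroup H, IsOpen (S : Set H) → S ≠ ⊤ → p ∣ S.index

variable {K : Type*} [Group K] [TopologicalSpace K] [IsTopologicalGroup K] [CompactSpace K]
  [TotallyDisconnectedSpace K]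

/-- An element lies in a closed subgroup as soon as all closed `p`-subgroups of the closed cyclic
group it generates do. -/
theorem mem_of_forall_proP {S : Subgroup K} (hS : IsClosed (S : Set K)) (g : K)
    (h : ∀ p : ℕ, p.Prime → ∀ x ∈ (Subgroup.zpowers g).topologicalClosure,
      IsOrbitPrime p (Subgroup.zpowers x).topologicalClosure → x ∈ S) : g ∈ S := by
  have : T2Space K := inferInstance
  by_contra hg
  obtain ⟨N, hN⟩ := ProfiniteGrp.exist_openNormalSubgroup_sub_open_nhds_of_one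
    (hS.isOpen_compl.preimage (continuous_const_mul g)) (show g * 1 ∈ (S : Set K)ᶜ by simpa)
  have := N.isNormal'
  set T : Subgroup K := S ⊔ N.toSubgroup with hT
  have hTo : IsOpen (T : Set K) := Subgroup.isOpen_mono le_sup_right N.toOpenSubgroup.isOpen
  have hgT : g ∉ T := by
    intro hmem
    obtain ⟨s, hs, n, hn, e⟩ := Subgroup.mem_sup_of_normal_right.1 hmem
    exact hN (inv_mem hn : n⁻¹ ∈ N.toSubgroup)
      (show g * n⁻¹ ∈ (S : Set K) by rw [← e, mul_inv_cancel_right]; exact hs)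
  -- a prime step leading out of `T`
  have hTidx : T.index ≠ 0 := by
    have := Subgroup.quotient_finite_of_isOpen T hTo
    exact Subgroup.index_ne_zero_of_finite
  obtain ⟨a₀, ha₀, -, hga₀⟩ := Subgroup.exists_pow_mem_of_index_ne_zero hTidx g
  obtain ⟨p, hp, b, hbp, hb⟩ :
      ∃ p : ℕ, p.Prime ∧ ∃ b : ℕ, g ^ (b * p) ∈ T ∧ g ^ b ∉ T := by
    induction a₀ using Nat.strong_induction_on with
    | h a ih =>
      rcases eq_or_ne a 1 with rfl | ha1
      · exact absurd (by simpa using hga₀) hgT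
      obtain ⟨p, hp, b, rfl⟩ := Nat.exists_prime_and_dvd ha1
      by_cases hb : g ^ b ∈ T
      · exact ih b (lt_mul_of_one_lt_left (Nat.pos_of_mul_pos_left ha₀) hp.one_lt)
          (Nat.pos_of_mul_pos_left ha₀) hb
      · exact ⟨p, hp, b, by rwa [mul_comm], hb⟩
  set C : Subgroup K := (Subgroup.zpowers g).topologicalClosure with hC
  have hcomm : ∀ x ∈ C, ∀ y ∈ C, x * y = y * x := by
    have : IsMulCommutative (Subgroup.zpowers g) := inferInstance
    let hc := (Subgroup.zpowers g).commGroupTopologicalClosure fun x y => by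
      exact mul_comm' x y
    intro x hx y hy
    exact congrArg Subtype.val (hc.mul_comm ⟨x, hx⟩ ⟨y, hy⟩)
  let P : Subgroup K :=
    { carrier := {x | x ∈ C ∧ ∀ M : OpenNormalSubgroup K, ∃ k : ℕ, x ^ p ^ k ∈ M}
      one_mem' := ⟨one_mem C, fun M => ⟨0, by simp⟩⟩
      mul_mem' := by
        rintro x y ⟨hx, hx'⟩ ⟨hy, hy'⟩
        refine ⟨mul_mem hx hy, fun M => ?_⟩
        obtain ⟨k, hk⟩ := hx' M
        obtain ⟨l, hl⟩ := hy' M
        refine ⟨k + l, ?_⟩
        rw [(show Commute x y from hcomm x hx y hy).mul_pow]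
        refine mul_mem ?_ ?_
        · rw [pow_add, pow_mul]; exact pow_mem hk _
        · rw [pow_add, mul_comm, pow_mul]; exact pow_mem hl _
      inv_mem' := by
        rintro x ⟨hx, hx'⟩
        refine ⟨inv_mem hx, fun M => ?_⟩
        obtain ⟨k, hk⟩ := hx' M
        exact ⟨k, by rw [inv_pow]; exact inv_mem hk⟩ }
  have hclosed : ∀ M : OpenNormalSubgroup K,
      IsClosed {x : K | ∃ k : ℕ, x ^ p ^ k ∈ M} := by
    intro M
    have := M.isNormal'
    have : DiscreteTopology (K ⧸ M.toSubgroup) :=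
      QuotientGroup.discreteTopology M.toOpenSubgroup.isOpen
    have e : {x : K | ∃ k : ℕ, x ^ p ^ k ∈ M} = (QuotientGroup.mk : K → K ⧸ M.toSubgroup) ⁻¹'
        {q | ∃ k : ℕ, q ^ p ^ k = 1} := by
      ext x
      simp only [mem_preimage, mem_ofPred_eq, ← QuotientGroup.mk_pow, QuotientGroup.eq_one_iff]
      rfl
    rw [e]
    exact (isClosed_discrete _).preimage QuotientGroup.continuous_mk
  have hPc : IsClosed (P : Set K) := by
    show IsClosed {x : K | x ∈ C ∧ ∀ M : OpenNormalSubgroup K, ∃ k : ℕ, x ^ p ^ k ∈ M}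
    simp only [ofPred_and, ofPred_forall]
    exact (Subgroup.isClosed_topologicalClosure _).inter (isClosed_iInter fun M => hclosed M)
  have hPprime : ∀ Q : Subgroup K, IsClosed (Q : Set K) → Q ≤ P → IsOrbitPrime p Q := by
    intro Q hQc hQP U hUo hUne
    have : CompactSpace Q := isCompact_iff_compactSpace.1 hQc.isCompact
    let : CommGroup Q :=
      { (inferInstance : Group Q) with
        mul_comm := fun x y => Subtype.ext (hcomm x (hQP x.2).1 y (hQP y.2).1) }
    have : U.Normal := ⟨fun n hn x => by rwa [mul_comm x n, mul_inv_cancel_right]⟩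
    have : Finite (Q ⧸ U) := Subgroup.quotient_finite_of_isOpen U hUo
    obtain ⟨W, hWo, hW⟩ := isOpen_induced_iff.1 hUo
    obtain ⟨M, hM⟩ := ProfiniteGrp.exist_openNormalSubgroup_sub_open_nhds_of_one hWo
      (show (1 : K) ∈ W by
        have : (1 : Q) ∈ Subtype.val ⁻¹' W := hW.symm ▸ U.one_mem
        exact this)
    have hpg : IsPGroup p (Q ⧸ U) := by
      intro q
      induction q using QuotientGroup.induction_on with
      | H x =>
        obtain ⟨k, hk⟩ := (hQP x.2).2 M
        refine ⟨k, ?_⟩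
        rw [← QuotientGroup.mk_pow, QuotientGroup.eq_one_iff]
        have : x ^ p ^ k ∈ Subtype.val ⁻¹' W := hM (by simpa using hk)
        rwa [hW] at this
    have := Fact.mk hp
    obtain ⟨n, hn⟩ := IsPGroup.iff_card.1 hpg
    rw [Subgroup.index, hn]
    refine dvd_pow_self p fun h0 => hUne ?_
    rw [h0, pow_zero, ← Subgroup.index] at hn
    exact Subgroup.index_eq_one.1 hn
  -- some element of `P` leaves `T`
  set F : OpenNormalSubgroup K → Set K := fun M =>
    (C : Set K) ∩ (T : Set K)ᶜ ∩ {x | ∃ k : ℕ, x ^ p ^ k ∈ M} with hF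
  have hne : ∀ M, (F M).Nonempty := by
    intro M
    have hMidx : M.toSubgroup.index ≠ 0 := by
      have := Subgroup.quotient_finite_of_isOpen M.toSubgroup M.toOpenSubgroup.isOpen
      exact Subgroup.index_ne_zero_of_finite
    obtain ⟨n, hn0, -, hn⟩ := Subgroup.exists_pow_mem_of_index_ne_zero hMidx (g ^ b)
    obtain ⟨v, w, hw, rfl⟩ := Nat.exists_eq_pow_mul_and_not_dvd hn0.ne' p hp.one_lt.ne'
    refine ⟨(g ^ b) ^ w, ⟨⟨?_, fun hT' => hb ?_⟩, v, ?_⟩⟩
    · exact pow_mem (pow_mem (Subgroup.le_topologicalClosure _ (Subgroup.mem_zpowers g)) _) _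
    · obtain ⟨i, j, hij⟩ := (Nat.isCoprime_iff_coprime.2
        ((hp.coprime_iff_not_dvd.2 hw).symm) : IsCoprime (w : ℤ) (p : ℤ))
      have e : g ^ b = ((g ^ b) ^ w) ^ i * ((g ^ b) ^ p) ^ j := by
        rw [← zpow_natCast (g ^ b) w, ← zpow_natCast (g ^ b) p, ← zpow_mul, ← zpow_mul,
          ← zpow_add, mul_comm (w : ℤ), mul_comm (p : ℤ), hij, zpow_one]
      rw [e]
      exact mul_mem (zpow_mem hT' _) (zpow_mem (by rwa [← pow_mul]) _)
    · show ((g ^ b) ^ w) ^ p ^ v ∈ M
      rw [← pow_mul, mul_comm]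
      exact hn
  have hTclopen : IsClosed (T : Set K)ᶜ := hTo.isClosed_compl
  have hFc : ∀ M, IsClosed (F M) := fun M =>
    ((Subgroup.isClosed_topologicalClosure _).inter hTclopen).inter (hclosed M)
  have hdir : Directed (· ⊇ ·) F := by
    intro M₁ M₂
    refine ⟨M₁ ⊓ M₂, ?_, ?_⟩ <;> rintro x ⟨hx, k, hk⟩ <;> refine ⟨hx, k, ?_⟩
    · exact hk.1
    · exact hk.2
  have : Nonempty (OpenNormalSubgroup K) := ⟨N⟩
  obtain ⟨x, hx⟩ := IsCompact.nonempty_iInter_of_directed_nonempty_isCompact_isClosed F hdir hne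
    (fun M => (hFc M).isCompact) hFc
  rw [mem_iInter] at hx
  have hxP : x ∈ P := ⟨(hx N).1.1, fun M => (hx M).2⟩
  exact (hx N).1.2 (le_sup_left (b := N.toSubgroup) (h p hp x hxP.1
    (hPprime _ (Subgroup.isClosed_topologicalClosure _)
      (Subgroup.topologicalClosure_minimal _ (Subgroup.zpowers_le.2 hxP) hPc))))

end Vale.Agent.P228
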