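import Vale.Agent.P228.Degree

/-!
# A map of degree one has no fibre made of `p` congruent clopen pieces
-/

namespace Vale.Agent.P228

open Set Metric MeasureTheory Filter Function
open scoped Topology ContDiff

variable {E : Type*} [NormedAddCommGroup E] [InnerProductSpace ℝ E] [FiniteDimensional ℝ E]

/-- Every map `η`-close to `ψ` on `D` has degree one over each regular value in `T`. -/
def DegOne (D : Set E) (ψ : E → E) (T : Set E) (η : ℝ) : Prop :=
  ∀ Ψ : E → E, ContinuousOn Ψ D → (∀ x ∈ D, ‖Ψ x - ψ x‖ ≤ η) → ∀ z ∈ T,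
    (∀ a ∈ D, Ψ a = z → ∃ L : E →L[ℝ] E, HasFDerivAt Ψ L a ∧ L.det ≠ 0) →
    ∃ Z : Finset E, (∀ a, a ∈ Z ↔ a ∈ D ∧ Ψ a = z) ∧
      ∑ a ∈ Z, sgn (fderiv ℝ Ψ a).det = 1

/-- A map `s`-close to the identity on a ball has degree one, stably, deep inside. -/
theorem degOne_of_close {c : E} {R s : ℝ} {ψ : E → E} (hs : 0 < s)
    (hclose : ∀ x ∈ closedBall c R, ‖ψ x - x‖ ≤ s) :
    DegOne (closedBall c R) ψ (ball c (R - 8 * s)) s := by
  intro Ψ hΨ hΨψ z hz hreg
  refine degree_one (s := 2 * s) (by linarith) hΨ (fun x hx => ?_)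
    (ball_subset_ball (by linarith) hz) hreg
  calc ‖Ψ x - x‖ = ‖(Ψ x - ψ x) + (ψ x - x)‖ := by rw [sub_add_sub_cancel]
    _ ≤ _ := (norm_add_le _ _).trans (by linarith [hΨψ x hx, hclose x hx])

/-- Uniform approximation on a compact set by smooth maps. -/
theorem exists_smooth_near {D : Set E} (hD : IsCompact D) {f : E → E} (hf : ContinuousOn f D)
    {κ : ℝ} (hκ : 0 < κ) : ∃ g : E → E, ContDiff ℝ ∞ g ∧ ∀ x ∈ D, ‖g x - f x‖ ≤ κ := by
  obtain ⟨F, hF⟩ := ContinuousMap.exists_restrict_eq hD.isClosed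
    (⟨D.domRestrict f, hf.domRestrict⟩ : C(D, E))
  have hFf : ∀ x ∈ D, F x = f x := fun x hx => congrArg (fun G : C(D, E) => G ⟨x, hx⟩) hF
  obtain ⟨δ, hδ, hδu⟩ := Metric.uniformContinuousOn_iff.1
    ((hD.cthickening (r := 1)).uniformContinuousOn_of_continuous F.continuous.continuousOn) κ hκ
  obtain ⟨g, hg, hgb⟩ := F.continuous.exists_contDiff_dist_le_of_forall_mem_ball_dist_le
    (lt_min one_pos hδ)
  refine ⟨g, hg, fun x hx => ?_⟩
  rw [← dist_eq_norm, ← hFf x hx]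
  refine hgb x κ fun y hy => ?_
  rw [mem_ball, lt_min_iff] at hy
  exact (hδu y (mem_cthickening_of_dist_le _ x _ _ hx hy.1.le) x
    (self_subset_cthickening _ hx) hy.2).le

/-- The critical values of a smooth map form a null set. -/
theorem exists_regular_value [MeasurableSpace E] [BorelSpace E] {ι : Type*} [Countable ι]
    {f : ι → E → E} (hf : ∀ i, Differentiable ℝ (f i)) {U : Set E} (hU : IsOpen U)
    (hU0 : U.Nonempty) : ∃ z ∈ U, ∀ i a, f i a = z → (fderiv ℝ (f i) a).det ≠ 0 := by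
  by_contra! h
  set μ : Measure E := (Module.finBasis ℝ E).addHaar
  refine (hU.measure_pos μ hU0).ne'
    (measure_mono_null (t := ⋃ i, f i '' {a | (fderiv ℝ (f i) a).det = 0}) ?_ ?_)
  · intro z hz
    obtain ⟨i, a, ha, h0⟩ := h z hz
    exact mem_iUnion.2 ⟨i, a, h0, ha⟩
  · exact measure_iUnion_null fun i => addHaar_image_eq_zero_of_det_fderivWithin_eq_zero μ
      (fun x _ => (hf i x).hasFDerivAt.hasFDerivWithinAt) fun x hx => hx

theorem sgn_mul {a b : ℝ} (ha : a ≠ 0) (hb : b ≠ 0) : sgn (a * b) = sgn a * sgn b := by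
  unfold sgn
  rcases ha.lt_or_gt with ha | ha <;> rcases hb.lt_or_gt with hb | hb
  · simp [mul_pos_of_neg_of_neg ha hb, ha.not_gt, hb.not_gt]
  · simp [(mul_neg_of_neg_of_pos ha hb).not_gt, ha.not_gt, hb]
  · simp [(mul_neg_of_pos_of_neg ha hb).not_gt, hb.not_gt, ha]
  · simp [mul_pos ha hb, ha, hb]

/-- **No splitting**: if `ψ` has degree one near `z`, its fibre over `z` is not the union of `p ≥ 2`
disjoint pieces carried onto one of them by degree one maps which preserve `ψ`. -/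
theorem no_split {D : Set E} (hD : IsCompact D) {ψ : E → E} (hψ : ContinuousOn ψ D) {z : E}
    {η : ℝ} (hη : 0 < η) (hdeg : DegOne D ψ (closedBall z η) η) {p : ℕ} (hp : 2 ≤ p)
    {e : Fin p → E → E} (hec : ∀ j, ContinuousOn (e j) D) {C₀ W : Set E} (hC₀ : IsCompact C₀)
    (hW : IsOpen W) (hC₀W : C₀ ⊆ W) (hdege : ∀ j, DegOne D (e j) W η)
    (hcomp : ∀ j, ∀ x ∈ D, e j x ∈ D → ψ (e j x) = ψ x)
    (hint : ∀ j, D ∩ e j ⁻¹' C₀ ⊆ interior D)
    (hdisj : Pairwise fun i j => Disjoint (D ∩ e i ⁻¹' C₀) (D ∩ e j ⁻¹' C₀))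
    (hfib : ∀ x ∈ D, ψ x = z → ∃ j, e j x ∈ C₀)
    {j₀ : Fin p} (hj₀ : D ∩ e j₀ ⁻¹' C₀ = C₀) : False := by
  classical
  borelize E
  set C : Fin p → Set E := fun j => D ∩ e j ⁻¹' C₀ with hC
  have hDc : IsClosed D := hD.isClosed
  have hCc : ∀ j, IsCompact (C j) := fun j =>
    hD.of_isClosed_subset ((hec j).preimage_isClosed_of_isClosed hDc hC₀.isClosed)
      inter_subset_left
  -- disjoint open sets around the pieces
  have hsep : ∀ i j, ∃ U V : Set E, IsOpen U ∧ IsOpen V ∧ C i ⊆ U ∧ C j ⊆ V ∧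
      (i ≠ j → Disjoint U V) := by
    intro i j
    by_cases hij : i = j
    · exact ⟨univ, univ, isOpen_univ, isOpen_univ, subset_univ _, subset_univ _,
        fun h => absurd hij h⟩
    · obtain ⟨U, V, hU, hV, hiU, hjV, hUV⟩ := SeparatedNhds.of_isCompact_isCompact (hCc i) (hCc j)
        (hdisj hij)
      exact ⟨U, V, hU, hV, hiU, hjV, fun _ => hUV⟩
  choose U V hUo hVo hCU hCV hUV using hsep
  set O : Fin p → Set E := fun j => interior D ∩ (⋂ i, U j i) ∩ ⋂ i, V i j with hO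
  have hOo : ∀ j, IsOpen (O j) := fun j =>
    (isOpen_interior.inter (isOpen_iInter_of_finite (hUo j))).inter
      (isOpen_iInter_of_finite fun i => hVo i j)
  have hCO : ∀ j, C j ⊆ O j := fun j x hx =>
    ⟨⟨hint j hx, mem_iInter.2 fun i => hCU j i hx⟩, mem_iInter.2 fun i => hCV i j hx⟩
  have hOd : ∀ i j, ∀ x, x ∈ O i → x ∈ O j → i = j := by
    intro i j x hi hj
    by_contra hij
    exact disjoint_left.1 (hUV i j hij) (mem_iInter.1 hi.1.2 j) (mem_iInter.1 hj.2 i)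
  have hOD : ∀ j, O j ⊆ D := fun j x hx => interior_subset hx.1.1
  have hC₀O : C₀ ⊆ O j₀ := hj₀ ▸ hCO j₀
  obtain ⟨W', hW'o, hC₀W', hW'sub, hW'c⟩ :=
    exists_open_between_and_isCompact_closure hC₀ (hW.inter (hOo j₀)) (subset_inter hC₀W hC₀O)
  have hW'D : closure W' ⊆ D := fun x hx => hOD j₀ (hW'sub hx).2
  set G : Set E := W' \ ⋃ j, e j '' (D \ O j) with hG
  have hGo : IsOpen G := hW'o.sdiff (isClosed_iUnion_of_finite fun j =>
    ((hD.diff (hOo j)).image_of_continuousOn ((hec j).mono sdiff_subset)).isClosed)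
  have hC₀G : C₀ ⊆ G := by
    refine fun x hx => ⟨hC₀W' hx, fun h => ?_⟩
    obtain ⟨j, a, ha, rfl⟩ := mem_iUnion.1 h
    exact ha.2 (hCO j ⟨ha.1, hx⟩)
  obtain ⟨W'', hW''o, hC₀W'', hW''sub, hW''c⟩ :=
    exists_open_between_and_isCompact_closure hC₀ hGo hC₀G
  set O' : Fin p → Set E := fun j => O j ∩ e j ⁻¹' W'' with hO'
  have hO'o : ∀ j, IsOpen (O' j) := fun j =>
    ((hec j).mono (hOD j)).isOpen_inter_preimage (hOo j) hW''o
  have hCO' : ∀ j, C j ⊆ O' j := fun j x hx => ⟨hCO j hx, hC₀W'' hx.2⟩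
  have hO'' : ∀ j, ∃ O'' : Set E, IsOpen O'' ∧ C j ⊆ O'' ∧ closure O'' ⊆ O' j ∧
      IsCompact (closure O'') := fun j =>
    exists_open_between_and_isCompact_closure (hCc j) (hO'o j) (hCO' j)
  choose O'' hO''o hCO'' hO''sub hO''c using hO''
  have hχ : ∀ j, ∃ χ : C(E, ℝ), EqOn χ 0 (O' j)ᶜ ∧ EqOn χ 1 (closure (O'' j)) ∧
      ∀ x, χ x ∈ Icc (0 : ℝ) 1 := fun j =>
    exists_continuous_zero_one_of_isClosed (hO'o j).isClosed_compl isClosed_closure
      (disjoint_compl_left.mono_right (hO''sub j))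
  choose χ hχ0 hχ1 hχI using hχ
  -- away from the pieces `ψ` avoids `z`
  obtain ⟨δ, hδ, hδb⟩ : ∃ δ > 0, ∀ x ∈ (D \ ⋃ j, O'' j) ∪ (closure W' \ W''), δ ≤ ‖ψ x - z‖ := by
    refine IsCompact.exists_forall_le' (a := (0 : ℝ))
      (f := fun x => ‖ψ x - z‖) ((hD.diff (isOpen_iUnion hO''o)).union (hW'c.diff hW''o))
      ((hψ.sub continuousOn_const).norm.mono (union_subset sdiff_subset
        (sdiff_subset.trans hW'D))) ?_
    rintro x (⟨hxD, hx⟩ | ⟨hxW, hx⟩) <;> refine norm_pos_iff.2 fun h => hx ?_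
    · obtain ⟨j, hj⟩ := hfib x hxD (sub_eq_zero.1 h)
      exact mem_iUnion.2 ⟨j, hCO'' j ⟨hxD, hj⟩⟩
    · obtain ⟨j, hj⟩ := hfib x (hW'D hxW) (sub_eq_zero.1 h)
      have hjj : j = j₀ := hOd j j₀ x (hCO j ⟨hW'D hxW, hj⟩) (hW'sub hxW).2
      subst hjj
      exact hC₀W'' (hj₀ ▸ (⟨hW'D hxW, hj⟩ : x ∈ D ∩ e j ⁻¹' C₀))
  set κ : ℝ := min η δ / 4 with hκ
  have hκ0 : 0 < κ := by positivity
  have hκδ : 4 * κ ≤ δ := by rw [hκ]; linarith [min_le_right η δ]
  have hκη : 4 * κ ≤ η := by rw [hκ]; linarith [min_le_left η δ]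
  obtain ⟨g, hg, hgψ⟩ := exists_smooth_near hD hψ hκ0
  obtain ⟨θ, hθ, hθu⟩ := Metric.uniformContinuousOn_iff.1 (hD.uniformContinuousOn_of_continuous hψ)
    κ hκ0
  obtain ⟨ε₁, hε₁, hε₁G⟩ := hW''c.exists_cthickening_subset_open hGo hW''sub
  set ε : ℝ := min (min (θ / 2) ε₁) η with hεd
  have hε0 : 0 < ε := by positivity
  have hεθ : ε < θ :=
    ((min_le_left _ _).trans (min_le_left _ _)).trans_lt (half_lt_self hθ)
  choose k hk hke using fun j => exists_smooth_near hD (hec j) hε0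
  have hGnear : ∀ w, ∀ b ∈ closure W'', dist w b ≤ ε → w ∈ G := fun w b hb hwb =>
    hε₁G (mem_cthickening_of_dist_le w b _ _ hb
      (hwb.trans ((min_le_left _ _).trans (min_le_right _ _))))
  have hkD : ∀ j, ∀ x ∈ D, e j x ∈ closure W'' →
      k j x ∈ closure W' ∧ e j x ∈ D ∧ ‖ψ (k j x) - ψ x‖ ≤ κ := by
    intro j x hx hex
    have h1 : k j x ∈ closure W' :=
      subset_closure (hGnear _ _ hex ((dist_eq_norm _ _).trans_le (hke j x hx))).1
    have h2 : e j x ∈ D := hW'D (subset_closure (hW''sub hex).1)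
    refine ⟨h1, h2, ?_⟩
    rw [← hcomp j x hx h2, ← dist_eq_norm]
    exact (hθu _ (hW'D h1) _ h2
      (((dist_eq_norm _ _).trans_le (hke j x hx)).trans_lt hεθ)).le
  -- a regular value
  have hgd : Differentiable ℝ g := hg.differentiable (by simp)
  have hkd : ∀ j, Differentiable ℝ (k j) := fun j => (hk j).differentiable (by simp)
  obtain ⟨z', hz', hreg⟩ := exists_regular_value
    (f := fun o : Option (Fin p) => o.elim g fun j => g ∘ k j)
    (fun o => by cases o with | none => exact hgd | some j => exact hgd.comp (hkd j))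
    (isOpen_ball (x := z) (ε := κ)) ⟨z, mem_ball_self hκ0⟩
  set Ψ : E → E := fun x => ψ x + ∑ i, χ i x • (g (k i x) - ψ x) with hΨ
  have hΨc : ContinuousOn Ψ D := hψ.add (continuousOn_finsetSum _ fun i _ =>
    (χ i).continuous.continuousOn.smul
      (((hg.continuous.comp (hk i).continuous).continuousOn).sub hψ))
  have hsingle : ∀ x j, x ∈ O j → Ψ x = ψ x + χ j x • (g (k j x) - ψ x) := by
    intro x j hj
    show ψ x + _ = _
    congr 1
    refine Finset.sum_eq_single j (fun i _ hij => ?_) fun h => absurd (Finset.mem_univ j) h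
    rw [hχ0 i (fun h => hij (hOd i j x h.1 hj)), Pi.zero_apply, zero_smul]
  have hΨψ : ∀ x ∈ D, ‖Ψ x - ψ x‖ ≤ 2 * κ := by
    intro x hx
    by_cases h : ∃ j, x ∈ O' j
    · obtain ⟨j, hj⟩ := h
      rw [hsingle x j hj.1, add_sub_cancel_left, norm_smul, Real.norm_eq_abs,
        abs_of_nonneg (hχI j x).1]
      refine (mul_le_of_le_one_left (norm_nonneg _) (hχI j x).2).trans ?_
      obtain ⟨h1, -, h3⟩ := hkD j x hx (subset_closure hj.2)
      calc ‖g (k j x) - ψ x‖ = ‖(g (k j x) - ψ (k j x)) + (ψ (k j x) - ψ x)‖ := by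
            rw [sub_add_sub_cancel]
        _ ≤ _ := (norm_add_le _ _).trans (by linarith [hgψ _ (hW'D h1)])
    · simp only [not_exists] at h
      have : ∑ i, χ i x • (g (k i x) - ψ x) = 0 := Finset.sum_eq_zero fun i _ => by
        rw [hχ0 i (h i), Pi.zero_apply, zero_smul]
      simp [hΨ, this]
      positivity
  have hloc : ∀ x j, x ∈ O'' j → Ψ =ᶠ[𝓝 x] g ∘ k j := by
    intro x j hj
    filter_upwards [(hO''o j).mem_nhds hj] with y hy
    rw [hsingle y j (hO''sub j (subset_closure hy)).1, hχ1 j (subset_closure hy), Pi.one_apply,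
      one_smul, add_sub_cancel]
    rfl
  have hz'z : ‖z' - z‖ < κ := by rw [← dist_eq_norm]; exact hz'
  have hΨfib : ∀ x ∈ D, Ψ x = z' → ∃ j, x ∈ O'' j := by
    intro x hx hxz
    by_contra h
    have h1 := hδb x (Or.inl ⟨hx, fun h' => h (mem_iUnion.1 h')⟩)
    have h2 : ‖ψ x - z‖ ≤ ‖Ψ x - ψ x‖ + ‖z' - z‖ := by
      calc ‖ψ x - z‖ = ‖(z' - z) - (Ψ x - ψ x)‖ := by rw [hxz]; congr 1; abel
        _ ≤ _ := (norm_sub_le _ _).trans_eq (add_comm _ _)
    linarith [hΨψ x hx]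
  have hdetc : ∀ j a, g (k j a) = z' → (fderiv ℝ g (k j a)).det ≠ 0 ∧
      (fderiv ℝ (k j) a).det ≠ 0 ∧
      (fderiv ℝ (g ∘ k j) a).det = (fderiv ℝ g (k j a)).det * (fderiv ℝ (k j) a).det := by
    intro j a ha
    have h1 : (fderiv ℝ (g ∘ k j) a).det =
        (fderiv ℝ g (k j a)).det * (fderiv ℝ (k j) a).det := by
      rw [fderiv_comp a (hgd _) (hkd j a)]
      exact LinearMap.det_comp _ _
    have h2 := hreg (some j) a ha
    simp only [Option.elim_some] at h2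
    rw [h1] at h2
    exact ⟨left_ne_zero_of_mul h2, right_ne_zero_of_mul h2, h1⟩
  obtain ⟨Z, hZ, hZsum⟩ := hdeg Ψ hΨc (fun x hx => (hΨψ x hx).trans (by linarith)) z'
    (mem_closedBall.2 (by rw [dist_eq_norm]; linarith)) fun a ha haz => by
      obtain ⟨j, hj⟩ := hΨfib a ha haz
      have he := hloc a j hj
      have hga : g (k j a) = z' := he.eq_of_nhds.symm.trans haz
      refine ⟨fderiv ℝ (g ∘ k j) a,
        ((hgd.comp (hkd j)) a).hasFDerivAt.congr_of_eventuallyEq he, ?_⟩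
      exact hreg (some j) a hga
  set Zj : Fin p → Finset E := fun j => Z.filter fun a => a ∈ O'' j with hZj
  set B : Finset E := Finset.univ.biUnion fun j => (Zj j).image (k j) with hB
  have hBmem : ∀ b ∈ B, g b = z' ∧ b ∈ W'' := by
    intro b hb
    obtain ⟨j, -, hb⟩ := Finset.mem_biUnion.1 hb
    obtain ⟨a, ha, rfl⟩ := Finset.mem_image.1 hb
    obtain ⟨haZ, haO⟩ := Finset.mem_filter.1 ha
    obtain ⟨haD, haz⟩ := (hZ a).1 haZ
    have hga : g (k j a) = z' := (hloc a j haO).eq_of_nhds.symm.trans haz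
    refine ⟨hga, ?_⟩
    obtain ⟨h1, -, -⟩ := hkD j a haD (subset_closure (hO''sub j (subset_closure haO)).2)
    by_contra hne
    have h4 := hδb _ (Or.inr ⟨h1, hne⟩)
    have h5 : ‖ψ (k j a) - z‖ ≤ ‖g (k j a) - ψ (k j a)‖ + ‖z' - z‖ := by
      calc ‖ψ (k j a) - z‖ = ‖(z' - z) - (g (k j a) - ψ (k j a))‖ := by
            rw [hga]; congr 1; abel
        _ ≤ _ := (norm_sub_le _ _).trans_eq (add_comm _ _)
    linarith [hgψ _ (hW'D h1)]
  have hkey : ∀ j, ∑ a ∈ Zj j, sgn (fderiv ℝ Ψ a).det = ∑ b ∈ B, sgn (fderiv ℝ g b).det := by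
    intro j
    rw [← Finset.sum_fiberwise_of_maps_to (t := B) (g := k j)
      (fun a ha => Finset.mem_biUnion.2 ⟨j, Finset.mem_univ _, Finset.mem_image_of_mem _ ha⟩)]
    refine Finset.sum_congr rfl fun b hb => ?_
    obtain ⟨hgb, hbW⟩ := hBmem b hb
    have hbW' : b ∈ W := (hW'sub (subset_closure (hW''sub (subset_closure hbW)).1)).1
    obtain ⟨Zb, hZb, hZbsum⟩ := hdege j (k j) (hk j).continuous.continuousOn
      (fun x hx => (hke j x hx).trans (min_le_right _ _)) b hbW' fun a _ hab =>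
        ⟨_, (hkd j a).hasFDerivAt, (hdetc j a (hab ▸ hgb)).2.1⟩
    have hset : (Zj j).filter (fun a => k j a = b) = Zb := by
      ext a
      rw [Finset.mem_filter, hZb]
      refine ⟨fun h => ⟨((hZ a).1 (Finset.mem_filter.1 h.1).1).1, h.2⟩, fun ⟨haD, hab⟩ => ?_⟩
      have hea : e j a ∈ G := hGnear _ b (subset_closure hbW) (by
        rw [← hab, dist_comm, dist_eq_norm]; exact hke j a haD)
      have haO : a ∈ O j := by
        by_contra h
        exact hea.2 (mem_iUnion.2 ⟨j, a, ⟨haD, h⟩, rfl⟩)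
      have heD : e j a ∈ D := hW'D (subset_closure hea.1)
      have hψa : ‖ψ a - z‖ < δ := by
        have h1 : dist (ψ b) (ψ (e j a)) < κ :=
          hθu b (hW'D (subset_closure (hW''sub (subset_closure hbW)).1)) _ heD
            (by rw [← hab, dist_eq_norm]; exact (hke j a haD).trans_lt hεθ)
        rw [hcomp j a haD heD, dist_eq_norm] at h1
        have h2 := hgψ b (hW'D (subset_closure (hW''sub (subset_closure hbW)).1))
        rw [hgb] at h2
        have h3 : ‖ψ a - z‖ ≤ ‖ψ b - ψ a‖ + ‖z' - ψ b‖ + ‖z' - z‖ := by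
          calc ‖ψ a - z‖ = ‖(z' - z) - (z' - ψ b) - (ψ b - ψ a)‖ := by congr 1; abel
            _ ≤ _ := (norm_sub_le _ _).trans (by linarith [norm_sub_le (z' - z) (z' - ψ b)])
        linarith
      obtain ⟨i, hi⟩ : ∃ i, a ∈ O'' i := by
        by_contra h
        exact absurd (hδb a (Or.inl ⟨haD, fun h' => h (mem_iUnion.1 h')⟩)) (not_le.2 hψa)
      have hij : i = j := hOd i j a (hO''sub i (subset_closure hi)).1 haO
      subst hij
      exact ⟨Finset.mem_filter.2 ⟨(hZ a).2 ⟨haD, (hloc a i hi).eq_of_nhds.trans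
        (by rw [Function.comp_apply, hab, hgb])⟩, hi⟩, hab⟩
    rw [hset, ← mul_one (sgn (fderiv ℝ g b).det), ← hZbsum, Finset.mul_sum]
    refine Finset.sum_congr rfl fun a ha => ?_
    obtain ⟨haD, hab⟩ := (hZb a).1 ha
    have haZj : a ∈ Zj j := (Finset.mem_filter.1 (hset ▸ ha)).1
    obtain ⟨hd1, hd2, hd3⟩ := hdetc j a (hab ▸ hgb)
    rw [(hloc a j (Finset.mem_filter.1 haZj).2).fderiv_eq, hd3, sgn_mul hd1 hd2, hab]
  have htotal : ∑ j, ∑ a ∈ Zj j, sgn (fderiv ℝ Ψ a).det = 1 := by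
    rw [← Finset.sum_biUnion (fun i _ j _ hij => Finset.disjoint_left.2 fun a hai haj =>
      hij (hOd i j a (hO''sub i (subset_closure (Finset.mem_filter.1 hai).2)).1
        (hO''sub j (subset_closure (Finset.mem_filter.1 haj).2)).1)), ← hZsum]
    refine Finset.sum_congr (Finset.ext fun a => ?_) fun _ _ => rfl
    simp only [Finset.mem_biUnion, Finset.mem_univ, true_and, Finset.mem_filter]
    exact ⟨fun ⟨j, h, _⟩ => h, fun h => by
      obtain ⟨j, hj⟩ := hΨfib a ((hZ a).1 h).1 ((hZ a).1 h).2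
      exact ⟨j, h, hj⟩⟩
  rw [Finset.sum_congr rfl fun j _ => hkey j, Finset.sum_const, Finset.card_univ, Fintype.card_fin,
    nsmul_eq_mul] at htotal
  have := Int.le_of_dvd one_pos (Dvd.intro _ htotal)
  omega

end Vale.Agent.P228
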