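import Mathlib

/-!
# Fibres of maps which are pointwise Hölder with exponent close to one

If `f y - f x = O(|y - x| ^ α)` at each point, with `n (1 - α) < 1`, then almost every fibre is so
thin that its image under every distance function is null; in particular it is totally
disconnected.
-/

namespace Vale.Agent.P228

open Set Metric MeasureTheory Filter Asymptotics
open scoped Topology ENNReal

variable {E : Type*} [NormedAddCommGroup E] [InnerProductSpace ℝ E] [FiniteDimensional ℝ E]

/-- `f` is pointwise Hölder at `x` with some exponent `α > 0`, `n (1 - α) < 1`. -/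
def HolAt (f : E → E) (x : E) : Prop :=
  ∃ α : ℝ, 0 < α ∧ (Module.finrank ℝ E : ℝ) * (1 - α) < 1 ∧
    (fun y => f y - f x) =O[𝓝 x] fun y => ‖y - x‖ ^ α

/-- All images of the set under distance functions are null. -/
def IsThin (F : Set E) : Prop :=
  ∀ a : E, volume (dist a '' F) = 0

omit [InnerProductSpace ℝ E] [FiniteDimensional ℝ E] in
theorem IsThin.exists_radius {F : Set E} (hF : IsThin F) (a : E) {ε : ℝ} (hε : 0 < ε) :
    ∃ r ∈ Ioo 0 ε, F ∩ closedBall a r = F ∩ ball a r := by
  obtain ⟨r, hr, hrF⟩ : ∃ r ∈ Ioo 0 ε, r ∉ dist a '' F := by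
    by_contra! h
    have := (measure_mono (μ := volume) h).trans_eq (hF a)
    rw [Real.volume_Ioo, nonpos_iff_eq_zero, ENNReal.ofReal_eq_zero] at this
    linarith
  refine ⟨r, hr, Subset.antisymm (fun x hx => ⟨hx.1, ?_⟩)
    (inter_subset_inter_right _ ball_subset_closedBall)⟩
  rcases (mem_closedBall.1 hx.2).lt_or_eq with h | h
  · exact h
  · exact absurd ⟨x, hx.1, by rw [dist_comm]; exact h⟩ hrF

omit [InnerProductSpace ℝ E] [FiniteDimensional ℝ E] in
theorem IsThin.mono {F G : Set E} (hF : IsThin F) (h : G ⊆ F) : IsThin G :=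
  fun a => measure_mono_null (image_mono h) (hF a)

variable [MeasurableSpace E] [BorelSpace E]

/-- The covering estimate on a bounded piece with uniform constants. -/
theorem ae_thin_piece (μ : Measure E) [μ.IsAddHaarMeasure] {f : E → E} {P : Set E}
    {q C r M : ℝ} (hq : 0 < q) (hnq : (Module.finrank ℝ E : ℝ) * (1 - q) < 1) (hr : 0 < r)
    (hC : 0 ≤ C) (hM : 0 ≤ M) (hPb : P ⊆ closedBall 0 M)
    (hP : ∀ x ∈ P, ∀ y, dist y x < r → ‖f y - f x‖ ≤ C * ‖y - x‖ ^ q) :
    ∀ᵐ z ∂μ, IsThin (P ∩ f ⁻¹' {z}) := by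
  classical
  set n := Module.finrank ℝ E with hn
  let b := stdOrthonormalBasis ℝ E
  set key : ℕ → E → Fin n → ℤ := fun N x i => ⌊((N : ℝ) + 1) * b.repr x i⌋ with hkey
  set K : ℕ → ℕ := fun N => ⌈((N : ℝ) + 1) * M⌉₊ + 1 with hK
  set D : ℕ → ℝ := fun N => ((n : ℝ) + 1) / ((N : ℝ) + 1) with hD
  set T : ℕ → Finset (Fin n → ℤ) := fun N =>
    (Fintype.piFinset fun _ => Finset.Icc (-(K N : ℤ)) (K N)).filter
      (fun t => ∃ x ∈ P, key N x = t) with hT
  set ctr : ℕ → (Fin n → ℤ) → E := fun N t =>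
    if h : ∃ x ∈ P, key N x = t then h.choose else 0 with hctr
  set S : ℕ → E → ℝ≥0∞ := fun N z => ∑ t ∈ T N,
    (closedBall (f (ctr N t)) (C * D N ^ q)).indicator
      (fun _ => ENNReal.ofReal (2 * D N)) z with hS
  have hmeas : ∀ N, Measurable (S N) := fun N =>
    Finset.measurable_sum _ fun t _ => measurable_const.indicator measurableSet_closedBall
  -- points of one cell are close
  have hclose : ∀ N x y, key N x = key N y → dist x y ≤ D N := by
    intro N x y h
    have hN : (0 : ℝ) < (N : ℝ) + 1 := by positivity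
    have hi : ∀ i, |b.repr (x - y) i| ≤ 1 / ((N : ℝ) + 1) := by
      intro i
      have := Int.abs_sub_lt_one_of_floor_eq_floor (congrFun h i)
      rw [← mul_sub, abs_mul, abs_of_pos hN] at this
      rw [le_div_iff₀ hN, mul_comm]
      simpa using this.le
    rw [dist_eq_norm]
    calc ‖x - y‖ = ‖∑ i, b.repr (x - y) i • b i‖ := by rw [b.sum_repr]
      _ ≤ ∑ i, ‖b.repr (x - y) i • b i‖ := norm_sum_le _ _
      _ ≤ ∑ _i : Fin n, 1 / ((N : ℝ) + 1) := by
          refine Finset.sum_le_sum fun i _ => ?_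
          rw [norm_smul, b.orthonormal.1 i, mul_one, Real.norm_eq_abs]
          exact hi i
      _ ≤ D N := by
          simp only [Finset.sum_const, Finset.card_univ, Fintype.card_fin, nsmul_eq_mul, hD]
          rw [← mul_div_assoc, mul_one]
          gcongr
          linarith
  have hkeymem : ∀ N, ∀ x ∈ P, key N x ∈ T N := by
    intro N x hx
    refine Finset.mem_filter.2 ⟨Fintype.mem_piFinset.2 fun i => Finset.mem_Icc.2 ?_, x, hx, rfl⟩
    have hxi : |((N : ℝ) + 1) * b.repr x i| ≤ ((N : ℝ) + 1) * M := by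
      rw [abs_mul, abs_of_pos (by positivity : (0 : ℝ) < (N : ℝ) + 1)]
      refine mul_le_mul_of_nonneg_left ?_ (by positivity)
      calc |b.repr x i| ≤ ‖b.repr x‖ := by
            simpa using PiLp.norm_apply_le (b.repr x) i
        _ = ‖x‖ := b.repr.norm_map x
        _ ≤ M := mem_closedBall_zero_iff.1 (hPb hx)
    have hK' : ((N : ℝ) + 1) * M + 1 ≤ (K N : ℝ) := by
      simp only [hK]; push_cast
      linarith [Nat.le_ceil (((N : ℝ) + 1) * M)]
    obtain ⟨h1, h2⟩ := abs_le.1 hxi
    constructor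
    · refine Int.le_floor.2 ?_
      push_cast
      linarith
    · refine Int.le_of_lt_add_one (Int.floor_lt.2 ?_)
      push_cast
      linarith
  have hctrP : ∀ N, ∀ t ∈ T N, ctr N t ∈ P ∧ key N (ctr N t) = t := by
    intro N t ht
    have h := (Finset.mem_filter.1 ht).2
    simp only [hctr, dif_pos h]
    exact h.choose_spec
  -- the expected cover length tends to zero
  have hlim : Tendsto (fun N => ∫⁻ z, S N z ∂μ) atTop (𝓝 0) := by
    set c : ℝ := (2 * M + 5) ^ n * (C ^ n * ((n : ℝ) + 1) ^ (q * n)) * (2 * ((n : ℝ) + 1)) with hc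
    have hbound : ∀ N, ∫⁻ z, S N z ∂μ ≤
        ENNReal.ofReal (c * ((N : ℝ) + 1) ^ (-(1 - (n : ℝ) * (1 - q)))) *
          μ (ball (0 : E) 1) := by
      intro N
      have hN : (0 : ℝ) < (N : ℝ) + 1 := by positivity
      have hD0 : 0 < D N := by positivity
      simp only [hS]
      rw [lintegral_finsetSum _ fun t _ => measurable_const.indicator measurableSet_closedBall]
      calc ∑ t ∈ T N, ∫⁻ z, (closedBall (f (ctr N t)) (C * D N ^ q)).indicator
            (fun _ => ENNReal.ofReal (2 * D N)) z ∂μ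
          = ∑ _t ∈ T N, ENNReal.ofReal (2 * D N) *
              (ENNReal.ofReal ((C * D N ^ q) ^ n) * μ (ball (0 : E) 1)) := by
            refine Finset.sum_congr rfl fun t _ => ?_
            rw [lintegral_indicator_const measurableSet_closedBall,
              μ.addHaar_closedBall _ (by positivity)]
        _ = ((T N).card : ℝ≥0∞) * (ENNReal.ofReal (2 * D N) *
              (ENNReal.ofReal ((C * D N ^ q) ^ n) * μ (ball (0 : E) 1))) := by
            rw [Finset.sum_const, nsmul_eq_mul]
        _ ≤ ENNReal.ofReal ((((N : ℝ) + 1) * (2 * M + 5)) ^ n) *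
              (ENNReal.ofReal (2 * D N) *
              (ENNReal.ofReal ((C * D N ^ q) ^ n) * μ (ball (0 : E) 1))) := by
            gcongr
            rw [← ENNReal.ofReal_natCast]
            refine ENNReal.ofReal_le_ofReal ?_
            have h1 : ((T N).card : ℝ) ≤ ((2 * K N + 1 : ℕ) : ℝ) ^ n := by
              exact_mod_cast (Finset.card_filter_le _ _).trans_eq (by
                rw [Fintype.card_piFinset, Finset.prod_const, Int.card_Icc, Finset.card_univ,
                  Fintype.card_fin]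
                congr 1
                omega)
            refine h1.trans (pow_le_pow_left₀ (by positivity) ?_ n)
            simp only [hK]; push_cast
            nlinarith [Nat.ceil_lt_add_one (show 0 ≤ ((N : ℝ) + 1) * M by positivity),
              Nat.cast_nonneg (α := ℝ) N]
        _ = _ := by
            rw [← mul_assoc, ← mul_assoc, ← ENNReal.ofReal_mul (by positivity),
              ← ENNReal.ofReal_mul (by positivity)]
            congr 2
            have hw : (0 : ℝ) < (n : ℝ) + 1 := by positivity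
            rw [mul_pow, mul_pow, ← Real.rpow_natCast (D N ^ q) n, ← Real.rpow_mul hD0.le]
            simp only [hD]
            rw [Real.div_rpow hw.le hN.le, neg_sub, Real.rpow_sub hN, Real.rpow_one, mul_sub,
              mul_one, Real.rpow_sub hN, Real.rpow_natCast, mul_comm (n : ℝ) q, hc]
            field_simp
    refine tendsto_of_tendsto_of_tendsto_of_le_of_le tendsto_const_nhds ?_ (fun N => zero_le)
      hbound
    have h1 : Tendsto (fun N : ℕ => c * ((N : ℝ) + 1) ^ (-(1 - (n : ℝ) * (1 - q)))) atTop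
        (𝓝 (c * 0)) :=
      ((tendsto_rpow_neg_atTop (by linarith)).comp
        (tendsto_atTop_add_const_right _ 1 tendsto_natCast_atTop_atTop)).const_mul c
    rw [mul_zero] at h1
    have := ENNReal.Tendsto.mul_const (ENNReal.tendsto_ofReal h1)
      (Or.inr (measure_ball_lt_top (μ := μ) (x := (0 : E)) (r := 1)).ne)
    simpa using this
  have hzero : ∫⁻ z, liminf (fun N => S N z) atTop ∂μ = 0 :=
    le_antisymm ((lintegral_liminf_le hmeas).trans_eq hlim.liminf_eq) zero_le
  filter_upwards [(lintegral_eq_zero_iff (Measurable.liminf hmeas)).1 hzero] with z hz a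
  refine le_antisymm (le_of_le_of_eq ?_ hz) zero_le
  refine le_liminf_of_le (h := ?_)
  have hDr : ∀ᶠ N in atTop, D N < r :=
    (Tendsto.div_atTop tendsto_const_nhds
      (tendsto_atTop_add_const_right _ 1 tendsto_natCast_atTop_atTop)).eventually_lt_const hr
  filter_upwards [hDr] with N hN
  set T' := (T N).filter fun t => z ∈ closedBall (f (ctr N t)) (C * D N ^ q) with hT'
  have hsub : dist a '' (P ∩ f ⁻¹' {z}) ⊆ ⋃ t ∈ T', closedBall (dist a (ctr N t)) (D N) := by
    rintro _ ⟨x, ⟨hxP, hxz⟩, rfl⟩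
    obtain ⟨hcP, hck⟩ := hctrP N (key N x) (hkeymem N x hxP)
    have hd := hclose N x (ctr N (key N x)) hck.symm
    refine mem_iUnion₂.2 ⟨key N x, Finset.mem_filter.2 ⟨hkeymem N x hxP, ?_⟩, ?_⟩
    · rw [mem_closedBall, dist_eq_norm, ← show f x = z from hxz]
      refine (hP _ hcP x (hd.trans_lt hN)).trans (mul_le_mul_of_nonneg_left ?_ hC)
      exact Real.rpow_le_rpow (norm_nonneg _) (by rwa [← dist_eq_norm]) hq.le
    · rw [mem_closedBall, Real.dist_eq]
      rw [dist_comm a x, dist_comm a (ctr N (key N x))]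
      exact (abs_dist_sub_le _ _ _).trans hd
  calc volume (dist a '' (P ∩ f ⁻¹' {z}))
      ≤ volume (⋃ t ∈ T', closedBall (dist a (ctr N t)) (D N)) := measure_mono hsub
    _ ≤ ∑ t ∈ T', volume (closedBall (dist a (ctr N t)) (D N)) := measure_biUnion_finset_le _ _
    _ = ∑ t ∈ T N, (closedBall (f (ctr N t)) (C * D N ^ q)).indicator
          (fun _ => ENNReal.ofReal (2 * D N)) z := by
        simp only [Real.volume_closedBall]
        rw [hT', Finset.sum_filter]
        exact Finset.sum_congr rfl fun t _ => by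
          simp only [indicator_apply]

/-- Almost every fibre of a pointwise Hölder map with exponent close to one is thin. -/
theorem ae_thin_fibre (μ : Measure E) [μ.IsAddHaarMeasure] {f : E → E} {U : Set E}
    (hf : ∀ x ∈ U, HolAt f x) : ∀ᵐ z ∂μ, IsThin (U ∩ f ⁻¹' {z}) := by
  set P : {q : ℚ // 0 < (q : ℝ) ∧ (Module.finrank ℝ E : ℝ) * (1 - q) < 1} → ℕ → Set E :=
    fun q m => {x ∈ U | ‖x‖ ≤ m ∧ ∀ y, dist y x < ((m : ℝ) + 1)⁻¹ →
      ‖f y - f x‖ ≤ ((m : ℝ) + 1) * ‖y - x‖ ^ (q.1 : ℝ)} with hP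
  have hcov : U ⊆ ⋃ q, ⋃ m, P q m := by
    intro x hx
    obtain ⟨α, hα, hnα, hO⟩ := hf x hx
    set n : ℝ := (Module.finrank ℝ E : ℝ)
    set d : ℝ := (1 - n * (1 - α)) / (n + 1)
    have hn0 : 0 ≤ n := Nat.cast_nonneg _
    have hd : 0 < d := div_pos (by linarith) (by linarith)
    obtain ⟨q, hq1, hq2⟩ := exists_rat_btwn (max_lt hα (show α - d < α by linarith))
    have hq0 : (0 : ℝ) < q := (le_max_left _ _).trans_lt hq1
    have hqd : α - d < q := (le_max_right _ _).trans_lt hq1
    have hnq : n * (1 - (q : ℝ)) < 1 := by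
      have e : d * (n + 1) = 1 - n * (1 - α) := div_mul_cancel₀ _ (by linarith)
      nlinarith [mul_le_mul_of_nonneg_left (show 1 - (q : ℝ) ≤ 1 - α + d by linarith) hn0]
    obtain ⟨C, hC⟩ := hO.bound
    obtain ⟨δ, hδ, hb⟩ := Metric.eventually_nhds_iff.1 hC
    obtain ⟨m, hm⟩ := exists_nat_gt (max (max C ‖x‖) (max δ⁻¹ 1))
    simp only [max_lt_iff] at hm
    refine mem_iUnion₂.2 ⟨⟨q, hq0, hnq⟩, m, hx, by linarith, fun y hy => ?_⟩
    have hy1 : dist y x ≤ 1 := hy.le.trans (inv_le_one_of_one_le₀ (by linarith))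
    have h1 := hb (hy.trans_le (by rw [inv_le_comm₀ (by positivity) hδ]; linarith))
    rcases eq_or_ne y x with rfl | hyx
    · simp [Real.zero_rpow hq0.ne']
    have hpos : 0 < ‖y - x‖ := norm_pos_iff.2 (sub_ne_zero.2 hyx)
    calc ‖f y - f x‖ ≤ C * ‖‖y - x‖ ^ α‖ := h1
      _ ≤ ((m : ℝ) + 1) * ‖y - x‖ ^ α := by
          rw [Real.norm_of_nonneg (by positivity)]; gcongr; linarith
      _ ≤ ((m : ℝ) + 1) * ‖y - x‖ ^ (q : ℝ) := by
          refine mul_le_mul_of_nonneg_left ?_ (by positivity)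
          exact Real.rpow_le_rpow_of_exponent_ge hpos (by rwa [← dist_eq_norm]) hq2.le
  have hae : ∀ᵐ z ∂μ, ∀ q m, IsThin (P q m ∩ f ⁻¹' {z}) :=
    ae_all_iff.2 fun q => ae_all_iff.2 fun m =>
      ae_thin_piece μ q.2.1 q.2.2 (inv_pos.2 (by positivity : (0 : ℝ) < (m : ℝ) + 1))
        (by positivity : (0 : ℝ) ≤ (m : ℝ) + 1) (Nat.cast_nonneg m)
        (fun x hx => mem_closedBall_zero_iff.2 hx.2.1) fun x hx => hx.2.2
  filter_upwards [hae] with z hz a
  refine measure_mono_null (t := ⋃ q, ⋃ m, dist a '' (P q m ∩ f ⁻¹' {z})) ?_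
    (measure_iUnion_null fun q => measure_iUnion_null fun m => hz q m a)
  rintro _ ⟨x, ⟨hxU, hxz⟩, rfl⟩
  obtain ⟨q, m, hm⟩ := mem_iUnion₂.1 (hcov hxU)
  exact mem_iUnion₂.2 ⟨q, m, x, ⟨hm, hxz⟩, rfl⟩

end Vale.Agent.P228
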