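import Vale.Agent.P228.Action
import Vale.Agent.P228.ProP
import Vale.Agent.P228.Thin
import Vale.Agent.P228.Split

/-!
# Invariant maps of degree one and procyclic groups with prime power orbits

A totally disconnected fibre of an invariant map of degree one contains a fixed point.
-/

namespace Vale.Agent.P228

open Set Metric Filter Function
open scoped Topology

variable {H : Type*} [Group H] [TopologicalSpace H] [IsTopologicalGroup H]

/-- The subgroup topologically generated by `g ^ p`. -/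
def powSubgroup (g : H) (p : ℕ) : Subgroup H :=
  (Subgroup.zpowers (g ^ p)).topologicalClosure

theorem exists_coset {g : H} (hg : Dense (Subgroup.zpowers g : Set H)) {p : ℕ} (hp : 0 < p)
    (h : H) : ∃ j : Fin p, (g ^ (j : ℕ))⁻¹ * h ∈ powSubgroup g p := by
  have hc : IsClosed (⋃ j : Fin p, (fun x => (g ^ (j : ℕ))⁻¹ * x) ⁻¹' (powSubgroup g p : Set H)) :=
    isClosed_iUnion_of_finite fun j =>
      (Subgroup.isClosed_topologicalClosure _).preimage (continuous_const_mul _)
  have hsub : (Subgroup.zpowers g : Set H) ⊆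
      ⋃ j : Fin p, (fun x => (g ^ (j : ℕ))⁻¹ * x) ⁻¹' (powSubgroup g p : Set H) := by
    intro x hx
    obtain ⟨k, rfl⟩ := Subgroup.mem_zpowers_iff.1 hx
    have hmod : 0 ≤ k % (p : ℤ) := Int.emod_nonneg _ (by omega)
    have hlt : k % (p : ℤ) < p := Int.emod_lt_of_pos _ (by omega)
    refine mem_iUnion.2 ⟨⟨(k % (p : ℤ)).toNat, by omega⟩,
      Subgroup.le_topologicalClosure _ (Subgroup.mem_zpowers_iff.2 ⟨k / (p : ℤ), ?_⟩)⟩
    show (g ^ p) ^ (k / (p : ℤ)) = (g ^ ((k % (p : ℤ)).toNat))⁻¹ * g ^ k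
    rw [← zpow_natCast g p, ← zpow_mul, ← zpow_natCast g (k % (p : ℤ)).toNat, Int.toNat_of_nonneg hmod,
      ← zpow_neg, ← zpow_add]
    congr 1
    have := Int.mul_ediv_add_emod k (p : ℤ)
    omega
  have := hc.closure_subset_iff.2 hsub (hg h)
  exact mem_iUnion.1 this

variable [CompactSpace H] [TotallyDisconnectedSpace H]

/-- A closed proper subgroup lies in `powSubgroup g p`, which does not contain `g`. -/
theorem proper_le_powSubgroup {g : H} (hg : Dense (Subgroup.zpowers g : Set H)) {p : ℕ}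
    (hp : p.Prime) (hH : IsOrbitPrime p H) {S : Subgroup H} (hS : IsClosed (S : Set H))
    (hne : S ≠ ⊤) : S ≤ powSubgroup g p ∧ g ∉ powSubgroup g p := by
  have : T2Space H := inferInstance
  have hcomm : ∀ x y : H, x * y = y * x := by
    have h : ∀ x ∈ (Subgroup.zpowers g : Set H), ∀ y : H, x * y = y * x := by
      intro x hx y
      have hcl : IsClosed {y | x * y = y * x} :=
        isClosed_eq (continuous_const_mul x) (continuous_mul_const x)
      refine hcl.closure_subset_iff.2 ?_ (hg y)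
      intro w hw
      obtain ⟨a, rfl⟩ := Subgroup.mem_zpowers_iff.1 hx
      obtain ⟨b, rfl⟩ := Subgroup.mem_zpowers_iff.1 hw
      exact (Commute.refl g).zpow_zpow a b
    intro x y
    have hcl : IsClosed {x | x * y = y * x} :=
      isClosed_eq (continuous_mul_const y) (continuous_const_mul y)
    exact hcl.closure_subset_iff.2 (fun w hw => h w hw y) (hg x)
  obtain ⟨h₀, hh₀⟩ : ∃ h, h ∉ S := by
    by_contra! h
    exact hne (top_unique fun x _ => h x)
  obtain ⟨N, hN⟩ := ProfiniteGrp.exist_openNormalSubgroup_sub_open_nhds_of_one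
    (hS.isOpen_compl.preimage (continuous_const_mul h₀))
    (show h₀ * 1 ∈ (S : Set H)ᶜ by simpa using hh₀)
  have := N.isNormal'
  set T : Subgroup H := S ⊔ N.toSubgroup with hT
  have hTo : IsOpen (T : Set H) := Subgroup.isOpen_mono le_sup_right N.toOpenSubgroup.isOpen
  have hhT : h₀ ∉ T := by
    intro hmem
    obtain ⟨s, hs, m, hm, e⟩ := Subgroup.mem_sup_of_normal_right.1 hmem
    exact hN (inv_mem hm : m⁻¹ ∈ N.toSubgroup)
      (show h₀ * m⁻¹ ∈ (S : Set H) by rw [← e, mul_inv_cancel_right]; exact hs)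
  have hTn : T.Normal := ⟨fun x hx y => by rwa [hcomm y x, mul_inv_cancel_right]⟩
  have hTfin : Finite (H ⧸ T) := Subgroup.quotient_finite_of_isOpen T hTo
  obtain ⟨a, ha⟩ := hH T hTo fun h => hhT (h ▸ Subgroup.mem_top h₀)
  have hq0 : T.index ≠ 0 := Subgroup.index_ne_zero_of_finite
  have ha0 : 0 < a := Nat.pos_of_ne_zero fun h => hq0 (by rw [ha, h, mul_zero])
  let T' : Subgroup H :=
    { carrier := {x | x ^ a ∈ T}
      one_mem' := by simp
      mul_mem' := fun {x y} hx hy => by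
        show (x * y) ^ a ∈ T
        rw [(show Commute x y from hcomm x y).mul_pow]
        exact mul_mem hx hy
      inv_mem' := fun {x} hx => by
        show x⁻¹ ^ a ∈ T
        rw [inv_pow]; exact inv_mem hx }
  have hTT' : T ≤ T' := fun x hx => pow_mem hx a
  have hgp : g ^ p ∈ T' := by
    show (g ^ p) ^ a ∈ T
    rw [← pow_mul, ← ha]
    exact Subgroup.pow_index_mem T g
  have hUT' : powSubgroup g p ≤ T' :=
    Subgroup.topologicalClosure_minimal _ (Subgroup.zpowers_le.2 hgp)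
      (Subgroup.isClosed_of_isOpen T' (Subgroup.isOpen_mono hTT' hTo))
  have hgT' : g ∉ T' := by
    intro hga
    have hsurj : Surjective fun j : Fin a => (QuotientGroup.mk (g ^ (j : ℕ)) : H ⧸ T) := by
      intro q
      induction q using QuotientGroup.induction_on with
      | H x =>
        obtain ⟨j, hj⟩ := exists_coset hg ha0 x
        exact ⟨j, QuotientGroup.eq.2 ((Subgroup.topologicalClosure_minimal _
          (Subgroup.zpowers_le.2 (show g ^ a ∈ T from hga))
          (Subgroup.isClosed_of_isOpen T hTo)) hj)⟩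
    have h1 : T.index ≤ a := by
      have := Nat.card_le_card_of_surjective _ hsurj
      rwa [Nat.card_fin] at this
    rw [ha] at h1
    nlinarith [hp.two_le]
  refine ⟨fun s hs => ?_, fun h => hgT' (hUT' h)⟩
  obtain ⟨j, hj⟩ := exists_coset hg hp.pos s
  rcases Nat.eq_zero_or_pos (j : ℕ) with hj0 | hj0
  · simpa [hj0] using hj
  exfalso
  have hgj : g ^ (j : ℕ) ∈ T' := by
    have h1 : s ∈ T' := hTT' (le_sup_left (b := N.toSubgroup) hs)
    have h2 := mul_mem h1 (inv_mem (hUT' hj))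
    rwa [mul_inv_rev, inv_inv, mul_inv_cancel_left] at h2
  have hcop : Nat.Coprime (j : ℕ) p :=
    ((hp.coprime_iff_not_dvd).2 fun hd => by
      have := Nat.le_of_dvd hj0 hd
      omega).symm
  obtain ⟨u, v, huv⟩ := (Nat.isCoprime_iff_coprime.2 hcop : IsCoprime ((j : ℕ) : ℤ) (p : ℤ))
  refine hgT' ?_
  have e : g = (g ^ (j : ℕ)) ^ u * (g ^ p) ^ v := by
    rw [← zpow_natCast g (j : ℕ), ← zpow_natCast g p, ← zpow_mul, ← zpow_mul, ← zpow_add,
      mul_comm ((j : ℕ) : ℤ), mul_comm (p : ℤ), huv, zpow_one]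
  rw [e]
  exact mul_mem (zpow_mem hgj _) (zpow_mem hgp _)

variable {E : Type*} [NormedAddCommGroup E]

/-- A totally disconnected invariant compact set without fixed points splits into `p` pieces
permuted by the generator. -/
theorem exists_label {A : H → E → E} {V : Set E} (hA : IsAction A V) {g : H}
    (hg : Dense (Subgroup.zpowers g : Set H)) {p : ℕ} (hp : p.Prime) (hH : IsOrbitPrime p H)
    {F : Set E} (hF : IsCompact F) (hFV : F ⊆ V) (hinv : ∀ h, ∀ x ∈ F, A h x ∈ F)
    (hthin : IsThin F) (hfree : ∀ x ∈ F, ∃ h, A h x ≠ x) :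
    ∃ C₀ : Set E, IsCompact C₀ ∧ C₀ ⊆ F ∧ (∀ x ∈ F, ∃ j : Fin p, A (g ^ (j : ℕ)) x ∈ C₀) ∧
      ∀ i j : Fin p, ∀ x ∈ F, A (g ^ (i : ℕ)) x ∈ C₀ → A (g ^ (j : ℕ)) x ∈ C₀ → i = j := by
  have : T2Space H := inferInstance
  set U := powSubgroup g p with hU
  have hUc : IsClosed (U : Set H) := Subgroup.isClosed_topologicalClosure _
  have : U.FiniteIndex := by
    refine ⟨?_⟩
    have hsurj : Surjective fun j : Fin p => (QuotientGroup.mk (g ^ (j : ℕ)) : H ⧸ U) := by
      intro q
      induction q using QuotientGroup.induction_on with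
      | H x =>
        obtain ⟨j, hj⟩ := exists_coset hg hp.pos x
        exact ⟨j, QuotientGroup.eq.2 hj⟩
    have : Finite (H ⧸ U) := Finite.of_surjective _ hsurj
    exact Subgroup.index_ne_zero_of_finite
  have hUo : IsOpen (U : Set H) := Subgroup.isOpen_of_isClosed_of_finiteIndex U hUc
  have hstab : ∀ x ∈ F, (∀ h, A h x = x → h ∈ U) ∧ g ∉ U := by
    intro x hx
    let S : Subgroup H :=
      { carrier := {k | A k x = x}
        one_mem' := hA.one x (hFV hx)
        mul_mem' := fun {a b} ha hb => by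
          show A (a * b) x = x
          rw [hA.mul a b x (hFV hx), show A b x = x from hb]
          exact ha
        inv_mem' := fun {a} ha => by
          show A a⁻¹ x = x
          conv_lhs => rw [← show A a x = x from ha]
          exact hA.inv_apply a (hFV hx) }
    obtain ⟨h₀, hh₀⟩ := hfree x hx
    have := proper_le_powSubgroup hg hp hH (S := S)
      (isClosed_eq (hA.continuous_orbit (hFV hx)) continuous_const)
      fun e => hh₀ (e ▸ Subgroup.mem_top h₀ : h₀ ∈ S)
    exact ⟨fun h hh => this.1 hh, this.2⟩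
  have hrad : ∀ a ∈ F, ∃ r > 0, F ∩ closedBall a r = F ∩ ball a r ∧
      ∀ h ∉ U, ∀ x ∈ F ∩ closedBall a r, r < dist (A h x) a := by
    intro a ha
    have hcl : IsCompact ((U : Set H)ᶜ) := hUo.isClosed_compl.isCompact
    obtain ⟨m, hm, hmle⟩ := hcl.exists_forall_le' (f := fun h => dist (A h a) a)
      ((hA.continuous_orbit (hFV ha)).dist continuous_const).continuousOn
      (a := (0 : ℝ)) fun h hh => dist_pos.2 fun e => hh ((hstab a ha).1 h e)
    have hev : ∀ᶠ x in 𝓝 a, ∀ h ∈ (U : Set H)ᶜ, m / 2 < dist (A h x) a := by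
      refine hcl.eventually_forall_of_forall_eventually
        (P := fun x h => m / 2 < dist (A h x) a) fun h hh => ?_
      have hsw : ContinuousAt (fun z : E × H => A z.2 z.1) (a, h) :=
        (hA.continuousOn.continuousAt ((isOpen_univ.prod hA.isOpen).mem_nhds
          (show (h, a) ∈ univ ×ˢ V from ⟨trivial, hFV ha⟩))).comp
            (x := (a, h)) (f := fun z : E × H => (z.2, z.1)) continuous_swap.continuousAt
      exact (hsw.dist continuousAt_const).eventually
        (lt_mem_nhds (by linarith [hmle h hh]))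
    obtain ⟨ε, hε, hεb⟩ := Metric.eventually_nhds_iff.1 hev
    obtain ⟨r, hr, hrF⟩ := hthin.exists_radius a (lt_min hε (half_pos hm))
    exact ⟨r, hr.1, hrF, fun h hh x hx => (hr.2.trans_le (min_le_right _ _)).trans
      (hεb ((mem_closedBall.1 hx.2).trans_lt (hr.2.trans_le (min_le_left _ _))) h hh)⟩
  choose! r hr hrF hrU using hrad
  obtain ⟨s, hs, hcover⟩ := hF.elim_nhds_subcover (fun a => ball a (r a))
    fun a ha => ball_mem_nhds a (hr a ha)
  let pts := s.toList
  set ctr : Fin pts.length → E := fun i => pts.get i with hctr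
  have hctrF : ∀ i, ctr i ∈ F := fun i => hs _ (Finset.mem_toList.1 (List.get_mem pts i))
  set near : Fin pts.length → Set H → Set E := fun i S =>
    {x ∈ F | ∃ h ∈ S, A h x ∈ closedBall (ctr i) (r (ctr i))} with hnear
  set opn : Fin pts.length → Set H → Set E := fun i S =>
    ⋃ h ∈ S, V ∩ A h ⁻¹' ball (ctr i) (r (ctr i)) with hopn
  have hopno : ∀ i S, IsOpen (opn i S) := fun i S => isOpen_biUnion fun h _ =>
    (hA.continuousOn_apply h).isOpen_inter_preimage hA.isOpen isOpen_ball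
  have hnearc : ∀ i S, IsClosed S → IsCompact (near i S) := by
    intro i S hS
    have hK : IsCompact ((S ×ˢ F) ∩
        (fun z : H × E => A z.1 z.2) ⁻¹' closedBall (ctr i) (r (ctr i))) :=
      (hS.isCompact.prod hF).of_isClosed_subset
        (ContinuousOn.preimage_isClosed_of_isClosed
          (hA.continuousOn.mono (prod_mono (subset_univ _) hFV))
          (hS.prod hF.isClosed) isClosed_closedBall) inter_subset_left
    convert hK.image continuous_snd using 1
    ext x
    refine ⟨fun ⟨hx, h, hh, hb⟩ => ⟨(h, x), ⟨⟨hh, hx⟩, hb⟩, rfl⟩, ?_⟩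
    rintro ⟨⟨h, y⟩, ⟨⟨hh, hy⟩, hb⟩, rfl⟩
    exact ⟨hy, h, hh, hb⟩
  have hno : ∀ i S, ∀ x ∈ F, (x ∈ near i S ↔ x ∈ opn i S) := by
    intro i S x hx
    refine ⟨fun ⟨_, h, hh, hb⟩ => mem_iUnion₂.2 ⟨h, hh, hFV hx, ?_⟩, fun h => ?_⟩
    · exact ((hrF _ (hctrF i)).subset ⟨hinv h x hx, hb⟩).2
    · obtain ⟨k, hk, -, hb⟩ := mem_iUnion₂.1 h
      exact ⟨hx, k, hk, ball_subset_closedBall hb⟩
  refine ⟨⋃ i, near i (U : Set H) \ ⋃ l ∈ {l | l < i}, opn l univ,
    isCompact_iUnion fun i => (hnearc i _ hUc).diff (isOpen_biUnion fun l _ => hopno l univ),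
    iUnion_subset fun i x hx => hx.1.1, ?_, ?_⟩
  · intro x hx
    classical
    have hex : ∃ k, ∃ hk : k < pts.length, x ∈ near ⟨k, hk⟩ univ := by
      obtain ⟨a, ha, hxa⟩ := mem_iUnion₂.1 (hcover hx)
      obtain ⟨i, hi⟩ := List.mem_iff_get.1 (Finset.mem_toList.2 ha)
      refine ⟨i, i.2, hx, 1, trivial, ?_⟩
      rw [hA.one x (hFV hx)]
      exact ball_subset_closedBall (by show x ∈ ball (pts.get i) (r (pts.get i)); rw [hi]; exact hxa)
    obtain ⟨hk, hxk⟩ := Nat.find_spec hex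
    obtain ⟨-, h, -, hb⟩ := hxk
    obtain ⟨j, hj⟩ := exists_coset hg hp.pos h
    refine ⟨j, mem_iUnion.2 ⟨⟨Nat.find hex, hk⟩, ⟨⟨hinv _ x hx, h * (g ^ (j : ℕ))⁻¹, ?_, ?_⟩, ?_⟩⟩⟩
    · have hn : Commute h (g ^ (j : ℕ))⁻¹ := by
        have hcl : IsClosed {w | w * (g ^ (j : ℕ))⁻¹ = (g ^ (j : ℕ))⁻¹ * w} :=
          isClosed_eq (continuous_mul_const _) (continuous_const_mul _)
        refine hcl.closure_subset_iff.2 ?_ (hg h)
        intro w hw
        obtain ⟨b, rfl⟩ := Subgroup.mem_zpowers_iff.1 hw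
        exact ((Commute.refl g).zpow_left b).pow_right (j : ℕ) |>.inv_right
      show h * (g ^ (j : ℕ))⁻¹ ∈ (U : Set H)
      rw [hn.eq]; exact hj
    · rwa [← hA.mul _ _ x (hFV hx), inv_mul_cancel_right]
    · intro hmem
      obtain ⟨l, hl, hlx⟩ := mem_iUnion₂.1 hmem
      obtain ⟨-, k, -, hkb⟩ := (hno l univ _ (hinv _ x hx)).2 hlx
      refine Nat.find_min hex (show (l : ℕ) < Nat.find hex from hl) ⟨l.2, hx, k * g ^ (j : ℕ),
        trivial, ?_⟩
      rwa [hA.mul _ _ x (hFV hx)]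
  · intro i j x hx hi hj
    obtain ⟨a, ⟨ha, u, hu, hua⟩, hna⟩ := mem_iUnion.1 hi
    obtain ⟨b, ⟨hb, w, hw, hwb⟩, hnb⟩ := mem_iUnion.1 hj
    have key : ∀ (a b : Fin pts.length) (i j : ℕ) (u : H), a < b →
        A u (A (g ^ i) x) ∈ closedBall (ctr a) (r (ctr a)) →
        A (g ^ j) x ∈ opn a univ := by
      intro a b i j u _ hua
      refine (hno a univ _ (hinv _ x hx)).1 ⟨hinv _ x hx, u * g ^ i * (g ^ j)⁻¹, trivial, ?_⟩
      rwa [← hA.mul _ _ x (hFV hx), inv_mul_cancel_right, hA.mul _ _ x (hFV hx)]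
    rcases lt_trichotomy a b with hab | hab | hab
    · exact absurd (mem_iUnion₂.2 ⟨a, hab, key a b i j u hab hua⟩) hnb
    · subst hab
      set y := A u (A (g ^ (i : ℕ)) x) with hy
      have hyF : y ∈ F := hinv _ _ (hinv _ _ hx)
      set k := w * g ^ (j : ℕ) * (u * g ^ (i : ℕ))⁻¹ with hk
      have hky : A k y = A w (A (g ^ (j : ℕ)) x) := by
        rw [hy, ← hA.mul _ _ x (hFV hx), ← hA.mul _ _ x (hFV hx), hk, ← hA.mul _ _ x (hFV hx),
          inv_mul_cancel_right]
      have hkU : k ∈ U := by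
        by_contra hne
        have := hrU _ (hctrF a) k hne y ⟨hyF, hua⟩
        rw [hky] at this
        exact absurd (mem_closedBall.1 hwb) (not_le.2 this)
      have hij : g ^ ((j : ℕ) : ℤ) * (g ^ ((i : ℕ) : ℤ))⁻¹ ∈ U := by
        have e : g ^ ((j : ℕ) : ℤ) * (g ^ ((i : ℕ) : ℤ))⁻¹ = w⁻¹ * k * u := by
          rw [hk, zpow_natCast, zpow_natCast]; group
        rw [e]
        exact mul_mem (mul_mem (inv_mem hw) hkU) hu
      rw [← zpow_neg, ← zpow_add] at hij
      by_contra hne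
      have hd : ¬ (p : ℤ) ∣ ((j : ℕ) : ℤ) + -((i : ℕ) : ℤ) := by
        intro hd
        have hne' : (i : ℕ) ≠ (j : ℕ) := fun e => hne (Fin.ext e)
        have := Int.le_of_dvd (abs_pos.2 (by omega) : (0 : ℤ) < |((j : ℕ) : ℤ) + -((i : ℕ) : ℤ)|)
          ((dvd_abs _ _).2 hd)
        have := i.2
        have := j.2
        rcases abs_cases (((j : ℕ) : ℤ) + -((i : ℕ) : ℤ)) with h | h <;> omega
      obtain ⟨c, d, hcd⟩ :=
        (((Nat.prime_iff_prime_int.1 hp).coprime_iff_not_dvd).2 hd : IsCoprime (p : ℤ) _)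
      refine (hstab x hx).2 ?_
      have e : g = (g ^ p) ^ c * (g ^ (((j : ℕ) : ℤ) + -((i : ℕ) : ℤ))) ^ d := by
        rw [← zpow_natCast g p, ← zpow_mul, ← zpow_mul, ← zpow_add, mul_comm (p : ℤ),
          mul_comm _ d, hcd, zpow_one]
      rw [e]
      exact mul_mem (zpow_mem (Subgroup.le_topologicalClosure _ (Subgroup.mem_zpowers _)) _)
        (zpow_mem hij _)
    · exact absurd (mem_iUnion₂.2 ⟨b, hab, key b a j i w hab hwb⟩) hna

/-- **Fixed points in thin fibres**: a thin fibre of an invariant map of degree one over `z`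
contains a fixed point, if the group elements have degree one near it. -/
theorem exists_fixed_in_fibre [InnerProductSpace ℝ E] [FiniteDimensional ℝ E]
    {A : H → E → E} {V : Set E} (hA : IsAction A V) {g : H}
    (hg : Dense (Subgroup.zpowers g : Set H)) {p : ℕ} (hp : p.Prime) (hH : IsOrbitPrime p H)
    {D : Set E} (hD : IsCompact D) (hDV : D ⊆ V) {ψ : E → E} (hψ : ContinuousOn ψ D) {z : E}
    {η : ℝ} (hη : 0 < η) (hdeg : DegOne D ψ (closedBall z η) η)
    (hinv : ∀ h, ∀ x ∈ D, A h x ∈ D → ψ (A h x) = ψ x)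
    (horbit : ∀ x ∈ D, ψ x = z → ∀ h, A h x ∈ D) (hint : ∀ x ∈ D, ψ x = z → x ∈ interior D)
    {W : Set E} (hW : IsOpen W) (hWfib : ∀ x ∈ D, ψ x = z → x ∈ W)
    (hdege : ∀ h, DegOne D (A h) W η) (hthin : IsThin (D ∩ ψ ⁻¹' {z})) :
    ∃ x ∈ D, ψ x = z ∧ ∀ h, A h x = x := by
  by_contra! hfree
  set F : Set E := D ∩ ψ ⁻¹' {z} with hF
  have hFc : IsCompact F :=
    hD.of_isClosed_subset (hψ.preimage_isClosed_of_isClosed hD.isClosed isClosed_singleton)
      inter_subset_left
  have hFinv : ∀ h, ∀ x ∈ F, A h x ∈ F := fun h x hx =>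
    ⟨horbit x hx.1 hx.2 h, (hinv h x hx.1 (horbit x hx.1 hx.2 h)).trans hx.2⟩
  obtain ⟨C₀, hC₀, hC₀F, hcov, huniq⟩ := exists_label hA hg hp hH hFc
    (fun x hx => hDV hx.1) hFinv hthin fun x hx => hfree x hx.1 hx.2
  have hpre : ∀ h, ∀ x ∈ D, A h x ∈ C₀ → x ∈ F := fun h x hx hC =>
    ⟨hx, (hinv h x hx (hC₀F hC).1).symm.trans (hC₀F hC).2⟩
  refine no_split hD hψ hη hdeg hp.two_le (e := fun j : Fin p => A (g ^ (j : ℕ)))
    (fun j => (hA.continuousOn_apply _).mono hDV) hC₀ hW
    (fun x hx => hWfib x (hC₀F hx).1 (hC₀F hx).2) (fun j => hdege _)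
    (fun j x hx hjx => hinv _ x hx hjx)
    (fun j x hx => hint x hx.1 (hpre _ x hx.1 hx.2).2) ?_
    (fun x hx hxz => hcov x ⟨hx, hxz⟩) (j₀ := ⟨0, hp.pos⟩) ?_
  · intro i j hij
    exact disjoint_left.2 fun x hxi hxj =>
      hij (huniq i j x (hpre _ x hxi.1 hxi.2) hxi.2 hxj.2)
  · ext x
    simp only [pow_zero, mem_inter_iff, mem_preimage]
    refine ⟨fun hx => ?_, fun hx => ⟨(hC₀F hx).1, ?_⟩⟩
    · rw [hA.one x (hDV hx.1)] at hx; exact hx.2
    · rwa [hA.one x (hDV (hC₀F hx).1)]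

end Vale.Agent.P228
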