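import Mathlib

/-!
# A degree formula for maps near the identity

If `ψ` is continuous on a closed ball, close to the identity, and differentiable with invertible
derivative at each preimage of a point `z` deep inside the ball, then `z` has finitely many
preimages and the signs of the Jacobians there sum to `1`.

The proof is analytic: for `Φ = id + v` with `v` of class `C¹` and compact support, the integral of
`det DΦ - 1` is a polynomial in the size of `v`, vanishing for small values, hence everywhere.
Composing with `x ↦ x + w x • e` then shows that `∫ η (Φ x) * det DΦ x` does not change when `η` is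
translated.
-/

namespace Vale.Agent.P228

open Set Metric MeasureTheory Filter Function
open scoped Topology ContDiff

section Integral

variable {E : Type*} [NormedAddCommGroup E] [InnerProductSpace ℝ E] [FiniteDimensional ℝ E]
  [MeasurableSpace E] [BorelSpace E]

omit [FiniteDimensional ℝ E] [MeasurableSpace E] [BorelSpace E] in
/-- The derivative of a function vanishes outside any closed set outside of which it vanishes. -/
theorem fderiv_eq_zero_of_forall_notMem {F : Type*} [NormedAddCommGroup F] [NormedSpace ℝ F]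
    {v : E → F} {B : Set E} (hB : IsClosed B) (h : ∀ x ∉ B, v x = 0) {x : E} (hx : x ∉ B) :
    fderiv ℝ v x = 0 := by
  have : v =ᶠ[𝓝 x] fun _ => (0 : F) :=
    eventually_of_mem (hB.isOpen_compl.mem_nhds hx) fun y hy => h y hy
  rw [this.fderiv_eq]
  simp

/-- The volume of the image of the space under a compact perturbation of the identity. -/
theorem integral_det_one_add_fderiv {v : E → E} (hv : ContDiff ℝ 1 v) {R : ℝ}
    (hsupp : ∀ x ∉ closedBall (0 : E) R, v x = 0) (μ : Measure E) [μ.IsAddHaarMeasure] :
    ∫ x in closedBall (0 : E) R, (ContinuousLinearMap.id ℝ E + fderiv ℝ v x).det ∂μ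
      = μ.real (closedBall (0 : E) R) := by
  set B : Set E := closedBall (0 : E) R with hB
  have hBc : IsCompact B := isCompact_closedBall _ _
  have hcs : HasCompactSupport v := HasCompactSupport.intro hBc hsupp
  obtain ⟨C₀, hC₀⟩ := hv.lipschitzWith_of_hasCompactSupport hcs one_ne_zero
  set C : ℝ := (C₀ : ℝ) + 1 with hCdef
  have hC : 0 < C := by positivity
  set A : E → E →L[ℝ] E := fun x => fderiv ℝ v x with hA
  have hAc : Continuous A := hv.continuous_fderiv one_ne_zero
  have hAb : ∀ x, ‖A x‖ ≤ C := fun x =>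
    (norm_fderiv_le_of_lipschitz ℝ hC₀).trans (by linarith)
  set d : ℝ → E → ℝ := fun t x => (ContinuousLinearMap.id ℝ E + t • A x).det with hd
  have hdc : ∀ t, ContinuousOn (d t) B := fun t =>
    (ContinuousLinearMap.continuous_det.comp
      (continuous_const.add (hAc.const_smul t))).continuousOn
  let b := Module.finBasis ℝ E
  set n := Module.finrank ℝ E
  set M : E → Matrix (Fin n) (Fin n) ℝ := fun x => LinearMap.toMatrix b b (A x).toLinearMap with hM
  have hdM : ∀ t x, d t x = (1 + t • M x).det := by
    intro t x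
    rw [hd, hM]
    simp only [ContinuousLinearMap.det]
    rw [← LinearMap.det_toMatrix b]
    congr 1
    simp [map_add, map_smul]
  let u : Fin (n + 1) → ℝ := fun j => (j : ℕ)
  have hu : InjOn u (Finset.univ : Finset (Fin (n + 1))) := fun i _ j _ h =>
    Fin.val_injective (by simpa [u] using h)
  have hpoly : ∀ t x, d t x =
      ∑ j, d (u j) x * (Lagrange.basis Finset.univ u j).eval t := by
    intro t x
    set p : Polynomial ℝ :=
      ((Polynomial.X : Polynomial ℝ) • (M x).map Polynomial.C + (1 : Matrix (Fin n) (Fin n) ℝ).map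
        Polynomial.C).det with hp
    have hev : ∀ s, p.eval s = d s x := by
      intro s
      rw [hdM, hp, ← Polynomial.coe_evalRingHom, RingHom.map_det]
      congr 1
      ext i j
      by_cases hij : i = j <;> simp [hij] <;> ring
    have hdeg : p.degree < (Finset.univ : Finset (Fin (n + 1))).card := by
      refine lt_of_le_of_lt Polynomial.degree_le_natDegree ?_
      have h := Polynomial.natDegree_det_X_add_C_le (M x) 1
      rw [Fintype.card_fin] at h
      rw [Finset.card_univ, Fintype.card_fin]
      exact_mod_cast Nat.lt_succ_of_le h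
    rw [← hev, Lagrange.eq_interpolate hu hdeg, Lagrange.interpolate_apply,
      Polynomial.eval_finsetSum]
    simp [hev]
  set P : ℝ → ℝ := fun t => ∫ x in B, d t x ∂μ with hP
  set Q : Polynomial ℝ :=
    ∑ j, Polynomial.C (P (u j)) * Lagrange.basis Finset.univ u j with hQ
  have hPQ : ∀ t, P t = Q.eval t := by
    intro t
    rw [hQ, Polynomial.eval_finsetSum]
    simp only [Polynomial.eval_mul, Polynomial.eval_C, hP]
    rw [setIntegral_congr_fun measurableSet_closedBall (fun x _ => hpoly t x),
      integral_finsetSum]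
    · simp [integral_mul_const, hB]
    · exact fun j _ => ((hdc (u j)).integrableOn_compact hBc).mul_const _
  have hsmall : ∀ t ∈ Ioo (0 : ℝ) (1 / C), Q.eval t = μ.real B := by
    intro t ht
    have htC : t * C < 1 := (lt_div_iff₀ hC).1 ht.2
    set Φ : E → E := fun x => x + t • v x with hΦ
    have hinj : Function.Injective Φ := by
      intro x y h
      have e : x - y = t • (v y - v x) := by
        have h' : x + t • v x = y + t • v y := h
        rw [smul_sub]; linear_combination (norm := abel) h'
      have hn : ‖x - y‖ ≤ t * C * ‖x - y‖ := by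
        calc ‖x - y‖ = t * ‖v y - v x‖ := by
                rw [e, norm_smul, Real.norm_eq_abs, abs_of_nonneg ht.1.le]
          _ ≤ t * (C * ‖y - x‖) := by
                refine mul_le_mul_of_nonneg_left ((hC₀.norm_sub_le y x).trans ?_) ht.1.le
                gcongr
                linarith
          _ = t * C * ‖x - y‖ := by rw [norm_sub_rev y x]; ring
      exact sub_eq_zero.1 (norm_eq_zero.1 (by nlinarith [norm_nonneg (x - y)]))
    have himg : Φ '' B = B := by
      apply Subset.antisymm
      · rintro _ ⟨x, hx, rfl⟩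
        by_contra hne
        have : Φ (Φ x) = Φ x := by
          show Φ x + t • v (Φ x) = Φ x
          rw [hsupp _ hne, smul_zero, add_zero]
        exact hne ((hinj this).symm ▸ hx)
      · intro y hy
        have hlip : LipschitzWith (t * C).toNNReal fun x => y - t • v x := by
          refine LipschitzWith.of_dist_le_mul fun a b => ?_
          rw [dist_eq_norm, dist_eq_norm, Real.coe_toNNReal _ (mul_nonneg ht.1.le hC.le)]
          rw [show y - t • v a - (y - t • v b) = t • (v b - v a) by module, norm_smul,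
            Real.norm_eq_abs, abs_of_nonneg ht.1.le, mul_assoc, norm_sub_rev a b]
          refine mul_le_mul_of_nonneg_left ((hC₀.norm_sub_le b a).trans ?_) ht.1.le
          gcongr
          linarith
        have hc : ContractingWith (t * C).toNNReal fun x => y - t • v x :=
          ⟨by rw [← NNReal.coe_lt_coe, Real.coe_toNNReal _ (mul_nonneg ht.1.le hC.le)]
              simpa using htC, hlip⟩
        obtain ⟨x, hx⟩ : ∃ x, y - t • v x = x := ⟨_, hc.fixedPoint_isFixedPt⟩
        refine ⟨x, ?_, ?_⟩
        · by_contra hxB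
          rw [hsupp x hxB, smul_zero, sub_zero] at hx
          exact hxB (hx ▸ hy)
        · show x + t • v x = y
          linear_combination (norm := abel) -hx
    have hpos : ∀ x, 0 ≤ d t x := by
      intro x
      by_contra hneg
      have hcont : ContinuousOn (fun s => d s x) (Icc 0 t) :=
        (ContinuousLinearMap.continuous_det.comp
          (continuous_const.add (continuous_id.smul continuous_const))).continuousOn
      have h0 : d 0 x = 1 := by rw [hdM]; simp
      obtain ⟨s, hs, hs0⟩ := intermediate_value_Icc' ht.1.le hcont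
        (show (0 : ℝ) ∈ Icc (d t x) (d 0 x) from ⟨(not_le.1 hneg).le, by simp [h0]⟩)
      have hker : LinearMap.ker (ContinuousLinearMap.id ℝ E + s • A x).toLinearMap = ⊥ := by
        rw [LinearMap.ker_eq_bot']
        intro w hw
        have e : ‖w‖ ≤ s * C * ‖w‖ := by
          have h1 : w = -(s • A x w) := by
            rw [eq_neg_iff_add_eq_zero]; simpa using hw
          calc ‖w‖ = s * ‖A x w‖ := by
                  conv_lhs => rw [h1]
                  rw [norm_neg, norm_smul, Real.norm_eq_abs, abs_of_nonneg hs.1]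
            _ ≤ s * (C * ‖w‖) := by
                  refine mul_le_mul_of_nonneg_left (((A x).le_opNorm w).trans ?_) hs.1
                  gcongr
                  exact hAb x
            _ = s * C * ‖w‖ := by ring
        have hsC : s * C < 1 := lt_of_le_of_lt (mul_le_mul_of_nonneg_right hs.2 hC.le) htC
        exact norm_eq_zero.1 (by nlinarith [norm_nonneg w])
      have := LinearMap.det_eq_zero_iff_ker_ne_bot.1
        (show LinearMap.det (ContinuousLinearMap.id ℝ E + s • A x).toLinearMap = 0 from hs0)
      exact this hker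
    have hder : ∀ x ∈ B, HasFDerivWithinAt Φ
        (ContinuousLinearMap.id ℝ E + t • A x) B x := fun x _ =>
      ((hasFDerivAt_id x).add
        ((hv.differentiable one_ne_zero x).hasFDerivAt.const_smul t)).hasFDerivWithinAt
    have hint := integral_image_eq_integral_abs_det_fderiv_smul μ measurableSet_closedBall hder
      hinj.injOn (fun _ => (1 : ℝ))
    rw [himg, setIntegral_const, smul_eq_mul, mul_one] at hint
    rw [← hPQ, hint]
    refine setIntegral_congr_fun measurableSet_closedBall fun x _ => ?_
    show d t x = _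
    simp only [smul_eq_mul, mul_one]
    exact (abs_of_nonneg (hpos x)).symm
  have hQc : Q = Polynomial.C (μ.real B) := by
    refine Polynomial.eq_of_infinite_eval_eq _ _ ((Ioo_infinite
      (show (0 : ℝ) < 1 / C by positivity)).mono (fun t ht => ?_) :
        {t | Q.eval t = (Polynomial.C (μ.real B)).eval t}.Infinite)
    simpa using hsmall t ht
  have := hPQ 1
  rw [hQc, Polynomial.eval_C] at this
  simpa [hP, hd, hA] using this

omit [MeasurableSpace E] [BorelSpace E] in
/-- The determinant of `id + φ ⊗ e`. -/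
theorem det_one_add_smulRight (φ : E →L[ℝ] ℝ) (e : E) :
    (ContinuousLinearMap.id ℝ E + φ.smulRight e).det = 1 + φ e := by
  have h : (ContinuousLinearMap.id ℝ E + φ.smulRight e).toLinearMap
      = LinearMap.transvection φ.toLinearMap e := by
    ext x
    simp [LinearMap.transvection]
  rw [ContinuousLinearMap.det, h]
  exact LinearMap.transvection.det _ _

/-- Translating the test function does not change `∫ η (Φ x) det DΦ x`, infinitesimally. -/
theorem integral_fderiv_comp_mul_det {v : E → E} (hv : ContDiff ℝ 1 v) {R : ℝ}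
    (hv0 : ∀ x ∉ closedBall (0 : E) R, v x = 0) {w : E → ℝ} (hw : ContDiff ℝ 1 w) (e : E)
    (hw0 : ∀ x ∉ closedBall (0 : E) R, w x = 0) (μ : Measure E) [μ.IsAddHaarMeasure] :
    ∫ x in closedBall (0 : E) R,
      fderiv ℝ w (x + v x) e * (ContinuousLinearMap.id ℝ E + fderiv ℝ v x).det ∂μ = 0 := by
  set B : Set E := closedBall (0 : E) R
  have hBc : IsCompact B := isCompact_closedBall _ _
  set Φ : E → E := fun x => x + v x
  set v' : E → E := fun x => v x + w (Φ x) • e with hv'
  have hΦd : ∀ x, HasFDerivAt Φ (ContinuousLinearMap.id ℝ E + fderiv ℝ v x) x := fun x =>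
    (hasFDerivAt_id x).add (hv.differentiable one_ne_zero x).hasFDerivAt
  have hΦc : ContDiff ℝ 1 Φ := contDiff_id.add hv
  have hv'c : ContDiff ℝ 1 v' := hv.add ((hw.comp hΦc).smul contDiff_const)
  have hv'0 : ∀ x ∉ B, v' x = 0 := by
    intro x hx
    have : Φ x = x := by simp [Φ, hv0 x hx]
    simp [v', this, hw0 x hx, hv0 x hx]
  have hd' : ∀ x, (ContinuousLinearMap.id ℝ E + fderiv ℝ v' x).det =
      (ContinuousLinearMap.id ℝ E + fderiv ℝ v x).det +
        fderiv ℝ w (Φ x) e * (ContinuousLinearMap.id ℝ E + fderiv ℝ v x).det := by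
    intro x
    have h1 : HasFDerivAt (fun x => w (Φ x) • e)
        (((fderiv ℝ w (Φ x)).comp (ContinuousLinearMap.id ℝ E + fderiv ℝ v x)).smulRight e) x :=
      ((hw.differentiable one_ne_zero (Φ x)).hasFDerivAt.comp x (hΦd x)).smul_const e
    have h2 : fderiv ℝ v' x = fderiv ℝ v x +
        ((fderiv ℝ w (Φ x)).comp (ContinuousLinearMap.id ℝ E + fderiv ℝ v x)).smulRight e :=
      ((hv.differentiable one_ne_zero x).hasFDerivAt.add h1).fderiv
    have h3 : (ContinuousLinearMap.id ℝ E + fderiv ℝ v' x).toLinearMap =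
        (ContinuousLinearMap.id ℝ E + (fderiv ℝ w (Φ x)).smulRight e).toLinearMap ∘ₗ
          (ContinuousLinearMap.id ℝ E + fderiv ℝ v x).toLinearMap := by
      ext y
      simp [h2]
      module
    rw [ContinuousLinearMap.det, h3, LinearMap.det_comp]
    change (ContinuousLinearMap.id ℝ E + (fderiv ℝ w (Φ x)).smulRight e).det *
      (ContinuousLinearMap.id ℝ E + fderiv ℝ v x).det = _
    rw [det_one_add_smulRight]
    ring
  have h := integral_det_one_add_fderiv hv'c hv'0 μ
  rw [setIntegral_congr_fun measurableSet_closedBall (fun x _ => hd' x), integral_add,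
    integral_det_one_add_fderiv hv hv0 μ] at h
  · exact add_eq_left.1 h
  · exact (ContinuousLinearMap.continuous_det.comp (continuous_const.add
      (hv.continuous_fderiv one_ne_zero))).continuousOn.integrableOn_compact hBc
  · exact ((((hw.continuous_fderiv one_ne_zero).comp hΦc.continuous).clm_apply
      continuous_const).mul (ContinuousLinearMap.continuous_det.comp (continuous_const.add
        (hv.continuous_fderiv one_ne_zero)))).continuousOn.integrableOn_compact hBc

/-- `id + v` has degree one: `∫ η (Φ x) det DΦ x = ∫ η`. -/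
theorem integral_comp_mul_det {v : E → E} (hv : ContDiff ℝ 1 v) {R : ℝ}
    (hv0 : ∀ x ∉ closedBall (0 : E) R, v x = 0) {η : E → ℝ} (hη : ContDiff ℝ 1 η)
    (hη0 : ∀ x ∉ closedBall (0 : E) R, η x = 0) (μ : Measure E) [μ.IsAddHaarMeasure] :
    ∫ x in closedBall (0 : E) R,
        η (x + v x) * (ContinuousLinearMap.id ℝ E + fderiv ℝ v x).det ∂μ
      = ∫ x in closedBall (0 : E) R, η x ∂μ := by
  rcases subsingleton_or_nontrivial E with hE | hE
  · refine setIntegral_congr_fun measurableSet_closedBall fun x _ => ?_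
    have h1 : (ContinuousLinearMap.id ℝ E + fderiv ℝ v x).det = 1 := by
      rw [ContinuousLinearMap.det, show (ContinuousLinearMap.id ℝ E + fderiv ℝ v x).toLinearMap
        = LinearMap.id from LinearMap.ext fun y => Subsingleton.elim _ _, LinearMap.det_id]
    show η (x + v x) * _ = η x
    rw [h1, mul_one, Subsingleton.elim (x + v x) x]
  set B : Set E := closedBall (0 : E) R with hB
  have hBc : IsCompact B := isCompact_closedBall _ _
  set Φ : E → E := fun x => x + v x with hΦ
  set d : E → ℝ := fun x => (ContinuousLinearMap.id ℝ E + fderiv ℝ v x).det with hd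
  have hdc : Continuous d :=
    ContinuousLinearMap.continuous_det.comp
      (continuous_const.add (hv.continuous_fderiv one_ne_zero))
  have hΦc : Continuous Φ := continuous_id.add hv.continuous
  -- a direction in which to translate
  obtain ⟨u, hu⟩ := exists_norm_eq E (zero_le_one (α := ℝ))
  obtain ⟨N, hN⟩ := hBc.exists_bound_of_continuousOn hv.continuous.continuousOn
  set T : ℝ := 2 * |R| + |N| + 1 with hT
  set F : ℝ → E → ℝ := fun s x => η (Φ x - s • u) * d x - η (x - s • u) with hF
  set F' : ℝ → E → ℝ := fun s x =>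
    (-(fderiv ℝ η (Φ x - s • u) u)) * d x - -(fderiv ℝ η (x - s • u) u) with hF'
  have hη' : Continuous (fderiv ℝ η) := hη.continuous_fderiv one_ne_zero
  have hFc : ∀ s, Continuous (F s) := fun s =>
    ((hη.continuous.comp (hΦc.sub continuous_const)).mul hdc).sub
      (hη.continuous.comp (continuous_id.sub continuous_const))
  have hF'c : Continuous fun p : ℝ × E => F' p.1 p.2 := by
    refine (((hη'.comp ((hΦc.comp continuous_snd).sub
      (continuous_fst.smul continuous_const))).clm_apply continuous_const).neg.mul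
        (hdc.comp continuous_snd)).sub ?_
    exact ((hη'.comp (continuous_snd.sub
      (continuous_fst.smul continuous_const))).clm_apply continuous_const).neg
  set J : ℝ → ℝ := fun s => ∫ x in B, F s x ∂μ with hJ
  have hder : ∀ s, HasDerivAt J (∫ x in B, F' s x ∂μ) s := by
    intro s
    obtain ⟨K, hK⟩ := ((isCompact_closedBall s 1).prod hBc).exists_bound_of_continuousOn
      hF'c.continuousOn
    refine (hasDerivAt_integral_of_dominated_loc_of_deriv_le (F' := F') (bound := fun _ => K)
      (closedBall_mem_nhds s one_pos)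
      (Eventually.of_forall fun t => (hFc t).aestronglyMeasurable)
      ((hFc s).continuousOn.integrableOn_compact hBc)
      (hF'c.comp (Continuous.prodMk_right s)).aestronglyMeasurable ?_ ?_ ?_).2
    · refine ae_restrict_of_forall_mem measurableSet_closedBall fun x hx t ht => ?_
      exact hK (t, x) ⟨ht, hx⟩
    · exact integrableOn_const hBc.measure_lt_top.ne
    · refine Eventually.of_forall fun x t _ => ?_
      have hg : ∀ z : E, HasDerivAt (fun t : ℝ => η (z - t • u))
          (-(fderiv ℝ η (z - t • u) u)) t := by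
        intro z
        have h1 : HasDerivAt (fun t : ℝ => z - t • u) (-u) t := by
          simpa using ((hasDerivAt_id t).smul_const u).const_sub z
        simpa [Function.comp_def] using
          (hη.differentiable one_ne_zero (z - t • u)).hasFDerivAt.comp_hasDerivAt t h1
      exact ((hg (Φ x)).mul_const (d x)).sub (hg x)
  -- on a ball large enough for the translates, the derivative vanishes
  set R' : ℝ := |R| + T + 1 with hR'
  have hbig : ∀ s ∈ Icc (0 : ℝ) T, ∀ x ∉ closedBall (0 : E) R', η (x - s • u) = 0 := by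
    intro s hs x hx
    refine hη0 _ fun h => hx ?_
    rw [mem_closedBall_zero_iff] at h ⊢
    calc ‖x‖ = ‖(x - s • u) + s • u‖ := by rw [sub_add_cancel]
      _ ≤ R + s * 1 := by
          refine (norm_add_le _ _).trans (add_le_add h (le_of_eq ?_))
          rw [norm_smul, Real.norm_eq_abs, abs_of_nonneg hs.1, hu]
      _ ≤ R' := by linarith [hs.2, le_abs_self R]
  have hRR : B ⊆ closedBall (0 : E) R' := closedBall_subset_closedBall
    (by linarith [le_abs_self R, abs_nonneg R, abs_nonneg N])
  have hvR' : ∀ x ∉ closedBall (0 : E) R', v x = 0 := fun x hx => hv0 x fun h => hx (hRR h)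
  have hzero : ∀ s ∈ Icc (0 : ℝ) T, ∫ x in B, F' s x ∂μ = 0 := by
    intro s hs
    set w : E → ℝ := fun x => η (x - s • u) with hw
    have hwc : ContDiff ℝ 1 w := hη.comp (contDiff_id.sub contDiff_const)
    have hwd : ∀ y, fderiv ℝ w y u = fderiv ℝ η (y - s • u) u := by
      intro y
      rw [hw]
      simp only [fderiv_comp_sub]
    have h0 : ∀ x ∈ closedBall (0 : E) R' \ B, F' s x = 0 := by
      intro x hx
      have hΦx : Φ x = x := by simp [Φ, hv0 x hx.2]
      have hdx : d x = 1 := by
        simp [d, fderiv_eq_zero_of_forall_notMem isClosed_closedBall hv0 hx.2,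
          ContinuousLinearMap.det]
      simp [F', hΦx, hdx]
    rw [← setIntegral_eq_of_subset_of_forall_sdiff_eq_zero measurableSet_closedBall hRR h0]
    have e1 := integral_fderiv_comp_mul_det hv hvR' hwc u (hbig s hs) μ
    have e2 := integral_fderiv_comp_mul_det (v := fun _ : E => (0 : E)) contDiff_const
      (fun _ _ => rfl) hwc u (hbig s hs) μ
    simp only [hwd] at e1 e2
    simp [ContinuousLinearMap.det] at e2
    have hi1 : IntegrableOn (fun x => fderiv ℝ η (Φ x - s • u) u * d x)
        (closedBall (0 : E) R') μ :=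
      (((hη'.comp (hΦc.sub continuous_const)).clm_apply continuous_const).mul
        hdc).continuousOn.integrableOn_compact (isCompact_closedBall _ _)
    have hi2 : IntegrableOn (fun x => fderiv ℝ η (x - s • u) u)
        (closedBall (0 : E) R') μ :=
      ((hη'.comp (continuous_id.sub continuous_const)).clm_apply
        continuous_const).continuousOn.integrableOn_compact (isCompact_closedBall _ _)
    calc ∫ x in closedBall (0 : E) R', F' s x ∂μ
        = ∫ x in closedBall (0 : E) R', (fderiv ℝ η (x - s • u) u -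
            fderiv ℝ η (Φ x - s • u) u * d x) ∂μ := by
          refine setIntegral_congr_fun measurableSet_closedBall fun x _ => ?_
          simp [F']
          ring
      _ = 0 := by
          rw [integral_sub hi2 hi1, e2]
          simpa [Φ, d] using e1
  have hconst : J T = J 0 := by
    have hT0 : (0 : ℝ) ≤ T := by positivity
    exact (constant_of_has_deriv_right_zero (f := J) (a := 0) (b := T)
      (fun s _ => (hder s).continuousAt.continuousWithinAt)
      (fun s hs => (hzero s (Ico_subset_Icc_self hs)) ▸ (hder s).hasDerivWithinAt)) T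
        (right_mem_Icc.2 hT0)
  -- far away the translated test function sees only the region where `Φ = id`
  have hJT : J T = 0 := by
    have hfar : ∀ y : E, ‖y‖ ≤ |R| + |N| → η (y - T • u) = 0 := by
      intro y hy
      refine hη0 _ fun h => ?_
      rw [mem_closedBall_zero_iff] at h
      have h4 : ‖T • u‖ ≤ ‖y‖ + ‖y - T • u‖ := by
        calc ‖T • u‖ = ‖y - (y - T • u)‖ := by rw [sub_sub_cancel]
          _ ≤ _ := norm_sub_le _ _
      rw [norm_smul, hu, mul_one, Real.norm_eq_abs, abs_of_nonneg (by positivity : 0 ≤ T)] at h4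
      linarith [le_abs_self R]
    refine setIntegral_eq_zero_of_forall_eq_zero fun x hx => ?_
    have hxn : ‖x‖ ≤ |R| := (mem_closedBall_zero_iff.1 hx).trans (le_abs_self R)
    have h1 : ‖Φ x‖ ≤ |R| + |N| :=
      (norm_add_le _ _).trans (add_le_add hxn ((hN x hx).trans (le_abs_self N)))
    simp [F, hfar _ h1, hfar x (by linarith [abs_nonneg N])]
  have h0 : J 0 = 0 := hconst ▸ hJT
  have hi1 : IntegrableOn (fun x => η (Φ x) * d x) B μ :=
    ((hη.continuous.comp hΦc).mul hdc).continuousOn.integrableOn_compact hBc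
  have hi2 : IntegrableOn η B μ := hη.continuous.continuousOn.integrableOn_compact hBc
  simp only [hJ, hF, zero_smul, sub_zero] at h0
  rw [integral_sub hi1 hi2, sub_eq_zero] at h0
  exact h0

end Integral

section Degree

variable {E : Type*} [NormedAddCommGroup E] [InnerProductSpace ℝ E] [FiniteDimensional ℝ E]

/-- The sign of a real number, as an integer, with the value `-1` at `0`. -/
noncomputable def sgn (d : ℝ) : ℤ := if 0 < d then 1 else -1

theorem abs_mul_sgn (d : ℝ) : |d| * (sgn d : ℝ) = d := by
  unfold sgn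
  split_ifs with h
  · simp [abs_of_pos h]
  · simp [abs_of_nonpos (not_lt.1 h)]

/-- A continuous compact perturbation of the identity has degree one over every regular value. -/
theorem degree_core {c z : E} {R : ℝ} {v₀ : E → E} (hR : 0 < R) (hv₀c : Continuous v₀)
    (hv₀0 : ∀ x, R < dist x c → v₀ x = 0) (hz : z ∈ ball c R)
    (hreg : ∀ a, a + v₀ a = z →
      ∃ L : E →L[ℝ] E, HasFDerivAt (fun x => x + v₀ x) L a ∧ L.det ≠ 0) :
    ∃ Z : Finset E, (∀ a, a ∈ Z ↔ a + v₀ a = z) ∧
      ∑ a ∈ Z, sgn (fderiv ℝ (fun x => x + v₀ x) a).det = 1 := by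
  classical
  borelize E
  set ψ : E → E := fun x => x + v₀ x with hψdef
  have hψ : Continuous ψ := continuous_id.add hv₀c
  set L : E → E →L[ℝ] E := fderiv ℝ ψ with hLdef
  set Z₀ : Set E := {a | ψ a = z} with hZ₀
  have hL : ∀ a ∈ Z₀, HasFDerivAt ψ (L a) a ∧ Function.Injective (L a) := by
    intro a hza
    obtain ⟨L', hL', hdet⟩ := hreg a hza
    rw [hLdef, hL'.fderiv]
    refine ⟨hL', LinearMap.ker_eq_bot.1 ?_⟩
    by_contra hne
    exact hdet (LinearMap.det_eq_zero_iff_ker_ne_bot.2 hne)
  have hanti : ∀ a ∈ Z₀, ∃ K, AntilipschitzWith K (L a) := fun a ha => by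
    obtain ⟨K, -, hK⟩ := (L a).toLinearMap.exists_antilipschitzWith
      (LinearMap.ker_eq_bot.2 (hL a ha).2)
    exact ⟨K, hK⟩
  have hZball : ∀ a ∈ Z₀, dist a c ≤ R := by
    intro a ha
    by_contra hlt
    have e : a + v₀ a = z := ha
    rw [hv₀0 a (not_le.1 hlt), add_zero] at e
    exact hlt (e ▸ (mem_ball.1 hz).le)
  have hZc : IsCompact Z₀ :=
    (isCompact_closedBall c R).of_isClosed_subset (isClosed_eq hψ continuous_const)
      fun a ha => mem_closedBall.2 (hZball a ha)
  have hfin : Z₀.Finite := by
    by_contra hinf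
    obtain ⟨a, ha, hacc⟩ :=
      Set.Infinite.exists_accPt_of_subset_isCompact hinf hZc Subset.rfl
    obtain ⟨x, hx, hxz⟩ := ((accPt_iff_frequently.1 hacc).and_eventually
      (eventually_nhdsWithin_iff.1
        ((hL a ha).1.eventually_ne (c := z) (hanti a ha)))).exists
    exact hxz hx.1 hx.2
  refine ⟨hfin.toFinset, fun a => by simp [hZ₀, hψdef], ?_⟩
  set Z := hfin.toFinset with hZdef
  have hmem : ∀ {a}, a ∈ Z ↔ a ∈ Z₀ := fun {a} => hfin.mem_toFinset
  -- a common lower bound for the derivatives
  obtain ⟨K, hK, hKL⟩ : ∃ K : ℝ, 0 < K ∧ ∀ a ∈ Z₀, ∀ h, ‖h‖ ≤ K * ‖L a h‖ := by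
    choose! k hk using hanti
    refine ⟨1 + ∑ a ∈ Z, (k a : ℝ), by positivity, fun a ha h => ?_⟩
    refine ((hk a ha).le_mul_dist h 0).trans' (by simp) |>.trans ?_
    rw [map_zero, dist_zero_right]
    gcongr
    have : (k a : ℝ) ≤ ∑ b ∈ Z, (k b : ℝ) :=
      Finset.single_le_sum (f := fun b => (k b : ℝ)) (fun b _ => by positivity) (hmem.2 ha)
    linarith
  -- a common radius
  obtain ⟨r, hr, hrR, hrlin, hrsep⟩ : ∃ r : ℝ, 0 < r ∧ r ≤ R ∧
      (∀ a ∈ Z₀, ∀ x ∈ closedBall a r, ‖ψ x - z - L a (x - a)‖ ≤ ‖x - a‖ / (4 * K)) ∧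
      (∀ a ∈ Z₀, ∀ b ∈ Z₀, a ≠ b → 2 * r ≤ dist a b) := by
    have h1 : ∀ᶠ r in 𝓝[>] (0 : ℝ), 0 < r ∧ r ≤ R := by
      filter_upwards [Ioo_mem_nhdsGT hR] with r hr
      exact ⟨hr.1, hr.2.le⟩
    have h2 : ∀ a ∈ Z₀, ∀ᶠ r in 𝓝[>] (0 : ℝ), ∀ x ∈ closedBall a r,
        ‖ψ x - z - L a (x - a)‖ ≤ ‖x - a‖ / (4 * K) := by
      intro a ha
      obtain ⟨ε, hε, hball⟩ := Metric.eventually_nhds_iff.1
        ((hL a ha).1.isLittleO.def (show 0 < 1 / (4 * K) by positivity))
      filter_upwards [Ioo_mem_nhdsGT hε] with r hr x hx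
      have := hball (lt_of_le_of_lt (mem_closedBall.1 hx) hr.2)
      rw [show ψ a = z from ha] at this
      refine this.trans (le_of_eq ?_)
      ring
    have h3 : ∀ a ∈ Z₀, ∀ b ∈ Z₀, ∀ᶠ r in 𝓝[>] (0 : ℝ), a ≠ b → 2 * r ≤ dist a b := by
      intro a _ b _
      by_cases hab : a = b
      · exact Eventually.of_forall fun r h => absurd hab h
      filter_upwards [Ioo_mem_nhdsGT (half_pos (dist_pos.2 hab))] with r hr _
      linarith [hr.2]
    obtain ⟨r, ⟨hr0, hrR⟩, hl, hs⟩ := (h1.and
      (((eventually_all_finite hfin).2 h2).and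
        ((eventually_all_finite hfin).2 fun a ha => (eventually_all_finite hfin).2 (h3 a ha)))).exists
    exact ⟨r, hr0, hrR, hl, hs⟩
  -- away from the preimages the cutoff map avoids `z`
  obtain ⟨δ, hδ, hδR, hδb⟩ : ∃ δ : ℝ, 0 < δ ∧ δ ≤ R ∧
      ∀ x, (∀ a ∈ Z₀, r / 2 ≤ dist x a) → δ ≤ ‖x + v₀ x - z‖ := by
    set S : Set E := closedBall c (2 * R) ∩ {x | ∀ a ∈ Z₀, r / 2 ≤ dist x a} with hS
    have hSc : IsCompact S := by
      refine (isCompact_closedBall c (2 * R)).inter_right ?_
      simp only [ofPred_forall]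
      exact isClosed_biInter fun a _ => isClosed_le continuous_const (by fun_prop)
    have hpos : ∀ x ∈ S, 0 < ‖x + v₀ x - z‖ := by
      rintro x ⟨-, hx⟩
      refine norm_pos_iff.2 fun h => ?_
      have := hx x (sub_eq_zero.1 h)
      rw [dist_self] at this
      linarith
    obtain ⟨δ₀, hδ₀, hb⟩ := hSc.exists_forall_le'
      (((continuous_id.add hv₀c).sub continuous_const).norm.continuousOn) hpos
    refine ⟨min δ₀ R, lt_min hδ₀ hR, min_le_right _ _, fun x hx => ?_⟩
    by_cases hxc : dist x c ≤ 2 * R
    · exact (min_le_left _ _).trans (hb x ⟨mem_closedBall.2 hxc, hx⟩)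
    · rw [hv₀0 x (by linarith [not_le.1 hxc]), add_zero, ← dist_eq_norm]
      refine (min_le_right _ _).trans ?_
      linarith [dist_triangle x z c, mem_ball.1 hz, not_le.1 hxc]
  -- a smooth approximation
  set ε : ℝ := min (δ / 2) (r / (8 * K)) with hε
  have hεpos : 0 < ε := by positivity
  have hv₀cs : HasCompactSupport v₀ :=
    HasCompactSupport.intro (isCompact_closedBall c R) fun x hx =>
      hv₀0 x (not_le.1 fun h => hx (mem_closedBall.2 h))
  obtain ⟨g, hg, hgv⟩ :=
    (hv₀cs.uniformContinuous_of_continuous hv₀c).exists_contDiff_dist_le hεpos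
  let β₁ : ContDiffBump c := ⟨R, 2 * R, hR, by linarith⟩
  set v₁ : E → E := fun x => β₁ x • g x with hv₁
  have hv₁v : ∀ x, ‖v₁ x - v₀ x‖ ≤ ε := by
    intro x
    have hb : β₁ x • v₀ x = v₀ x := by
      by_cases hx : dist x c ≤ R
      · rw [β₁.one_of_mem_closedBall (mem_closedBall.2 hx), one_smul]
      · rw [hv₀0 x (not_le.1 hx), smul_zero]
    rw [← hb, hv₁, ← smul_sub, norm_smul, Real.norm_eq_abs, abs_of_nonneg β₁.nonneg]
    exact (mul_le_mul β₁.le_one ((dist_eq_norm (g x) (v₀ x)) ▸ (hgv x).le) (norm_nonneg _)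
      zero_le_one).trans (one_mul _).le
  have hv₁c : ContDiff ℝ 1 v₁ := β₁.contDiff.smul (hg.of_le (by norm_num))
  -- make it affine near the preimages
  let β : E → ∀ a : E, ContDiffBump a := fun _ a => ⟨r / 2, r, half_pos hr, half_lt_self hr⟩
  set v₂ : E → E := fun x =>
    v₁ x + ∑ a ∈ Z, β a a x • (z + L a (x - a) - x - v₁ x) with hv₂
  have hv₂c : ContDiff ℝ 1 v₂ := by
    refine hv₁c.add (ContDiff.sum fun a _ => (β a a).contDiff.smul ?_)
    exact (((contDiff_const.add ((L a).contDiff.comp (contDiff_id.sub contDiff_const))).sub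
      contDiff_id).sub hv₁c)
  have hone : ∀ a ∈ Z, ∀ x ∈ closedBall a r,
      v₂ x = v₁ x + β a a x • (z + L a (x - a) - x - v₁ x) := by
    intro a ha x hx
    show v₁ x + _ = _
    congr 1
    refine Finset.sum_eq_single a (fun b hb hba => ?_) fun h => absurd ha h
    have : r ≤ dist x b := by
      linarith [dist_triangle_left a b x, hrsep a (hmem.1 ha) b (hmem.1 hb) hba.symm,
        mem_closedBall.1 hx]
    rw [(β b b).zero_of_le_dist this, zero_smul]
  have hnone : ∀ x, (∀ a ∈ Z, r ≤ dist x a) → v₂ x = v₁ x := by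
    intro x hx
    show v₁ x + _ = _
    rw [Finset.sum_eq_zero fun a ha => by rw [(β a a).zero_of_le_dist (hx a ha), zero_smul],
      add_zero]
  set ρ : ℝ := min (δ / 2) (r / (4 * K)) with hρ
  have hρpos : 0 < ρ := by positivity
  have hρr : K * ρ ≤ r / 4 := by
    calc K * ρ ≤ K * (r / (4 * K)) := mul_le_mul_of_nonneg_left (min_le_right _ _) hK.le
      _ = r / 4 := by field_simp
  have hnear : ∀ x, dist (x + v₂ x) z < ρ → ∃ a ∈ Z, x ∈ ball a (r / 2) := by
    intro x hx
    by_contra hno
    simp only [not_exists, not_and, mem_ball, not_lt] at hno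
    have hδx : δ ≤ ‖x + v₀ x - z‖ := hδb x fun a ha => hno a (hmem.2 ha)
    rw [dist_eq_norm] at hx
    have hρ1 : ρ ≤ δ / 2 := min_le_left _ _
    have hρ2 : ρ ≤ r / (4 * K) := min_le_right _ _
    by_cases hsome : ∃ a ∈ Z, dist x a < r
    · obtain ⟨a, ha, hxa⟩ := hsome
      have ha₀ := hmem.1 ha
      set h := x - a with hh
      have hhr : r / 2 ≤ ‖h‖ := by rw [hh, ← dist_eq_norm]; exact hno a ha
      have he : ‖x + v₁ x - z - L a h‖ ≤ ‖h‖ / (4 * K) + ε := by
        calc ‖x + v₁ x - z - L a h‖ = ‖(ψ x - z - L a h) + (v₁ x - v₀ x)‖ := by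
              simp only [hψdef]; congr 1; abel
          _ ≤ _ := (norm_add_le _ _).trans
              (add_le_add (hrlin a ha₀ x (mem_closedBall.2 hxa.le)) (hv₁v x))
      have heq : x + v₂ x - z = L a h + (1 - β a a x) • (x + v₁ x - z - L a h) := by
        rw [hone a ha x (mem_closedBall.2 hxa.le)]
        module
      have hlow : ‖h‖ / K ≤ ‖L a h‖ := by
        rw [div_le_iff₀ hK, mul_comm]
        exact hKL a ha₀ h
      have hsm : ‖(1 - β a a x) • (x + v₁ x - z - L a h)‖ ≤ ‖h‖ / (4 * K) + ε := by
        rw [norm_smul, Real.norm_eq_abs, abs_of_nonneg (sub_nonneg.2 (β a a).le_one)]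
        exact (mul_le_of_le_one_left (norm_nonneg _) (by linarith [(β a a).nonneg' x])).trans he
      have hlb : ‖L a h‖ - ‖(1 - β a a x) • (x + v₁ x - z - L a h)‖ ≤ ‖x + v₂ x - z‖ := by
        rw [heq]; exact norm_sub_le_norm_add _ _
      have hε2 : ε ≤ r / (8 * K) := min_le_right _ _
      have e1 : r / 2 / K ≤ ‖h‖ / K := by gcongr
      have e2 : ‖h‖ / (4 * K) = ‖h‖ / K / 4 := by ring
      have e3 : r / (8 * K) = r / 2 / K / 4 := by ring
      have e4 : r / (4 * K) = r / 2 / K / 2 := by ring
      linarith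
    · simp only [not_exists, not_and, not_lt] at hsome
      rw [hnone x hsome] at hx
      have : ‖x + v₀ x - z‖ ≤ ‖x + v₁ x - z‖ + ‖v₁ x - v₀ x‖ := by
        calc ‖x + v₀ x - z‖ = ‖(x + v₁ x - z) - (v₁ x - v₀ x)‖ := by congr 1; abel
          _ ≤ _ := norm_sub_le _ _
      linarith [hv₁v x, min_le_left (δ / 2) (r / (8 * K))]
  have hfar : ∀ a ∈ Z, ∀ x, dist (z + L a (x - a)) z < ρ → x ∈ ball a (r / 2) := by
    intro a ha x hx
    rw [dist_eq_norm, add_sub_cancel_left] at hx
    rw [mem_ball, dist_eq_norm]
    calc ‖x - a‖ ≤ K * ‖L a (x - a)‖ := hKL a (hmem.1 ha) _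
      _ ≤ K * ρ := mul_le_mul_of_nonneg_left hx.le hK.le
      _ < r / 2 := by linarith
  let η : ContDiffBump z := ⟨ρ / 2, ρ, half_pos hρpos, half_lt_self hρpos⟩
  set R' : ℝ := ‖c‖ + 3 * R with hR'
  have hin : ∀ x, dist x c ≤ 2 * R → x ∈ closedBall (0 : E) R' := by
    intro x hx
    rw [mem_closedBall, dist_zero_right]
    linarith [norm_le_norm_add_norm_sub' x c, dist_eq_norm x c]
  have hv₂0 : ∀ x ∉ closedBall (0 : E) R', v₂ x = 0 := by
    intro x hx
    have hxc : 2 * R < dist x c := not_le.1 fun h => hx (hin x h)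
    rw [hnone x fun a ha => ?_, hv₁]
    · simp [β₁.zero_of_le_dist hxc.le]
    · linarith [dist_triangle x a c, hZball a (hmem.1 ha)]
  have hη0 : ∀ x ∉ closedBall (0 : E) R', η x = 0 := by
    intro x hx
    refine η.zero_of_le_dist ?_
    show ρ ≤ dist x z
    have hρR : ρ ≤ R := (min_le_left _ _).trans (by linarith)
    linarith [dist_triangle x z c, mem_ball.1 hz, not_le.1 fun h => hx (hin x h)]
  set μ : Measure E := (Module.finBasis ℝ E).addHaar
  have hmain := integral_comp_mul_det hv₂c hv₂0 η.contDiff hη0 μ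
  have hpt : ∀ x, η (x + v₂ x) * (ContinuousLinearMap.id ℝ E + fderiv ℝ v₂ x).det =
      ∑ a ∈ Z, η (z + L a (x - a)) * (L a).det := by
    intro x
    by_cases hx : ∃ a ∈ Z, x ∈ ball a (r / 2)
    · obtain ⟨a, ha, hxa⟩ := hx
      have hloc : (fun y => y + v₂ y) =ᶠ[𝓝 x] fun y => z + L a (y - a) := by
        filter_upwards [isOpen_ball.mem_nhds hxa] with y hy
        have hy' : dist y a < r / 2 := hy
        rw [hone a ha y (mem_closedBall.2 (by linarith)),
          (β a a).one_of_mem_closedBall (mem_closedBall.2 hy'.le), one_smul]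
        abel
      have hder : ContinuousLinearMap.id ℝ E + fderiv ℝ v₂ x = L a := by
        refine ((hasFDerivAt_id x).add
          (hv₂c.differentiable one_ne_zero x).hasFDerivAt).unique ?_
        exact (((L a).hasFDerivAt.comp x ((hasFDerivAt_id x).sub_const a)).const_add z
          |>.congr_of_eventuallyEq hloc)
      rw [hder, show x + v₂ x = z + L a (x - a) from hloc.eq_of_nhds]
      symm
      refine Finset.sum_eq_single a (fun b hb hba => ?_) fun h => absurd ha h
      rw [η.zero_of_le_dist, zero_mul]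
      refine not_lt.1 fun hlt => ?_
      linarith [dist_triangle_left a b x, hrsep a (hmem.1 ha) b (hmem.1 hb) hba.symm,
        mem_ball.1 hxa, mem_ball.1 (hfar b hb x hlt)]
    · have h0 : η (x + v₂ x) = 0 :=
        η.zero_of_le_dist (not_lt.1 fun h => hx (hnear x h))
      rw [h0, zero_mul, Finset.sum_eq_zero]
      intro a ha
      rw [η.zero_of_le_dist (not_lt.1 fun h => hx ⟨a, ha, hfar a ha x h⟩), zero_mul]
  have hterm : ∀ a ∈ Z, ∫ x in closedBall (0 : E) R', η (z + L a (x - a)) * (L a).det ∂μ =
      (sgn (L a).det : ℝ) * ∫ x, η x ∂μ := by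
    intro a ha
    set A : E → E := fun x => z + L a (x - a) with hA
    have hAinj : Function.Injective A := fun x y h => by
      simpa [A, sub_left_inj] using (hL a (hmem.1 ha)).2 (add_left_cancel h)
    have hAd : ∀ x ∈ closedBall (0 : E) R',
        HasFDerivWithinAt A (L a) (closedBall (0 : E) R') x := fun x _ =>
      (((L a).hasFDerivAt.comp x ((hasFDerivAt_id x).sub_const a)).const_add z).hasFDerivWithinAt
    have hint := integral_image_eq_integral_abs_det_fderiv_smul μ measurableSet_closedBall hAd
      hAinj.injOn (fun x => η x)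
    rw [setIntegral_eq_integral_of_forall_compl_eq_zero] at hint
    · rw [hint, ← integral_const_mul]
      refine setIntegral_congr_fun measurableSet_closedBall fun x _ => ?_
      show η (A x) * _ = _ * (|(L a).det| • η (A x))
      nth_rewrite 1 [← abs_mul_sgn (L a).det]
      rw [smul_eq_mul]
      ring
    · intro y hy
      refine η.zero_of_le_dist (not_lt.1 fun hlt => hy ?_)
      obtain ⟨w, hw⟩ := (LinearMap.injective_iff_surjective (f := (L a).toLinearMap)).1
        (hL a (hmem.1 ha)).2 (y - z)
      have hAy : A (w + a) = y := by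
        show z + L a (w + a - a) = y
        rw [add_sub_cancel_right, show L a w = y - z from hw, add_sub_cancel]
      refine ⟨w + a, hin _ ?_, hAy⟩
      have h1 := mem_ball.1 (hfar a ha (w + a) (by show dist (A (w + a)) z < ρ; rwa [hAy]))
      linarith [dist_triangle (w + a) a c, hZball a (hmem.1 ha)]
  rw [setIntegral_congr_fun measurableSet_closedBall (fun x _ => hpt x), integral_finsetSum,
    Finset.sum_congr rfl hterm, setIntegral_eq_integral_of_forall_compl_eq_zero hη0,
    ← Finset.sum_mul] at hmain
  · have hpos : (0 : ℝ) < ∫ x, η x ∂μ := η.integral_pos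
    have := mul_eq_right₀ hpos.ne' |>.1 hmain
    exact_mod_cast this
  · intro a _
    exact ((η.continuous.comp (continuous_const.add ((L a).continuous.comp
      (continuous_id.sub continuous_const)))).mul
        continuous_const).continuousOn.integrableOn_compact (isCompact_closedBall _ _)

/-- A map close to the identity on a ball has degree one over the points deep inside. -/
theorem degree_one {c z : E} {R s : ℝ} {ψ : E → E} (hs : 0 < s)
    (hψ : ContinuousOn ψ (closedBall c R)) (hclose : ∀ x ∈ closedBall c R, ‖ψ x - x‖ ≤ s)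
    (hz : z ∈ ball c (R - 4 * s))
    (hreg : ∀ a ∈ closedBall c R, ψ a = z →
      ∃ L : E →L[ℝ] E, HasFDerivAt ψ L a ∧ L.det ≠ 0) :
    ∃ Z : Finset E, (∀ a, a ∈ Z ↔ a ∈ closedBall c R ∧ ψ a = z) ∧
      ∑ a ∈ Z, sgn (fderiv ℝ ψ a).det = 1 := by
  have hRs : 4 * s < R := by linarith [dist_nonneg (x := z) (y := c), mem_ball.1 hz]
  let β₀ : ContDiffBump c := ⟨R - 2 * s, R, by linarith, by linarith⟩
  set v₀ : E → E := fun x => if ‖x - c‖ ≤ R then β₀ x • (ψ x - x) else 0 with hv₀
  have hv₀c : Continuous v₀ := by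
    refine continuous_if_le (by fun_prop) continuous_const ?_ continuousOn_const fun x hx => ?_
    · exact β₀.continuous.continuousOn.smul
        ((hψ.mono fun x hx => by simpa [dist_eq_norm] using hx).sub continuousOn_id)
    · rw [β₀.zero_of_le_dist (by rw [dist_eq_norm, hx]), zero_smul]
  have hv₀b : ∀ x, ‖v₀ x‖ ≤ s := by
    intro x
    by_cases hx : ‖x - c‖ ≤ R
    · rw [hv₀]
      simp only [hx, if_true, norm_smul, Real.norm_eq_abs, abs_of_nonneg β₀.nonneg]
      exact (mul_le_mul β₀.le_one (hclose x (by simpa [dist_eq_norm] using hx))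
        (norm_nonneg _) zero_le_one).trans (one_mul _).le
    · simp [hv₀, hx]; positivity
  have hv₀0 : ∀ x, R < dist x c → v₀ x = 0 := fun x hx => by
    simp [hv₀, not_le.2 (dist_eq_norm x c ▸ hx)]
  have hv₀in : ∀ x, dist x c ≤ R - 2 * s → x + v₀ x = ψ x := by
    intro x hx
    have hxR : ‖x - c‖ ≤ R := by rw [← dist_eq_norm]; linarith
    simp [hv₀, hxR, β₀.one_of_mem_closedBall (mem_closedBall.2 hx)]
  have hdeep : ∀ a, a + v₀ a = z → dist a c < R - 3 * s := by
    intro a ha
    have h1 : dist a z ≤ s := by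
      rw [dist_eq_norm, ← ha, show a - (a + v₀ a) = -(v₀ a) by abel, norm_neg]
      exact hv₀b a
    linarith [dist_triangle a z c, mem_ball.1 hz]
  have hev : ∀ a, dist a c < R - 3 * s → (fun x => x + v₀ x) =ᶠ[𝓝 a] ψ := fun a ha =>
    eventually_of_mem (isOpen_ball.mem_nhds ha) fun x hx =>
      hv₀in x (by linarith [mem_ball.1 hx])
  obtain ⟨Z, hZ, hsum⟩ := degree_core (z := z) (by linarith) hv₀c hv₀0
    (ball_subset_ball (by linarith) hz) fun a ha => by
      have hd := hdeep a ha
      obtain ⟨L, hL, hdet⟩ := hreg a (mem_closedBall.2 (by linarith))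
        ((hv₀in a (by linarith)).symm.trans ha)
      exact ⟨L, hL.congr_of_eventuallyEq (hev a hd), hdet⟩
  refine ⟨Z, fun a => (hZ a).trans ⟨fun h => ?_, fun h => ?_⟩, ?_⟩
  · have hd := hdeep a h
    exact ⟨mem_closedBall.2 (by linarith), (hv₀in a (by linarith)).symm.trans h⟩
  · have h1 := hclose a h.1
    rw [h.2, ← dist_eq_norm, dist_comm] at h1
    exact (hv₀in a (by linarith [dist_triangle a z c, mem_ball.1 hz])).trans h.2
  · rw [← hsum]
    exact Finset.sum_congr rfl fun a ha => by rw [(hev a (hdeep a ((hZ a).1 ha))).fderiv_eq]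

end Degree

end Vale.Agent.P228
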