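import Vale.Agent.P228.NewmanThin

/-!
# Pointwise Hölder actions of profinite groups are locally trivial on an open subgroup
-/

namespace Vale.Agent.P228

open Set Metric MeasureTheory Filter Function Asymptotics
open scoped Topology

variable {E : Type*} [NormedAddCommGroup E] [InnerProductSpace ℝ E] [FiniteDimensional ℝ E]
variable {K : Type*} [Group K] [TopologicalSpace K] [IsTopologicalGroup K] [CompactSpace K]
  [TotallyDisconnectedSpace K]
variable {A : K → E → E} {V : Set E}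

/-- Near some point of a Baire piece, the elements of an open set of the group share one Hölder
bound at the points of the piece. -/
theorem IsAction.exists_uniform_coset (hA : IsAction A V) (hhol : ∀ g, ∀ x ∈ V, HolAt (A g) x)
    {X : Set E} (hX : IsLocallyClosed X) (hXV : X ⊆ V) (hne : X.Nonempty) :
    ∃ y₁ ∈ X, ∃ δ > 0, ∃ c : K, ∃ W ∈ 𝓝 c, ∃ q L : ℝ, 0 < q ∧
      (Module.finrank ℝ E : ℝ) * (1 - q) < 1 ∧ ball y₁ δ ⊆ V ∧
      ∀ g ∈ W, ∀ y ∈ X ∩ ball y₁ δ, ∀ y' ∈ ball y₁ δ,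
        ‖A g y' - A g y‖ ≤ L * ‖y' - y‖ ^ q := by
  have := hX.locallyCompactSpace
  have : T2Space K := inferInstance
  have : Nonempty X := hne.to_subtype
  have : Nonempty (K × X) := inferInstance
  set F : {q : ℚ // 0 < (q : ℝ) ∧ (Module.finrank ℝ E : ℝ) * (1 - q) < 1} × ℕ → Set (K × X) :=
    fun i => ⋂ y' ∈ V,
      {p | ((i.2 : ℝ) + 1)⁻¹ ≤ dist y' p.2.1} ∪
      {p | ‖A p.1 y' - A p.1 p.2‖ ≤ ((i.2 : ℝ) + 1) * ‖y' - p.2‖ ^ (i.1.1 : ℝ)} with hF
  have hFc : ∀ i, IsClosed (F i) := by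
    intro i
    refine isClosed_biInter fun y' hy' => ?_
    have hv : Continuous fun p : K × X => ((p.2 : E)) :=
      continuous_subtype_val.comp continuous_snd
    have hAp : Continuous fun p : K × X => A p.1 p.2 :=
      hA.continuousOn.comp_continuous (continuous_fst.prodMk hv) fun p => ⟨trivial, hXV p.2.2⟩
    refine IsClosed.union (isClosed_le continuous_const (continuous_const.dist hv))
      (isClosed_le (((hA.continuous_orbit hy').comp continuous_fst).sub hAp).norm
        (continuous_const.mul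
          (((continuous_const.sub hv).norm).rpow_const fun _ => Or.inr i.1.2.1.le)))
  have hcov : ⋃ i, F i = univ := by
    refine eq_univ_of_forall fun p => ?_
    obtain ⟨α, hα, hnα, hO⟩ := hhol p.1 p.2 (hXV p.2.2)
    set n : ℝ := (Module.finrank ℝ E : ℝ)
    set d : ℝ := (1 - n * (1 - α)) / (n + 1)
    have hn0 : 0 ≤ n := Nat.cast_nonneg _
    have hd : 0 < d := div_pos (by linarith) (by linarith)
    obtain ⟨q, hq1, hq2⟩ := exists_rat_btwn (max_lt hα (show α - d < α by linarith))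
    have hq0 : (0 : ℝ) < q := (le_max_left _ _).trans_lt hq1
    have hqd : α - d < q := (le_max_right _ _).trans_lt hq1
    have hnq : n * (1 - (q : ℝ)) < 1 := by
      have e : d * (n + 1) = 1 - n * (1 - α) := div_mul_cancel₀ _ (by linarith)
      nlinarith [mul_le_mul_of_nonneg_left (show 1 - (q : ℝ) ≤ 1 - α + d by linarith) hn0]
    obtain ⟨C, hC⟩ := hO.bound
    obtain ⟨δ, hδ, hb⟩ := Metric.eventually_nhds_iff.1 hC
    obtain ⟨m, hm⟩ := exists_nat_gt (max C (max δ⁻¹ 1))
    simp only [max_lt_iff] at hm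
    refine mem_iUnion.2 ⟨⟨⟨q, hq0, hnq⟩, m⟩, mem_iInter₂.2 fun y' _ => ?_⟩
    refine or_iff_not_imp_left.2 fun hlt => ?_
    have hlt' : dist y' p.2.1 < ((m : ℝ) + 1)⁻¹ := not_le.1 hlt
    have hy1 : dist y' p.2.1 ≤ 1 := hlt'.le.trans (inv_le_one_of_one_le₀ (by linarith))
    have h1 := hb (hlt'.trans_le (by rw [inv_le_comm₀ (by positivity) hδ]; linarith))
    show ‖A p.1 y' - A p.1 p.2‖ ≤ ((m : ℝ) + 1) * ‖y' - p.2‖ ^ (q : ℝ)
    rcases eq_or_ne y' (p.2 : E) with e | hyx
    · simp only [e, sub_self, norm_zero]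
      positivity
    have hpos : 0 < ‖y' - (p.2 : E)‖ := norm_pos_iff.2 (sub_ne_zero.2 hyx)
    calc ‖A p.1 y' - A p.1 p.2‖ ≤ C * ‖‖y' - p.2‖ ^ α‖ := h1
      _ ≤ ((m : ℝ) + 1) * ‖y' - p.2‖ ^ α := by
          rw [Real.norm_of_nonneg (by positivity)]; gcongr; linarith
      _ ≤ ((m : ℝ) + 1) * ‖y' - p.2‖ ^ (q : ℝ) := by
          refine mul_le_mul_of_nonneg_left ?_ (by positivity)
          exact Real.rpow_le_rpow_of_exponent_ge hpos (by rwa [← dist_eq_norm]) hq2.le
  obtain ⟨⟨⟨q, hq0, hnq⟩, m⟩, ⟨c, y₁⟩, hint⟩ := nonempty_interior_of_iUnion_of_closed hFc hcov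
  have hint' := mem_interior_iff_mem_nhds.1 hint
  rw [nhds_prod_eq] at hint'
  obtain ⟨W, hW, U, hU, hWU⟩ := mem_prod_iff.1 hint'
  obtain ⟨δ₁, hδ₁, hδ₁U⟩ := Metric.mem_nhds_iff.1 hU
  obtain ⟨δ₂, hδ₂, hδ₂V⟩ := Metric.isOpen_iff.1 hA.isOpen y₁ (hXV y₁.2)
  set δ := min (min δ₁ δ₂) (((m : ℝ) + 1)⁻¹ / 2) with hδdef
  have hδ : 0 < δ := by positivity
  refine ⟨y₁, y₁.2, δ, hδ, c, W, hW, q, (m : ℝ) + 1, hq0, hnq, fun y hy => hδ₂V
    (ball_subset_ball ((min_le_left _ _).trans (min_le_right _ _)) hy), ?_⟩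
  intro g hg y hy y' hy'
  have hy'V : y' ∈ V := hδ₂V (ball_subset_ball ((min_le_left _ _).trans (min_le_right _ _)) hy')
  have hyd : dist y (y₁ : E) < δ₁ :=
    (mem_ball.1 hy.2).trans_le ((min_le_left _ _).trans (min_le_left _ _))
  rcases mem_iInter₂.1 (hWU (mk_mem_prod hg
    (hδ₁U (show (⟨y, hy.1⟩ : X) ∈ ball y₁ δ₁ from hyd)))) y' hy'V with hbad | hok
  · exfalso
    have hbad' : ((m : ℝ) + 1)⁻¹ ≤ dist y' y := hbad
    linarith [dist_triangle_right y' y (y₁ : E), mem_ball.1 hy', mem_ball.1 hy.2,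
      min_le_right (min δ₁ δ₂) (((m : ℝ) + 1)⁻¹ / 2)]
  · exact hok

/-- **Local triviality**: every point has a neighbourhood fixed by an open normal subgroup. -/
theorem IsAction.locally_fixed (hA : IsAction A V) (hhol : ∀ g, ∀ x ∈ V, HolAt (A g) x) :
    ∀ x ∈ V, ∃ H : OpenNormalSubgroup K, x ∈ fixInterior A V H := by
  intro x hxV
  by_contra hx
  borelize E
  set Ω : Set E := ⋃ H : OpenNormalSubgroup K, fixInterior A V H with hΩ
  have hΩo : IsOpen Ω := isOpen_iUnion fun _ => isOpen_interior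
  have hxΩ : x ∉ Ω := fun h => hx (mem_iUnion.1 h)
  obtain ⟨y₁, hy₁, δ, hδ, c, W₀, hW₀, q, L, hq, hnq, hball, hbd⟩ := hA.exists_uniform_coset hhol
    (hA.isOpen.isLocallyClosed.inter hΩo.isClosed_compl.isLocallyClosed) inter_subset_left
    ⟨x, hxV, hxΩ⟩
  set r := δ / 2 with hr
  have hr0 : 0 < r := half_pos hδ
  have hrδ : closedBall y₁ r ⊆ ball y₁ δ := closedBall_subset_ball (by rw [hr]; linarith)
  set D := closedBall y₁ r with hD
  have hDc : IsCompact D := isCompact_closedBall _ _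
  have hDV : D ⊆ V := hrδ.trans hball
  set s := r / 24 with hs
  have hs0 : 0 < s := by positivity
  -- `A c⁻¹` near the image of the ball
  obtain ⟨ρ₁, hρ₁, hρ₁V⟩ :=
    (hDc.image_of_continuousOn ((hA.continuousOn_apply c).mono hDV)).exists_cthickening_subset_open
      hA.isOpen (image_subset_iff.2 fun w hw => hA.mapsTo c (hDV hw))
  set K₁ := cthickening ρ₁ (A c '' D) with hK₁
  have hK₁c : IsCompact K₁ :=
    (hDc.image_of_continuousOn ((hA.continuousOn_apply c).mono hDV)).cthickening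
  obtain ⟨θ₁, hθ₁, hu₁⟩ := Metric.uniformContinuousOn_iff.1
    (hK₁c.uniformContinuousOn_of_continuous ((hA.continuousOn_apply c⁻¹).mono hρ₁V)) s hs0
  set σ := min ρ₁ (θ₁ / 2) with hσ
  have hσ0 : 0 < σ := by positivity
  -- `A c` near the ball
  obtain ⟨ρ₂, hρ₂, hρ₂V⟩ := hDc.exists_cthickening_subset_open hA.isOpen hDV
  obtain ⟨θ₂, hθ₂, hu₂⟩ := Metric.uniformContinuousOn_iff.1
    (hDc.cthickening.uniformContinuousOn_of_continuous
      ((hA.continuousOn_apply c).mono hρ₂V)) σ hσ0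
  set ε := min (min s θ₂) ρ₂ with hε
  have hε0 : 0 < ε := by positivity
  obtain ⟨W₁, hW₁, hW₁o, h1W₁⟩ := mem_nhds_iff.1 (hA.eventually_small hDc hDV hε0)
  obtain ⟨W₂, hW₂, hW₂o, hcW₂⟩ := mem_nhds_iff.1 hW₀
  obtain ⟨H, hH⟩ := ProfiniteGrp.exist_openNormalSubgroup_sub_open_nhds_of_one
    (hW₁o.inter (hW₂o.preimage (continuous_const_mul c)))
    (show (1 : K) ∈ W₁ ∧ c * 1 ∈ W₂ by rw [mul_one]; exact ⟨h1W₁, hcW₂⟩)
  refine hy₁.2 (mem_iUnion.2 ⟨H, interior_maximal (t := ball y₁ (r / 2)) ?_ isOpen_ball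
    (mem_ball_self (by positivity))⟩)
  intro z hz
  have hzV : z ∈ V := hDV (mem_closedBall.2 (by linarith [mem_ball.1 hz]))
  refine ⟨hzV, fun g hg => ?_⟩
  let S : Subgroup K :=
    { carrier := {k | A k z = z}
      one_mem' := hA.one z hzV
      mul_mem' := fun {a b} ha hb => by
        show A (a * b) z = z
        rw [hA.mul a b z hzV, show A b z = z from hb]
        exact ha
      inv_mem' := fun {a} ha => by
        show A a⁻¹ z = z
        conv_lhs => rw [← show A a z = z from ha]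
        exact hA.inv_apply a hzV }
  refine mem_of_forall_proP (S := S) (isClosed_eq (hA.continuous_orbit hzV) continuous_const) g
    fun p hp x hxg hPp => ?_
  set P : Subgroup K := (Subgroup.zpowers x).topologicalClosure with hP
  have hxH : x ∈ H :=
    (Subgroup.topologicalClosure_minimal _ (Subgroup.zpowers_le.2 hg)
      H.toOpenSubgroup.isClosed) hxg
  have hPH : ∀ k : P, (k : K) ∈ H := fun k =>
    (Subgroup.topologicalClosure_minimal _ (Subgroup.zpowers_le.2 hxH)
      H.toOpenSubgroup.isClosed) k.2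
  have : CompactSpace P :=
    isCompact_iff_compactSpace.1 (Subgroup.isClosed_topologicalClosure _).isCompact
  have : TotallyDisconnectedSpace P := Subtype.totallyDisconnectedSpace
  set x' : P := ⟨x, Subgroup.le_topologicalClosure _ (Subgroup.mem_zpowers x)⟩ with hx'
  have hdense : Dense (Subgroup.zpowers x' : Set P) := by
    intro w
    rw [closure_subtype]
    have e : (Subtype.val '' (Subgroup.zpowers x' : Set P)) = (Subgroup.zpowers x : Set K) := by
      ext u
      simp only [mem_image, SetLike.mem_coe, Subgroup.mem_zpowers_iff]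
      constructor
      · rintro ⟨_, ⟨k, rfl⟩, rfl⟩
        exact ⟨k, by simp [x']⟩
      · rintro ⟨k, rfl⟩
        exact ⟨x' ^ k, ⟨k, rfl⟩, by simp [x']⟩
    rw [e]
    exact w.2
  let : MeasurableSpace P := borel P
  have : BorelSpace P := ⟨rfl⟩
  set ν : Measure P := (Measure.haarMeasure (⊤ : TopologicalSpace.PositiveCompacts P)).inv with hν
  have : IsProbabilityMeasure ν := by
    refine ⟨?_⟩
    rw [hν, Measure.inv_apply, Set.inv_univ]
    simpa using Measure.haarMeasure_self (K₀ := (⊤ : TopologicalSpace.PositiveCompacts P))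
  have hAP : IsAction (fun k : P => A k) V :=
    ⟨hA.isOpen, fun k => hA.mapsTo k, hA.one, fun g h => hA.mul g h,
      hA.continuousOn.comp ((continuous_subtype_val.comp continuous_fst).prodMk
        continuous_snd).continuousOn fun p hp => ⟨trivial, hp.2⟩⟩
  -- the average over the coset
  set φ : E → E := fun y => ∫ k : P, A (c * k) y ∂ν with hφ
  have hint : ∀ y ∈ V, Integrable (fun k : P => A (c * k) y) ν := fun y hy =>
    ((hA.continuous_orbit hy).comp ((continuous_const_mul c).comp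
      continuous_subtype_val)).integrable_of_hasCompactSupport (HasCompactSupport.of_compactSpace _)
  have hφhol : ∀ y ∈ ball y₁ δ, HolAt φ y := by
    intro y hy
    have hyV : y ∈ V := hball hy
    obtain ⟨α, C, hα, hnα, hC⟩ : ∃ α C : ℝ, 0 < α ∧ (Module.finrank ℝ E : ℝ) * (1 - α) < 1 ∧
        ∀ᶠ y' in 𝓝 y, ∀ k : P, ‖A (c * k) y' - A (c * k) y‖ ≤ C * ‖y' - y‖ ^ α := by
      by_cases hyΩ : y ∈ Ω
      · obtain ⟨N, hN⟩ := mem_iUnion.1 hyΩ
        obtain ⟨α, C, hα, hnα, hC⟩ := hA.uniform_hol hhol hN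
        exact ⟨α, C, hα, hnα, hC.mono fun y' h k => h _⟩
      · refine ⟨q, L, hq, hnq, ?_⟩
        filter_upwards [isOpen_ball.mem_nhds hy] with y' hy' k
        exact hbd _ (hW₂ (hH (hPH k)).2) y ⟨⟨hyV, hyΩ⟩, hy⟩ y' hy'
    refine ⟨α, hα, hnα, IsBigO.of_bound C ?_⟩
    filter_upwards [hC, hA.isOpen.mem_nhds hyV] with y' hy' hy'V
    rw [Real.norm_of_nonneg (by positivity : 0 ≤ ‖y' - y‖ ^ α)]
    show ‖(∫ k : P, A (c * k) y' ∂ν) - ∫ k : P, A (c * k) y ∂ν‖ ≤ _
    rw [← integral_sub (hint y' hy'V) (hint y hyV)]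
    simpa using norm_integral_le_of_norm_le_const (μ := ν)
      (Eventually.of_forall fun k : P => hy' k)
  have hsmall : ∀ k : P, ∀ y ∈ D, dist (A k y) y < ε := fun k y hy => hW₁ (hH (hPH k)).1 y hy
  have hφc : ∀ y ∈ D, φ y ∈ K₁ ∧ dist (φ y) (A c y) ≤ σ := by
    intro y hy
    have hd : dist (φ y) (A c y) ≤ σ := by
      have e : φ y - A c y = ∫ k : P, (A (c * k) y - A c y) ∂ν := by
        rw [integral_sub (hint y (hDV hy)) (integrable_const _)]
        simp [hφ]
      rw [dist_eq_norm, e]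
      have hb : ∀ k : P, ‖A (c * k) y - A c y‖ ≤ σ := fun k => by
        rw [hA.mul c k y (hDV hy), ← dist_eq_norm]
        refine (hu₂ _ (mem_cthickening_of_dist_le _ y _ _ hy ?_) y
          (self_subset_cthickening _ hy) ?_).le
        · exact (hsmall k y hy).le.trans (min_le_right _ _)
        · exact (hsmall k y hy).trans_le ((min_le_left _ _).trans (min_le_right _ _))
      simpa using norm_integral_le_of_norm_le_const (μ := ν) (Eventually.of_forall hb)
    exact ⟨mem_cthickening_of_dist_le _ (A c y) _ _ (mem_image_of_mem _ hy)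
      (hd.trans (min_le_left _ _)), hd⟩
  have hφcont : ContinuousOn φ D := by
    intro y hy
    obtain ⟨α, hα, -, hO⟩ := hφhol y (hrδ hy)
    refine ContinuousAt.continuousWithinAt (tendsto_sub_nhds_zero_iff.1 (hO.trans_tendsto ?_))
    have h0 : ContinuousAt (fun w : E => ‖w - y‖ ^ α) y :=
      ((continuousAt_id.sub continuousAt_const).norm).rpow_const (Or.inr hα.le)
    simpa [ContinuousAt, Real.zero_rpow hα.ne'] using h0.tendsto
  have hinvc : ∀ u ∈ V, A c (A c⁻¹ u) = u := fun u hu => by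
    rw [← hA.mul _ _ u hu, mul_inv_cancel, hA.one u hu]
  set μ : Measure E := (Module.finBasis ℝ E).addHaar
  have hfix := newman_thin hAP (g := x') hdense hp hPp (c := y₁) (R := r) hs0 hDV
    (fun k w hw => by
      rw [← dist_eq_norm]
      exact (hsmall k w hw).le.trans ((min_le_left _ _).trans (min_le_left _ _)))
    (ψ := fun y => A c⁻¹ (φ y))
    ((hA.continuousOn_apply c⁻¹).comp hφcont fun y hy => hρ₁V (hφc y hy).1)
    (fun y hy => by
      have h1 : A c y ∈ K₁ := self_subset_cthickening _ (mem_image_of_mem _ hy)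
      have h2 := (hu₁ _ (hφc y hy).1 _ h1 ((hφc y hy).2.trans_lt
        ((min_le_right _ _).trans_lt (half_lt_self hθ₁)))).le
      rwa [hA.inv_apply c (hDV hy), dist_eq_norm] at h2)
    (fun k y hy _ => by
      show A c⁻¹ (φ (A k y)) = A c⁻¹ (φ y)
      congr 1
      show ∫ h : P, A (c * h) (A k y) ∂ν = ∫ h : P, A (c * h) y ∂ν
      have e : ∀ h : P, A (c * h) (A k y) = A (c * (h * k : P)) y := fun h => by
        rw [← hA.mul _ _ y (hDV hy), Subgroup.coe_mul, mul_assoc]
      simp only [e]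
      exact integral_mul_right_eq_self (fun h : P => A (c * h) y) k)
    (fun y hy hfy => by
      have e : φ y = A c y := by
        have : ∀ k : P, A (c * k) y = A c y := fun k => by rw [hA.mul c k y (hDV hy), hfy k]
        simp [hφ, this]
      rw [e]
      exact hA.inv_apply c (hDV hy))
    (fun O hO hO0 hOr => by
      obtain ⟨w, hw⟩ := hO0
      set O' : Set E := V ∩ A c⁻¹ ⁻¹' O
      have hO'o : IsOpen O' := (hA.continuousOn_apply c⁻¹).isOpen_inter_preimage hA.isOpen hO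
      have hwV : w ∈ V := hDV (ball_subset_closedBall (hOr hw))
      have hO'0 : O'.Nonempty := ⟨A c w, hA.mapsTo c hwV, by
        rw [mem_preimage, hA.inv_apply c hwV]; exact hw⟩
      obtain ⟨z', hz', hzt⟩ : ∃ z' ∈ O', IsThin (ball y₁ δ ∩ φ ⁻¹' {z'}) := by
        by_contra! h
        exact (hO'o.measure_pos μ hO'0).ne'
          (measure_mono_null h (ae_iff.1 (ae_thin_fibre μ hφhol)))
      refine ⟨A c⁻¹ z', hz'.2, hzt.mono fun y hy => ⟨hrδ hy.1, ?_⟩⟩
      have e := congrArg (A c) (show A c⁻¹ (φ y) = A c⁻¹ z' from hy.2)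
      rwa [hinvc _ (hρ₁V (hφc y hy.1).1), hinvc _ hz'.1] at e)
  exact hfix z (mem_ball.2 (by rw [hs]; linarith [mem_ball.1 hz])) x'

end Vale.Agent.P228
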