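import Vale.Agent.P228.HolSpread

/-!
# Pointwise Hölder actions of totally disconnected groups on manifolds

A compact totally disconnected group acting faithfully on a connected `n`-manifold by maps which
at every point satisfy a Hölder bound with some exponent `a`, `n (1 - a) < 1`, is finite; a locally
compact one is discrete.
-/

namespace Vale.Agent.P228

open Set Metric Filter Function Asymptotics
open scoped Topology Manifold ContDiff

/-- In a locally compact totally disconnected group the neighbourhoods of `1` contain compact open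
subgroups. -/
theorem exists_compact_open_subgroup {G : Type*} [Group G] [TopologicalSpace G]
    [IsTopologicalGroup G] [LocallyCompactSpace G] [TotallyDisconnectedSpace G] :
    ∃ S : Subgroup G, IsOpen (S : Set G) ∧ IsCompact (S : Set G) := by
  have : T2Space G := inferInstance
  obtain ⟨C, hC, hC1⟩ := exists_compact_mem_nhds (1 : G)
  obtain ⟨W, hW, h1W, hWC⟩ := (loc_compact_Haus_tot_disc_of_zero_dim (H := G)).exists_subset_of_mem_open
    (mem_interior_iff_mem_nhds.2 hC1) isOpen_interior
  have hWc : IsCompact W := hC.of_isClosed_subset hW.1 (hWC.trans interior_subset)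
  obtain ⟨V, hV, hWV⟩ := compact_open_separated_mul_right hWc hW.2 Subset.rfl
  set V' : Set G := V ∩ V⁻¹ with hV'
  have hV'n : V' ∈ 𝓝 (1 : G) := inter_mem hV (inv_mem_nhds_one G hV)
  set S : Subgroup G := Subgroup.closure V' with hS
  have hopen : IsOpen (S : Set G) :=
    S.isOpen_of_mem_nhds (mem_of_superset hV'n Subgroup.subset_closure)
  have hsub : (S : Set G) ⊆ W := by
    intro x hx
    induction hx using Subgroup.closure_induction_right with
    | one => exact h1W
    | mul_right x hx y hy ih => exact hWV (Set.mul_mem_mul ih hy.1)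
    | mul_inv_cancel x hx y hy ih => exact hWV (Set.mul_mem_mul ih (Set.mem_inv.1 hy.2))
  exact ⟨S, hopen, hWc.of_isClosed_subset
    (OpenSubgroup.isClosed { S with isOpen' := hopen }) hsub⟩

variable {n : ℕ} {M : Type*} [TopologicalSpace M] [ChartedSpace (EuclideanSpace ℝ (Fin n)) M]
  [IsManifold (𝓡 n) 1 M] {G : Type*} [Group G] [TopologicalSpace G] [IsTopologicalGroup G]
  [CompactSpace G] [TotallyDisconnectedSpace G] [MulAction G M] [ContinuousSMul G M]

/-- `y ↦ g • y` satisfies at `x`, in charts, a Hölder bound with an exponent `a > 0`,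
`n (1 - a) < 1`. -/
abbrev HolAtChart (n : ℕ) {G M : Type*} [SMul G M] [TopologicalSpace M]
    [ChartedSpace (EuclideanSpace ℝ (Fin n)) M] (g : G) (x : M) : Prop :=
  ∃ a : ℝ, 0 < a ∧ (n : ℝ) * (1 - a) < 1 ∧
    (fun y : M => chartAt (EuclideanSpace ℝ (Fin n)) (g • x) (g • y) -
        chartAt (EuclideanSpace ℝ (Fin n)) (g • x) (g • x)) =O[𝓝 x]
      fun y : M => ‖chartAt (EuclideanSpace ℝ (Fin n)) x y -
        chartAt (EuclideanSpace ℝ (Fin n)) x x‖ ^ a

omit [IsTopologicalGroup G] [CompactSpace G] [TotallyDisconnectedSpace G] in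
/-- The action in any pair of charts satisfies the same Hölder bound. -/
theorem hol_chart {g : G} {u : M} (hg : HolAtChart n g u) (x z : M)
    (hux : u ∈ (chartAt (EuclideanSpace ℝ (Fin n)) x).source)
    (hgz : g • u ∈ (chartAt (EuclideanSpace ℝ (Fin n)) z).source) :
    HolAt (fun w => chartAt (EuclideanSpace ℝ (Fin n)) z
      (g • (chartAt (EuclideanSpace ℝ (Fin n)) x).symm w))
      (chartAt (EuclideanSpace ℝ (Fin n)) x u) := by
  set φ := chartAt (EuclideanSpace ℝ (Fin n)) x with hφ
  set ψ := chartAt (EuclideanSpace ℝ (Fin n)) z with hψ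
  set α := chartAt (EuclideanSpace ℝ (Fin n)) u with hα
  set β := chartAt (EuclideanSpace ℝ (Fin n)) (g • u) with hβ
  obtain ⟨a, ha, hna, hO⟩ := hg
  have hu : u ∈ α.source := mem_chart_source _ u
  have hgu : g • u ∈ β.source := mem_chart_source _ (g • u)
  have hc : ContinuousAt φ.symm (φ u) := φ.continuousAt_symm (φ.map_source hux)
  have hcg : ContinuousAt (fun w => g • φ.symm w) (φ u) :=
    (continuous_const_smul g).continuousAt.comp hc
  have ht : Tendsto φ.symm (𝓝 (φ u)) (𝓝 u) := by
    have := hc.tendsto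
    rwa [φ.left_inv hux] at this
  -- the changes of charts
  have h1 : DifferentiableAt ℝ (fun w => α (φ.symm w)) (φ u) := by
    rw [← mdifferentiableAt_iff_differentiableAt]
    refine MDifferentiableAt.comp (φ u) ?_
      ((mdifferentiable_chart x).mdifferentiableAt_symm (φ.map_source hux))
    rw [φ.left_inv hux]
    exact (mdifferentiable_chart u).mdifferentiableAt hu
  have h3 : DifferentiableAt ℝ (fun t => ψ (β.symm t)) (β (g • u)) := by
    rw [← mdifferentiableAt_iff_differentiableAt]
    refine MDifferentiableAt.comp (β (g • u)) ?_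
      ((mdifferentiable_chart (g • u)).mdifferentiableAt_symm (β.map_source hgu))
    rw [β.left_inv hgu]
    exact (mdifferentiable_chart z).mdifferentiableAt hgz
  -- the middle part, read in the chart at `x`
  have h2 : (fun w => β (g • φ.symm w) - β (g • u)) =O[𝓝 (φ u)] fun w => ‖w - φ u‖ ^ a := by
    refine (hO.comp_tendsto ht).trans (IsBigO.rpow ha.le
      (Eventually.of_forall fun w => norm_nonneg _) ?_)
    have h5 : (fun w => α (φ.symm w) - α (φ.symm (φ u))) =O[𝓝 (φ u)] fun w => w - φ u :=
      h1.hasFDerivAt.isBigO_sub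
    rw [φ.left_inv hux] at h5
    exact h5.norm_norm
  have htβ : Tendsto (fun w => β (g • φ.symm w)) (𝓝 (φ u)) (𝓝 (β (g • u))) :=
    (β.continuousAt hgu).tendsto.comp (((continuous_const_smul g).tendsto u).comp ht)
  refine ⟨a, ha, by simpa using hna, ?_⟩
  refine ((h3.hasFDerivAt.isBigO_sub.comp_tendsto htβ).trans h2).congr' ?_ EventuallyEq.rfl
  filter_upwards [hcg.preimage_mem_nhds (β.open_source.mem_nhds (by rwa [φ.left_inv hux]))]
    with w hw
  simp only [mem_preimage] at hw
  simp [β.left_inv hw, β.left_inv hgu, φ.left_inv hux]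

omit [TopologicalSpace G] [IsTopologicalGroup G] [CompactSpace G] [TotallyDisconnectedSpace G]
  [ContinuousSMul G M] [IsManifold (𝓡 n) 1 M] in
/-- A pointwise Lipschitz map satisfies the condition with exponent one. -/
theorem holAtChart_of_isBigO {g : G} {x : M}
    (h : (fun y : M => chartAt (EuclideanSpace ℝ (Fin n)) (g • x) (g • y) -
        chartAt (EuclideanSpace ℝ (Fin n)) (g • x) (g • x)) =O[𝓝 x]
      fun y : M => chartAt (EuclideanSpace ℝ (Fin n)) x y -
        chartAt (EuclideanSpace ℝ (Fin n)) x x) : HolAtChart n g x :=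
  ⟨1, one_pos, by simp, by simpa using h.norm_right⟩

omit [TopologicalSpace G] [IsTopologicalGroup G] [CompactSpace G] [TotallyDisconnectedSpace G]
  [ContinuousSMul G M] in
/-- A map which is differentiable at a point satisfies the condition there. -/
theorem holAtChart_of_mdifferentiableAt {g : G} {x : M}
    (h : MDifferentiableAt (𝓡 n) (𝓡 n) (fun y : M => g • y) x) : HolAtChart n g x := by
  set φ := chartAt (EuclideanSpace ℝ (Fin n)) x with hφ
  set ψ := chartAt (EuclideanSpace ℝ (Fin n)) (g • x) with hψ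
  have hx : x ∈ φ.source := mem_chart_source _ x
  have hd : DifferentiableAt ℝ (fun w => ψ (g • φ.symm w)) (φ x) := by
    rw [← mdifferentiableAt_iff_differentiableAt]
    have h1 : MDifferentiableAt (𝓡 n) (𝓡 n) φ.symm (φ x) :=
      (mdifferentiable_chart x).mdifferentiableAt_symm (φ.map_source hx)
    have h2 : MDifferentiableAt (𝓡 n) (𝓡 n) ψ (g • x) :=
      (mdifferentiable_chart (g • x)).mdifferentiableAt (mem_chart_source _ _)
    have e : φ.symm (φ x) = x := φ.left_inv hx
    have h3 : MDifferentiableAt (𝓡 n) (𝓡 n) (fun w => g • φ.symm w) (φ x) := by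
      refine MDifferentiableAt.comp (g := fun y : M => g • y) (φ x) ?_ h1
      rw [e]; exact h
    refine MDifferentiableAt.comp (g := ψ) (φ x) ?_ h3
    show MDifferentiableAt (𝓡 n) (𝓡 n) ψ (g • φ.symm (φ x))
    rw [e]; exact h2
  refine holAtChart_of_isBigO ((hd.hasFDerivAt.isBigO_sub.comp_tendsto
    (φ.continuousAt hx)).congr' ?_ ?_)
  · filter_upwards [φ.open_source.mem_nhds hx] with y hy
    simp [φ.left_inv hy, φ.left_inv hx, ← hψ]
  · exact Eventually.of_forall fun y => by simp [← hφ]

/-- The points whose orbit under `N` stays in the chart at `x`. -/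
def chartCore (N : OpenNormalSubgroup G) (x : M) : Set M :=
  {y | ∀ k ∈ N, k • y ∈ (chartAt (EuclideanSpace ℝ (Fin n)) x).source}

omit [IsManifold (𝓡 n) 1 M] [TotallyDisconnectedSpace G] in
theorem isOpen_chartCore (N : OpenNormalSubgroup G) (x : M) :
    IsOpen (chartCore (n := n) N x) := by
  refine isOpen_iff_mem_nhds.2 fun y hy => ?_
  have hN : IsCompact (N : Set G) := N.toOpenSubgroup.isClosed.isCompact
  refine hN.eventually_forall_of_forall_eventually (P := fun z k => k • z ∈ _) fun k hk => ?_
  exact (continuous_snd.smul continuous_fst).continuousAt.preimage_mem_nhds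
    ((chartAt _ x).open_source.mem_nhds (hy k hk))

omit [IsManifold (𝓡 n) 1 M] [IsTopologicalGroup G] [CompactSpace G] [TotallyDisconnectedSpace G]
  [ContinuousSMul G M] in
theorem chartCore_subset (N : OpenNormalSubgroup G) (x : M) :
    chartCore (n := n) N x ⊆ (chartAt (EuclideanSpace ℝ (Fin n)) x).source := by
  intro y hy
  simpa using hy 1 N.toSubgroup.one_mem

omit [IsManifold (𝓡 n) 1 M] [IsTopologicalGroup G] [CompactSpace G] [TotallyDisconnectedSpace G] in
/-- In the chart at `x` the subgroup `N` acts on every invariant open part of `chartCore N x`. -/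
theorem isAction_chart (N : OpenNormalSubgroup G) (x : M) {P : Set M} (hP : IsOpen P)
    (hPs : P ⊆ chartCore (n := n) N x) (hPi : ∀ k ∈ N, ∀ y ∈ P, k • y ∈ P) :
    IsAction (K := N.toSubgroup)
      (fun k y => chartAt (EuclideanSpace ℝ (Fin n)) x
        ((k : G) • (chartAt (EuclideanSpace ℝ (Fin n)) x).symm y))
      ((chartAt (EuclideanSpace ℝ (Fin n)) x).target ∩
        (chartAt (EuclideanSpace ℝ (Fin n)) x).symm ⁻¹' P) := by
  set φ := chartAt (EuclideanSpace ℝ (Fin n)) x with hφ
  have hsrc : ∀ k : N.toSubgroup, ∀ y ∈ φ.target ∩ φ.symm ⁻¹' P,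
      (k : G) • φ.symm y ∈ φ.source := fun k y hy => hPs hy.2 k k.2
  constructor
  · exact φ.isOpen_inter_preimage_symm hP
  · intro k y hy
    refine ⟨φ.map_source (hsrc k y hy), ?_⟩
    show φ.symm (φ _) ∈ P
    rw [φ.left_inv (hsrc k y hy)]
    exact hPi k k.2 _ hy.2
  · intro y hy
    show φ ((1 : G) • φ.symm y) = y
    rw [one_smul, φ.right_inv hy.1]
  · intro g h y hy
    show φ (((g * h : N.toSubgroup) : G) • φ.symm y) = φ ((g : G) • φ.symm (φ _))
    rw [φ.left_inv (hsrc h y hy), smul_smul]
    rfl
  · refine φ.continuousOn.comp ?_ fun p hp => hsrc p.1 p.2 hp.2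
    exact (continuous_subtype_val.comp_continuousOn continuous_fst.continuousOn).smul
      (φ.continuousOn_symm.comp continuous_snd.continuousOn fun p hp => hp.2.1)

omit [IsTopologicalGroup G] [CompactSpace G] [TotallyDisconnectedSpace G] in
/-- In the chart at `x` the elements of `N` satisfy the Hölder condition. -/
theorem hol_action_chart (hd : ∀ g : G, ∀ x : M, HolAtChart n g x) (N : OpenNormalSubgroup G) (x : M)
    {P : Set M} (hPs : P ⊆ chartCore (n := n) N x) :
    ∀ k : N.toSubgroup, ∀ w ∈ (chartAt (EuclideanSpace ℝ (Fin n)) x).target ∩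
        (chartAt (EuclideanSpace ℝ (Fin n)) x).symm ⁻¹' P,
      HolAt (fun y => chartAt (EuclideanSpace ℝ (Fin n)) x
        ((k : G) • (chartAt (EuclideanSpace ℝ (Fin n)) x).symm y)) w := by
  set φ := chartAt (EuclideanSpace ℝ (Fin n)) x with hφ
  intro k w hw
  have := hol_chart (hd (k : G) (φ.symm w)) x x (φ.map_target hw.1) (hPs hw.2 k k.2)
  rwa [φ.right_inv hw.1] at this

/-- Every point has a neighbourhood fixed by an open normal subgroup. -/
theorem exists_fixed_nhds (hd : ∀ g : G, ∀ x : M, HolAtChart n g x) (x : M) :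
    ∃ N : OpenNormalSubgroup G, ∃ U : Set M, IsOpen U ∧ x ∈ U ∧ ∀ k ∈ N, ∀ y ∈ U, k • y = y := by
  set φ := chartAt (EuclideanSpace ℝ (Fin n)) x with hφ
  have hc : Continuous fun k : G => k • x := continuous_id.smul continuous_const
  obtain ⟨N, hN⟩ := ProfiniteGrp.exist_openNormalSubgroup_sub_open_nhds_of_one
    (φ.open_source.preimage hc) (by simp [hφ, mem_chart_source])
  have : CompactSpace N.toSubgroup :=
    isCompact_iff_compactSpace.1 N.toOpenSubgroup.isClosed.isCompact
  have : TotallyDisconnectedSpace N.toSubgroup := Subtype.totallyDisconnectedSpace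
  have hinv : ∀ k ∈ N, ∀ y ∈ chartCore (n := n) N x, k • y ∈ chartCore (n := n) N x := by
    intro k hk y hy k' hk'
    rw [smul_smul]
    exact hy _ (mul_mem hk' hk)
  have hA := isAction_chart N x (isOpen_chartCore N x) Subset.rfl hinv
  have hxc : x ∈ chartCore (n := n) N x := fun k hk => hN hk
  have hxs : x ∈ φ.source := mem_chart_source _ x
  obtain ⟨H, hH⟩ := hA.locally_fixed (hol_action_chart hd N x Subset.rfl) (φ x) ⟨φ.map_source hxs, by
    rwa [mem_preimage, φ.left_inv hxs]⟩
  -- a normal subgroup of `G` inside `H`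
  have hHo : IsOpen (Subtype.val '' (H : Set N.toSubgroup) : Set G) :=
    N.toOpenSubgroup.isOpen.isOpenMap_subtype_val _ H.toOpenSubgroup.isOpen
  obtain ⟨N', hN'⟩ := ProfiniteGrp.exist_openNormalSubgroup_sub_open_nhds_of_one hHo
    ⟨1, H.toSubgroup.one_mem, rfl⟩
  refine ⟨N', φ.source ∩ φ ⁻¹' fixInterior _ _ H,
    φ.continuousOn.isOpen_inter_preimage φ.open_source isOpen_interior, ⟨hxs, hH⟩, ?_⟩
  rintro k hk y ⟨hys, hyF⟩
  obtain ⟨h, hh, rfl⟩ := hN' hk
  have e := fixInterior_fixed hyF hh
  have hmem := fixInterior_subset H hyF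
  rw [mem_inter_iff, mem_preimage, φ.left_inv hys] at hmem
  change φ ((h : G) • φ.symm (φ y)) = φ y at e
  rw [φ.left_inv hys] at e
  exact φ.injOn (hmem.2 h h.2) hys e

/-- On a connected manifold the kernel of the action is open. -/
theorem exists_trivial_subgroup [T2Space M] [ConnectedSpace M]
    (hd : ∀ g : G, ∀ x : M, HolAtChart n g x) :
    ∃ N : OpenNormalSubgroup G, ∀ k ∈ N, ∀ y : M, k • y = y := by
  obtain ⟨x₀⟩ := (inferInstance : Nonempty M)
  obtain ⟨N, U₀, hU₀, hx₀, hfix₀⟩ := exists_fixed_nhds (n := n) hd x₀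
  set F : Set M := interior {y | ∀ k ∈ N, k • y = y} with hF
  suffices h : F = univ from
    ⟨N, fun k hk y => interior_subset (s := {y | ∀ k ∈ N, k • y = y}) (h ▸ mem_univ y : y ∈ F) k hk⟩
  refine IsClopen.eq_univ ⟨isClosed_of_closure_subset ?_, isOpen_interior⟩
    ⟨x₀, interior_maximal (t := U₀) (fun y hy k hk => hfix₀ k hk y hy) hU₀ hx₀⟩
  intro x hx
  set φ := chartAt (EuclideanSpace ℝ (Fin n)) x with hφ
  have hclosed : IsClosed {y : M | ∀ k ∈ N, k • y = y} := by
    simp only [ofPred_forall]
    exact isClosed_biInter fun k _ => isClosed_eq (continuous_const_smul k) continuous_id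
  have hfx : ∀ k ∈ N, k • x = x := (closure_minimal interior_subset hclosed) hx
  have hxs : x ∈ φ.source := mem_chart_source _ x
  set P : Set M := chartCore (n := n) N x with hP
  have hPo : IsOpen P := isOpen_chartCore N x
  have hPi : ∀ k ∈ N, ∀ y ∈ P, k • y ∈ P :=
    fun k hk y hy k' hk' => by rw [smul_smul]; exact hy _ (mul_mem hk' hk)
  have hxP : x ∈ P := fun k hk => by rw [hfx k hk]; exact hxs
  have : CompactSpace N.toSubgroup :=
    isCompact_iff_compactSpace.1 N.toOpenSubgroup.isClosed.isCompact
  have : TotallyDisconnectedSpace N.toSubgroup := Subtype.totallyDisconnectedSpace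
  have hA := isAction_chart N x hPo Subset.rfl hPi
  set V := φ.target ∩ φ.symm ⁻¹' P with hV
  have hxV : φ x ∈ V := ⟨φ.map_source hxs, by rwa [mem_preimage, φ.left_inv hxs]⟩
  obtain ⟨ε, hε, hball⟩ := Metric.isOpen_iff.1 hA.isOpen _ hxV
  set U' : Set M := φ.source ∩ φ ⁻¹' ball (φ x) ε with hU'
  have hU'o : IsOpen U' := φ.continuousOn.isOpen_inter_preimage φ.open_source isOpen_ball
  obtain ⟨z, hzU, hzF⟩ := mem_closure_iff.1 hx U' hU'o ⟨hxs, mem_ball_self hε⟩
  refine interior_maximal (t := U') ?_ hU'o ⟨hxs, mem_ball_self hε⟩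
  intro y hy k hk
  have hres := hA.spread (hol_action_chart hd N x Subset.rfl) isOpen_ball
    (convex_ball _ ε).isPreconnected hball (O := φ.target ∩ φ.symm ⁻¹' F)
    (φ.isOpen_inter_preimage_symm isOpen_interior)
    ⟨φ z, hzU.2, φ.map_source hzU.1, by rwa [mem_preimage, φ.left_inv hzU.1]⟩
    (fun w hw j => by
      show φ ((j : G) • φ.symm w) = w
      rw [interior_subset (s := {y | ∀ k ∈ N, k • y = y}) hw.2 j j.2, φ.right_inv hw.1])
  have e : φ (k • φ.symm (φ y)) = φ y := hres (φ y) hy.2 ⟨k, hk⟩
  have hyV : φ y ∈ V := hball hy.2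
  rw [mem_inter_iff, mem_preimage, φ.left_inv hy.1] at hyV
  rw [φ.left_inv hy.1] at e
  exact φ.injOn (hyV.2 k hk) hy.1 e

/-- A compact totally disconnected group acting faithfully on a connected manifold by maps which
satisfy the Hölder condition at every point is finite. -/
theorem finite_of_hol [T2Space M] [ConnectedSpace M] [FaithfulSMul G M]
    (hd : ∀ g : G, ∀ x : M, HolAtChart n g x) : Finite G := by
  obtain ⟨N, hN⟩ := exists_trivial_subgroup (n := n) hd
  have h1 : (N : Set G) = {1} := by
    refine Subset.antisymm (fun k hk => ?_) (singleton_subset_iff.2 N.toSubgroup.one_mem)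
    exact eq_of_smul_eq_smul (α := M) fun y => by rw [hN k hk y, one_smul]
  have : DiscreteTopology G :=
    discreteTopology_of_isOpen_singleton_one (h1 ▸ N.toOpenSubgroup.isOpen)
  exact finite_of_compact_of_discrete

section LocallyCompact

variable {n : ℕ} {M : Type*} [TopologicalSpace M] [T2Space M] [ConnectedSpace M]
  [ChartedSpace (EuclideanSpace ℝ (Fin n)) M] [IsManifold (𝓡 n) 1 M]

/-- A locally compact totally disconnected group acting faithfully on a connected manifold by maps
which satisfy the Hölder condition at every point is discrete. -/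
theorem discrete_of_hol {G : Type*} [Group G] [TopologicalSpace G]
    [IsTopologicalGroup G] [LocallyCompactSpace G] [TotallyDisconnectedSpace G] [MulAction G M]
    [ContinuousSMul G M] [FaithfulSMul G M]
    (hd : ∀ g : G, ∀ x : M, HolAtChart n g x) : DiscreteTopology G := by
  obtain ⟨S, hSo, hSc⟩ := exists_compact_open_subgroup (G := G)
  have : CompactSpace S := isCompact_iff_compactSpace.1 hSc
  have : TotallyDisconnectedSpace S := Subtype.totallyDisconnectedSpace
  have : ContinuousSMul S M :=
    ⟨(continuous_subtype_val.comp continuous_fst).smul continuous_snd⟩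
  have : FaithfulSMul S M :=
    ⟨fun h => Subtype.ext (eq_of_smul_eq_smul (α := M) fun y => h y)⟩
  have : Finite S := finite_of_hol (n := n) (M := M) fun g => hd g
  refine discreteTopology_of_isOpen_singleton_one ?_
  have hfin : IsClosed ((S : Set G) \ {1}) :=
    ((Set.toFinite (S : Set G)).subset sdiff_subset).isClosed
  have : ({1} : Set G) = (S : Set G) \ ((S : Set G) \ {1}) := by
    ext g
    simp only [mem_singleton_iff, Set.mem_sdiff, SetLike.mem_coe]
    exact ⟨fun h => ⟨h ▸ S.one_mem, fun h' => h'.2 h⟩,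
      fun h => not_not.1 fun hg => h.2 ⟨h.1, hg⟩⟩
  rw [this]
  exact hSo.sdiff hfin

/-- The `p`-adic integers have no faithful action by such maps. -/
theorem not_padicInt_hol (p : ℕ) [Fact p.Prime] [MulAction (Multiplicative ℤ_[p]) M]
    [ContinuousSMul (Multiplicative ℤ_[p]) M] [FaithfulSMul (Multiplicative ℤ_[p]) M] :
    ¬ ∀ g : Multiplicative ℤ_[p], ∀ x : M, HolAtChart n g x := fun hd => by
  have := finite_of_hol (n := n) hd
  exact not_finite (Multiplicative ℤ_[p])

end LocallyCompact

end Vale.Agent.P228
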