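import Vale.Agent.P228.Split

/-!
# Degree one for maps of a ball which roughly keep directions on the boundary sphere
-/

namespace Vale.Agent.P228

open Set Metric Filter Function
open scoped Topology RealInnerProductSpace

variable {E : Type*} [NormedAddCommGroup E] [InnerProductSpace ℝ E] [FiniteDimensional ℝ E]

/-- Degree one for a map which sends a sphere outside of a point, moving no direction by more than
a right angle. -/
theorem degree_radial {p₀ z : E} {R : ℝ} {Φ : E → E} (hR : 0 < R)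
    (hΦ : ContinuousOn Φ (closedBall p₀ R))
    (hdir : ∀ x ∈ sphere p₀ R, 0 < ⟪Φ x - p₀, x - p₀⟫)
    (hrad : ∀ x ∈ sphere p₀ R, ‖z - p₀‖ < ‖Φ x - p₀‖) (hz : z ∈ ball p₀ R)
    (hreg : ∀ a ∈ closedBall p₀ R, Φ a = z →
      ∃ L : E →L[ℝ] E, HasFDerivAt Φ L a ∧ L.det ≠ 0) :
    ∃ Z : Finset E, (∀ a, a ∈ Z ↔ a ∈ closedBall p₀ R ∧ Φ a = z) ∧
      ∑ a ∈ Z, sgn (fderiv ℝ Φ a).det = 1 := by
  set t : E → ℝ := fun x => max 0 (min 1 ((2 * R - ‖x - p₀‖) / R)) with ht
  set π : E → E := fun x => p₀ + (R / ‖x - p₀‖) • (x - p₀) with hπ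
  set w : E → E := fun x => (1 - t x) • (‖x - p₀‖⁻¹ • (x - p₀)) +
    t x • (‖Φ (π x) - p₀‖⁻¹ • (Φ (π x) - p₀)) with hw
  set ρ : E → ℝ := fun x => (1 - t x) * ‖x - p₀‖ + t x * ‖Φ (π x) - p₀‖ with hρ
  set out : E → E := fun x => p₀ + (ρ x * ‖w x‖⁻¹) • w x - x with hout
  set v₀ : E → E := fun x => if ‖x - p₀‖ ≤ R then Φ x - x else out x with hv₀
  set S : Set E := {x | R ≤ ‖x - p₀‖} with hS
  have hπs : ∀ x ∈ S, π x ∈ sphere p₀ R := by
    intro x hx
    rw [mem_sphere, dist_eq_norm, hπ]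
    simp only [add_sub_cancel_left, norm_smul, norm_div, Real.norm_eq_abs, abs_norm,
      abs_of_pos hR]
    field_simp [(hR.trans_le hx).ne']
  have ht01 : ∀ x, 0 ≤ t x ∧ t x ≤ 1 := fun x =>
    ⟨le_max_left _ _, max_le zero_le_one (min_le_left _ _)⟩
  have hwpos : ∀ x ∈ S, 0 < ⟪w x, x - p₀⟫ := by
    intro x hx
    have hxn : 0 < ‖x - p₀‖ := hR.trans_le hx
    have h1 := hdir _ (hπs x hx)
    have hπe : π x - p₀ = (R / ‖x - p₀‖) • (x - p₀) := by simp [hπ]
    rw [hπe, real_inner_smul_right] at h1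
    have h2 : 0 < ⟪Φ (π x) - p₀, x - p₀⟫ := (mul_pos_iff_of_pos_left (div_pos hR hxn)).1 h1
    have h3 : 0 < ‖Φ (π x) - p₀‖ := norm_pos_iff.2 fun h => by simp [h] at h2
    rw [hw]
    simp only [inner_add_left, real_inner_smul_left, real_inner_self_eq_norm_sq]
    have a1 : 0 < ‖x - p₀‖⁻¹ * ‖x - p₀‖ ^ 2 := by positivity
    have a2 : 0 < ‖Φ (π x) - p₀‖⁻¹ * ⟪Φ (π x) - p₀, x - p₀⟫ := by positivity
    rcases eq_or_lt_of_le (ht01 x).1 with h0 | h0
    · rw [← h0]; simpa using a1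
    · nlinarith [mul_nonneg (sub_nonneg.2 (ht01 x).2) a1.le, mul_pos h0 a2]
  have hw0 : ∀ x ∈ S, w x ≠ 0 := fun x hx h => by simpa [h] using hwpos x hx
  have hπc : ContinuousOn π S := by
    refine continuousOn_const.add ((continuousOn_const.div (by fun_prop) ?_).smul (by fun_prop))
    exact fun x hx => (hR.trans_le hx).ne'
  have hΦπ : ContinuousOn (fun x => Φ (π x) - p₀) S :=
    ((hΦ.comp hπc fun x hx => sphere_subset_closedBall (hπs x hx))).sub continuousOn_const
  have hΦn : ∀ x ∈ S, ‖Φ (π x) - p₀‖ ≠ 0 := fun x hx h => by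
    have := hrad _ (hπs x hx)
    linarith [norm_nonneg (z - p₀)]
  have htc : Continuous t := by fun_prop
  have hwc : ContinuousOn w S := by
    refine ((continuousOn_const.sub htc.continuousOn).smul
      ((ContinuousOn.inv₀ (by fun_prop) fun x hx => (hR.trans_le hx).ne').smul (by fun_prop))).add
      (htc.continuousOn.smul ((hΦπ.norm.inv₀ hΦn).smul hΦπ))
  have houtc : ContinuousOn out S := by
    refine (continuousOn_const.add ((ContinuousOn.mul ?_
      (hwc.norm.inv₀ fun x hx => norm_ne_zero_iff.2 (hw0 x hx))).smul hwc)).sub continuousOn_id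
    exact ((continuousOn_const.sub htc.continuousOn).mul (by fun_prop)).add
      (htc.continuousOn.mul hΦπ.norm)
  have hedge : ∀ x, ‖x - p₀‖ = R → Φ x - x = out x := by
    intro x hx
    have ht1 : t x = 1 := by
      simp [ht, hx, show (2 * R - R) / R = 1 by field_simp; ring]
    have hπx : π x = x := by simp [hπ, hx, hR.ne']
    have hn : ‖Φ x - p₀‖ ≠ 0 := fun h => by
      have := hrad x (by simpa [dist_eq_norm] using hx)
      linarith [norm_nonneg (z - p₀)]
    simp [hout, hρ, hw, ht1, hπx, norm_smul, hn]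
  have hv₀c : Continuous v₀ := by
    refine continuous_if_le (by fun_prop) continuous_const ?_ houtc hedge
    exact (hΦ.mono fun x hx => by simpa [dist_eq_norm] using hx).sub continuousOn_id
  have hv₀0 : ∀ x, 2 * R < dist x p₀ → v₀ x = 0 := by
    intro x hx
    rw [dist_eq_norm] at hx
    have hxn : ‖x - p₀‖ ≠ 0 := by linarith
    have ht0 : t x = 0 := by
      refine max_eq_left ((min_le_right _ _).trans ?_)
      exact div_nonpos_of_nonpos_of_nonneg (by linarith) hR.le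
    simp [hv₀, hout, hρ, hw, ht0, not_le.2 (show R < ‖x - p₀‖ by linarith), norm_smul, hxn]
  have hne : ∀ x, R ≤ ‖x - p₀‖ → p₀ + (ρ x * ‖w x‖⁻¹) • w x ≠ z := by
    intro x hx h
    have hρgt : ‖z - p₀‖ < ρ x := by
      have h1 := hrad _ (hπs x hx)
      have h2 : ‖z - p₀‖ < ‖x - p₀‖ := by
        rw [← dist_eq_norm]; exact lt_of_lt_of_le (mem_ball.1 hz) hx
      rcases eq_or_lt_of_le (ht01 x).1 with h0 | h0
      · simp [hρ, ← h0, h2]
      · simp only [hρ]
        nlinarith [mul_le_mul_of_nonneg_left h2.le (sub_nonneg.2 (ht01 x).2),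
          mul_lt_mul_of_pos_left h1 h0]
    have : ‖z - p₀‖ = ρ x := by
      rw [← h, add_sub_cancel_left, norm_smul, norm_mul, norm_inv, norm_norm, Real.norm_eq_abs,
        abs_of_pos (lt_of_le_of_lt (norm_nonneg _) hρgt), mul_assoc,
        inv_mul_cancel₀ (norm_ne_zero_iff.2 (hw0 x hx)), mul_one]
    linarith
  have hzero : ∀ a, a + v₀ a = z → a ∈ ball p₀ R ∧ Φ a = z := by
    intro a ha
    by_cases hlt : ‖a - p₀‖ < R
    · refine ⟨by simpa [dist_eq_norm] using hlt, ?_⟩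
      simpa [hv₀, hlt.le] using ha
    · exfalso
      rcases eq_or_lt_of_le (not_lt.1 hlt) with heq | hgt
      · refine hne a heq.le ?_
        rw [hv₀] at ha
        simp only [heq.ge, if_true] at ha
        rw [hedge a heq.symm] at ha
        simp only [hout] at ha
        rw [← ha]
        abel
      · refine hne a hgt.le ?_
        simp only [hv₀, not_le.2 hgt, if_false, hout] at ha
        rw [← ha]
        abel
  have hev : ∀ a ∈ ball p₀ R, (fun x => x + v₀ x) =ᶠ[𝓝 a] Φ := fun a ha =>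
    eventually_of_mem (isOpen_ball.mem_nhds ha) fun x hx => by
      simp [hv₀, (dist_eq_norm x p₀ ▸ (mem_ball.1 hx)).le]
  obtain ⟨Z, hZ, hsum⟩ := degree_core (z := z) (by positivity : 0 < 2 * R) hv₀c hv₀0
    (ball_subset_ball (by linarith) hz) fun a ha => by
      obtain ⟨hab, haz⟩ := hzero a ha
      obtain ⟨L, hL, hdet⟩ := hreg a (ball_subset_closedBall hab) haz
      exact ⟨L, hL.congr_of_eventuallyEq (hev a hab), hdet⟩
  refine ⟨Z, fun a => (hZ a).trans ⟨fun h => ?_, fun h => ?_⟩, ?_⟩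
  · exact ⟨ball_subset_closedBall (hzero a h).1, (hzero a h).2⟩
  · have : ‖a - p₀‖ ≤ R := by simpa [dist_eq_norm] using h.1
    simp [hv₀, this, h.2]
  · rw [← hsum]
    exact Finset.sum_congr rfl fun a ha => by
      rw [(hev a (hzero a ((hZ a).1 ha)).1).fderiv_eq]

/-- A compact family of maps keeping directions on the sphere has degree one, uniformly stably,
over a compact set of points inside. -/
theorem degOne_radial {ι : Type*} [TopologicalSpace ι] [CompactSpace ι] {p₀ : E} {R : ℝ}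
    {ψ : ι → E → E} (hR : 0 < R)
    (hψ : ContinuousOn (uncurry ψ) (univ ×ˢ closedBall p₀ R)) {T : Set E} (hT : IsCompact T)
    (hTR : T ⊆ ball p₀ R) (hdir : ∀ i, ∀ x ∈ sphere p₀ R, 0 < ⟪ψ i x - p₀, x - p₀⟫)
    (hrad : ∀ i, ∀ z ∈ T, ∀ x ∈ sphere p₀ R, ‖z - p₀‖ < ‖ψ i x - p₀‖) :
    ∃ η > 0, ∀ i, DegOne (closedBall p₀ R) (ψ i) T η := by
  obtain ⟨a, ha, hale⟩ := (isCompact_univ.prod (isCompact_sphere p₀ R)).exists_forall_le'
    (f := fun q : ι × E => ⟪ψ q.1 q.2 - p₀, q.2 - p₀⟫)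
    (((hψ.mono (prod_mono Subset.rfl sphere_subset_closedBall)).sub continuousOn_const).inner
      (continuous_snd.sub continuous_const).continuousOn) (a := (0 : ℝ))
    fun q hq => hdir q.1 q.2 hq.2
  obtain ⟨m, hm, hmle⟩ := ((isCompact_univ.prod (isCompact_sphere p₀ R)).prod hT).exists_forall_le'
    (f := fun q : (ι × E) × E => ‖ψ q.1.1 q.1.2 - p₀‖ - ‖q.2 - p₀‖)
    ((((hψ.mono (prod_mono Subset.rfl sphere_subset_closedBall)).comp continuousOn_fst
      fun q hq => hq.1).sub continuousOn_const).norm.sub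
        (continuous_snd.sub continuous_const).norm.continuousOn) (a := (0 : ℝ))
    fun q hq => sub_pos.2 (hrad q.1.1 q.2 hq.2 q.1.2 hq.1.2)
  refine ⟨min (a / (2 * R)) (m / 2), by positivity, fun i Ψ hΨ hΨψ z hz hreg => ?_⟩
  refine degree_radial hR hΨ (fun x hx => ?_) (fun x hx => ?_) (hTR hz) hreg
  · have h1 := hale (i, x) ⟨trivial, hx⟩
    have h2 : ‖Ψ x - ψ i x‖ * ‖x - p₀‖ ≤ a / 2 := by
      rw [← dist_eq_norm x p₀, mem_sphere.1 hx]
      calc ‖Ψ x - ψ i x‖ * R ≤ a / (2 * R) * R :=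
            mul_le_mul_of_nonneg_right
              ((hΨψ x (sphere_subset_closedBall hx)).trans (min_le_left _ _)) hR.le
        _ = a / 2 := by field_simp
    have h3 := (abs_le.1 ((abs_real_inner_le_norm (Ψ x - ψ i x) (x - p₀)).trans h2)).1
    rw [show Ψ x - p₀ = (ψ i x - p₀) + (Ψ x - ψ i x) by abel, inner_add_left]
    linarith
  · have h1 := hmle ((i, x), z) ⟨⟨trivial, hx⟩, hz⟩
    have h2 := (hΨψ x (sphere_subset_closedBall hx)).trans (min_le_right _ _)
    have h3 : ‖ψ i x - p₀‖ ≤ ‖Ψ x - p₀‖ + ‖Ψ x - ψ i x‖ := by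
      calc ‖ψ i x - p₀‖ = ‖(Ψ x - p₀) - (Ψ x - ψ i x)‖ := by rw [sub_sub_sub_cancel_left]
        _ ≤ _ := norm_sub_le _ _
    linarith

end Vale.Agent.P228
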