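import Vale.Agent.P228.Cyclic
import Vale.Agent.P228.Radial

/-!
# Theorems of Newman type for procyclic groups with prime power orbits

Short orbits on a ball force fixed points when some invariant map near the identity has thin
fibres, and the fixed set of a locally trivial pointwise Hölder action grows across spheres.
-/

namespace Vale.Agent.P228

open Set Metric MeasureTheory Filter Function Asymptotics
open scoped Topology RealInnerProductSpace

variable {E : Type*} [NormedAddCommGroup E] [InnerProductSpace ℝ E] [FiniteDimensional ℝ E]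
variable {H : Type*} [Group H] [TopologicalSpace H] [IsTopologicalGroup H] [CompactSpace H]
  [TotallyDisconnectedSpace H]
variable {A : H → E → E} {V : Set E}

/-- **Short orbits**: if an invariant map near the identity has thin fibres over a dense set of
points, a smaller ball is fixed. -/
theorem newman_thin (hA : IsAction A V) {g : H} (hg : Dense (Subgroup.zpowers g : Set H))
    {p : ℕ} (hp : p.Prime) (hH : IsOrbitPrime p H) {c : E} {R s : ℝ} (hs : 0 < s)
    (hsub : closedBall c R ⊆ V) (hdisp : ∀ h, ∀ x ∈ closedBall c R, ‖A h x - x‖ ≤ s)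
    {ψ : E → E} (hψ : ContinuousOn ψ (closedBall c R))
    (hψs : ∀ x ∈ closedBall c R, ‖ψ x - x‖ ≤ s)
    (hinv : ∀ h, ∀ x ∈ closedBall c R, A h x ∈ closedBall c R → ψ (A h x) = ψ x)
    (hψfix : ∀ x ∈ closedBall c R, (∀ h, A h x = x) → ψ x = x)
    (hthin : ∀ O : Set E, IsOpen O → O.Nonempty → O ⊆ ball c R →
      ∃ z ∈ O, IsThin (closedBall c R ∩ ψ ⁻¹' {z})) :
    ∀ z ∈ ball c (R - 12 * s), ∀ h, A h z = z := by
  by_contra! hne
  obtain ⟨z₀, hz₀, h₀, hh₀⟩ := hne
  set O : Set E := ball c (R - 12 * s) ∩ (fun x => A h₀ x - x) ⁻¹' ({0}ᶜ) with hO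
  have hOR : ball c (R - 12 * s) ⊆ ball c R := ball_subset_ball (by linarith)
  have hOo : IsOpen O := ContinuousOn.isOpen_inter_preimage
    (((hA.continuousOn_apply h₀).mono (hOR.trans (ball_subset_closedBall.trans hsub))).sub
      continuousOn_id) isOpen_ball isOpen_compl_singleton
  obtain ⟨z, hz, hzt⟩ := hthin O hOo ⟨z₀, hz₀, by simpa [sub_eq_zero] using hh₀⟩
    (inter_subset_left.trans hOR)
  have hdeep : ∀ x ∈ closedBall c R, ψ x = z → dist x c < R - 11 * s := by
    intro x hx hxz
    have h1 := hψs x hx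
    rw [hxz, ← dist_eq_norm, dist_comm] at h1
    linarith [dist_triangle x z c, mem_ball.1 hz.1]
  obtain ⟨x, hx, hxz, hfix⟩ := exists_fixed_in_fibre hA hg hp hH (isCompact_closedBall c R) hsub
    hψ (z := z) hs
    (fun Ψ h1 h2 w hw h3 => degOne_of_close hs hψs Ψ h1 h2 w
      (mem_ball.2 (by linarith [dist_triangle w z c, mem_ball.1 hz.1, mem_closedBall.1 hw])) h3)
    hinv
    (fun x hx hxz h => mem_closedBall.2 (by
      have h1 := hdisp h x hx
      rw [← dist_eq_norm] at h1
      linarith [dist_triangle (A h x) x c, hdeep x hx hxz]))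
    (fun x hx hxz => interior_maximal ball_subset_closedBall isOpen_ball
      (mem_ball.2 (by linarith [hdeep x hx hxz])))
    isOpen_ball (fun x hx hxz => mem_ball.2 (show dist x c < R - 8 * s by
      linarith [hdeep x hx hxz]))
    (fun h => degOne_of_close hs (hdisp h)) hzt
  rw [hψfix x hx hfix] at hxz
  subst hxz
  exact hz.2 (by simp [hfix h₀])

omit [TotallyDisconnectedSpace H] [FiniteDimensional ℝ E] in
/-- Near a locally fixed point all group elements share one Hölder bound at that point. -/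
theorem IsAction.uniform_hol (hA : IsAction A V) (hhol : ∀ g, ∀ x ∈ V, HolAt (A g) x)
    {N : OpenNormalSubgroup H} {y : E} (hy : y ∈ fixInterior A V N) :
    ∃ α C : ℝ, 0 < α ∧ (Module.finrank ℝ E : ℝ) * (1 - α) < 1 ∧
      ∀ᶠ y' in 𝓝 y, ∀ g : H, ‖A g y' - A g y‖ ≤ C * ‖y' - y‖ ^ α := by
  classical
  have hyV := fixInterior_subset N hy
  have : Finite (H ⧸ N.toSubgroup) :=
    Subgroup.quotient_finite_of_isOpen N.toSubgroup N.toOpenSubgroup.isOpen
  have := Fintype.ofFinite (H ⧸ N.toSubgroup)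
  choose a ha0 hna hO using fun q : H ⧸ N.toSubgroup => hhol q.out y hyV
  choose C hC using fun q => (hO q).bound
  set α := Finset.univ.inf' Finset.univ_nonempty a with hα
  obtain ⟨q₀, -, hq₀⟩ := Finset.exists_mem_eq_inf' Finset.univ_nonempty a
  refine ⟨α, ∑ q, |C q|, by rw [hα, hq₀]; exact ha0 q₀, by rw [hα, hq₀]; exact hna q₀, ?_⟩
  filter_upwards [eventually_all.2 hC, isOpen_interior.mem_nhds hy, ball_mem_nhds y one_pos]
    with y' hy' hfix hy1 g
  set q : H ⧸ N.toSubgroup := QuotientGroup.mk g with hq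
  have hn : q.out⁻¹ * g ∈ N := QuotientGroup.eq.1 (q.out_eq'.trans hq)
  have e : ∀ w ∈ fixInterior A V N, A g w = A q.out w := by
    intro w hw
    conv_lhs => rw [show g = q.out * (q.out⁻¹ * g) by rw [mul_inv_cancel_left]]
    rw [hA.mul _ _ w (fixInterior_subset N hw), fixInterior_fixed hw hn]
  rw [e y' hfix, e y hy]
  refine (hy' q).trans (mul_le_mul ((le_abs_self _).trans
    (Finset.single_le_sum (f := fun q => |C q|) (fun _ _ => abs_nonneg _) (Finset.mem_univ q)))
    ?_ (norm_nonneg _) (by positivity))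
  rw [Real.norm_of_nonneg (by positivity)]
  rcases eq_or_ne y' y with rfl | hne
  · simp only [sub_self, norm_zero, Real.zero_rpow (ha0 q).ne']
    positivity
  · exact Real.rpow_le_rpow_of_exponent_ge (norm_pos_iff.2 (sub_ne_zero.2 hne))
      (by rw [← dist_eq_norm]; exact (mem_ball.1 hy1).le)
      (Finset.inf'_le _ (Finset.mem_univ q))

variable [MeasurableSpace H] [BorelSpace H]

omit [TotallyDisconnectedSpace H] [IsTopologicalGroup H] [InnerProductSpace ℝ E] in
theorem IsAction.integrable_orbit [NormedSpace ℝ E] (hA : IsAction A V) (ν : Measure H)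
    [IsFiniteMeasure ν] {x : E} (hx : x ∈ V) :
    Integrable (fun h => A h x) ν :=
  (hA.continuous_orbit hx).integrable_of_hasCompactSupport (HasCompactSupport.of_compactSpace _)

/-- The fixed set of a locally trivial pointwise Hölder action grows across spheres. -/
theorem fixed_near_sphere (hA : IsAction A V) {g : H} (hg : Dense (Subgroup.zpowers g : Set H))
    {p : ℕ} (hp : p.Prime) (hH : IsOrbitPrime p H) (ν : Measure H) [IsProbabilityMeasure ν]
    [ν.IsMulRightInvariant] (hhol : ∀ h, ∀ x ∈ V, HolAt (A h) x)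
    (hloc : ∀ x ∈ V, ∃ N : OpenNormalSubgroup H, x ∈ fixInterior A V N)
    {p₀ : E} {d : ℝ} (hd : 0 < d) (hsub : closedBall p₀ d ⊆ V)
    (hfix : ∀ x ∈ closedBall p₀ d, ∀ h, A h x = x) :
    ∃ m, d < m ∧ ∀ z ∈ ball p₀ m, ∀ h, A h z = z := by
  borelize E
  -- a shell in which directions are nearly kept
  set G : Set E :=
    {x ∈ V | x ∈ ball p₀ d ∨ ∀ h, 0 < ⟪A h x - p₀, x - p₀⟫} with hG
  have hGnhds : ∀ x ∈ closedBall p₀ d, G ∈ 𝓝 x := by
    intro x hx
    rcases (mem_closedBall.1 hx).lt_or_eq with hlt | he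
    · filter_upwards [isOpen_ball.mem_nhds hlt, hA.isOpen.mem_nhds (hsub hx)] with y hy hyV
      exact ⟨hyV, Or.inl hy⟩
    · have hev : ∀ᶠ y in 𝓝 x, ∀ h ∈ (univ : Set H), 0 < ⟪A h y - p₀, y - p₀⟫ := by
        refine isCompact_univ.eventually_forall_of_forall_eventually
          (P := fun y h => 0 < ⟪A h y - p₀, y - p₀⟫) fun h _ => ?_
        have hsw : ContinuousAt (fun z : E × H => A z.2 z.1) (x, h) :=
          (hA.continuousOn.continuousAt ((isOpen_univ.prod hA.isOpen).mem_nhds
            (show (h, x) ∈ univ ×ˢ V from ⟨trivial, hsub hx⟩))).comp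
              (x := (x, h)) (f := fun z : E × H => (z.2, z.1)) continuous_swap.continuousAt
        refine ((hsw.sub continuousAt_const).inner
          (continuousAt_fst.sub continuousAt_const)).eventually (lt_mem_nhds ?_)
        simp only [Pi.sub_apply]
        rw [hfix x hx h, real_inner_self_eq_norm_sq, ← dist_eq_norm, he]
        positivity
      filter_upwards [hev, hA.isOpen.mem_nhds (hsub hx)] with y hy hyV
      exact ⟨hyV, Or.inr fun h => hy h trivial⟩
  obtain ⟨δ, hδ, hδsub⟩ := (isCompact_closedBall p₀ d).exists_cthickening_subset_open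
    isOpen_interior fun x hx => mem_interior_iff_mem_nhds.2 (hGnhds x hx)
  rw [cthickening_closedBall hδ.le hd.le] at hδsub
  set R := δ + d with hR
  have hdR : d < R := by linarith
  have hR0 : 0 < R := hd.trans hdR
  have hRG : closedBall p₀ R ⊆ G := hδsub.trans interior_subset
  have hRV : closedBall p₀ R ⊆ V := fun x hx => (hRG hx).1
  have hRdir : ∀ x ∈ closedBall p₀ R, d ≤ dist x p₀ → ∀ h, 0 < ⟪A h x - p₀, x - p₀⟫ :=
    fun x hx hdx => (hRG hx).2.resolve_left fun h => absurd (mem_ball.1 h) (not_lt.2 hdx)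
  have hout : ∀ x ∈ V, d < dist x p₀ → ∀ h, d < dist (A h x) p₀ := by
    intro x hx hdx h
    by_contra hle
    have hj : A h x ∈ closedBall p₀ d := mem_closedBall.2 (not_lt.1 hle)
    have e := hfix _ hj h⁻¹
    rw [hA.inv_apply h hx] at e
    rw [← e, mem_closedBall] at hj
    linarith
  set B : E → E := fun x => ∫ h, (A h x - p₀) ∂ν with hB
  set M : E → ℝ := fun x => ∫ h, ‖A h x - p₀‖ ∂ν with hM
  set Φ : E → E := fun x => p₀ + (M x * ‖B x‖⁻¹) • B x with hΦ
  have hint : ∀ x ∈ V, Integrable (fun h => A h x - p₀) ν := fun x hx =>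
    (hA.integrable_orbit ν hx).sub (integrable_const _)
  have hid : ∀ x, (∀ h, A h x = x) → Φ x = x := by
    intro x hx
    have hBx : B x = x - p₀ := by simp [B, hx]
    have hMx : M x = ‖x - p₀‖ := by simp [M, hx]
    by_cases h : x = p₀
    · subst h; simp [Φ, hBx, hMx]
    · simp [Φ, hBx, hMx, sub_ne_zero.2 h]
  have hB0 : ∀ x ∈ closedBall p₀ R, d ≤ dist x p₀ →
      0 < ⟪B x, x - p₀⟫ ∧ B x ≠ 0 := by
    intro x hx hdx
    have hxV := hRV hx
    obtain ⟨a, ha, hale⟩ := isCompact_univ.exists_forall_le'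
      (f := fun h => ⟪A h x - p₀, x - p₀⟫)
      (((hA.continuous_orbit hxV).sub continuous_const).inner continuous_const).continuousOn
      (a := (0 : ℝ)) fun h _ => hRdir x hx hdx h
    have e : ⟪B x, x - p₀⟫ = ∫ h, ⟪A h x - p₀, x - p₀⟫ ∂ν := by
      rw [hB, real_inner_comm, ← integral_inner (hint x hxV)]
      simp only [real_inner_comm (x - p₀)]
    have hpos : 0 < ⟪B x, x - p₀⟫ := by
      rw [e]
      refine lt_of_lt_of_le ha ?_
      calc a = ∫ _h, a ∂ν := by simp
        _ ≤ _ := integral_mono (integrable_const _) ((hint x hxV).inner_const _)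
            fun h => hale h trivial
    exact ⟨hpos, fun h => by simp [h] at hpos⟩
  have hnorm : ∀ x ∈ closedBall p₀ R, d ≤ dist x p₀ → ‖Φ x - p₀‖ = M x := by
    intro x hx hdx
    have : 0 ≤ M x := integral_nonneg fun h => norm_nonneg _
    simp [Φ, norm_smul, abs_of_nonneg this, (hB0 x hx hdx).2]
  have hΦinv : ∀ k, ∀ x ∈ V, Φ (A k x) = Φ x := by
    intro k x hx
    have e1 : B (A k x) = B x := by
      simp only [hB, ← hA.mul _ k x hx]
      exact integral_mul_right_eq_self (fun h => A h x - p₀) k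
    have e2 : M (A k x) = M x := by
      simp only [hM, ← hA.mul _ k x hx]
      exact integral_mul_right_eq_self (fun h => ‖A h x - p₀‖) k
    simp [Φ, e1, e2]
  have hΦhol : ∀ x ∈ closedBall p₀ R, HolAt Φ x := by
    intro x hx
    have hxV := hRV hx
    obtain ⟨N, hN⟩ := hloc x hxV
    obtain ⟨α, C, hα, hnα, hev⟩ := hA.uniform_hol hhol hN
    have hBd : (fun y => B y - B x) =O[𝓝 x] fun y => ‖y - x‖ ^ α := by
      refine IsBigO.of_bound C ?_
      filter_upwards [hev, hA.isOpen.mem_nhds hxV] with y hy hyV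
      rw [Real.norm_of_nonneg (by positivity), hB]
      show ‖(∫ h, (A h y - p₀) ∂ν) - ∫ h, (A h x - p₀) ∂ν‖ ≤ _
      rw [← integral_sub (hint y hyV) (hint x hxV)]
      simpa using norm_integral_le_of_norm_le_const (μ := ν)
        (Eventually.of_forall fun h : H => by simpa using hy h)
    have hMd : (fun y => M y - M x) =O[𝓝 x] fun y => ‖y - x‖ ^ α := by
      refine IsBigO.of_bound C ?_
      filter_upwards [hev, hA.isOpen.mem_nhds hxV] with y hy hyV
      rw [Real.norm_of_nonneg (by positivity : 0 ≤ ‖y - x‖ ^ α), hM]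
      show ‖(∫ h, ‖A h y - p₀‖ ∂ν) - ∫ h, ‖A h x - p₀‖ ∂ν‖ ≤ _
      rw [← integral_sub (hint y hyV).norm (hint x hxV).norm]
      have hb : ∀ h : H, ‖‖A h y - p₀‖ - ‖A h x - p₀‖‖ ≤ C * ‖y - x‖ ^ α := fun h =>
        (abs_norm_sub_norm_le _ _).trans (by simpa using hy h)
      simpa using norm_integral_le_of_norm_le_const (μ := ν) (Eventually.of_forall hb)
    by_cases hdx : dist x p₀ < d
    · refine ⟨1, one_pos, by simp, IsBigO.of_bound 1 ?_⟩
      filter_upwards [isOpen_ball.mem_nhds hdx] with y hy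
      rw [hid x (hfix x (mem_closedBall.2 hdx.le)), hid y (hfix y (ball_subset_closedBall hy))]
      simp
    have hne : B x ≠ 0 := (hB0 x hx (not_lt.1 hdx)).2
    have hG' : DifferentiableAt ℝ (fun u : E × ℝ => p₀ + (u.2 * ‖u.1‖⁻¹) • u.1) (B x, M x) :=
      (((differentiableAt_snd (𝕜 := ℝ) (p := (B x, M x))).mul
        (((differentiableAt_fst (𝕜 := ℝ) (p := (B x, M x))).norm ℝ hne).inv
          (norm_ne_zero_iff.2 hne))).smul differentiableAt_fst).const_add p₀
    have hBM : (fun y => (B y, M y) - (B x, M x)) =O[𝓝 x] fun y => ‖y - x‖ ^ α :=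
      hBd.prod_left hMd
    have ht : Tendsto (fun y => (B y, M y)) (𝓝 x) (𝓝 (B x, M x)) := by
      refine tendsto_sub_nhds_zero_iff.1 (hBM.trans_tendsto ?_)
      have h0 : ContinuousAt (fun y : E => ‖y - x‖ ^ α) x :=
        ((continuousAt_id.sub continuousAt_const).norm).rpow_const (Or.inr hα.le)
      simpa [ContinuousAt, Real.zero_rpow hα.ne'] using h0.tendsto
    exact ⟨α, hα, hnα, (hG'.hasFDerivAt.isBigO_sub.comp_tendsto ht).trans hBM⟩
  have hΦc : ContinuousOn Φ (closedBall p₀ R) := by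
    intro x hx
    obtain ⟨α, hα, -, hO⟩ := hΦhol x hx
    refine ContinuousAt.continuousWithinAt (tendsto_sub_nhds_zero_iff.1 (hO.trans_tendsto ?_))
    have h0 : ContinuousAt (fun y : E => ‖y - x‖ ^ α) x :=
      ((continuousAt_id.sub continuousAt_const).norm).rpow_const (Or.inr hα.le)
    simpa [ContinuousAt, Real.zero_rpow hα.ne'] using h0.tendsto
  -- radii
  obtain ⟨m₁, hm₁, hm₁le⟩ := (isCompact_univ.prod (isCompact_sphere p₀ R)).exists_forall_le'
    (f := fun q : H × E => dist (A q.1 q.2) p₀)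
    (continuous_dist.comp_continuousOn
      ((hA.continuousOn.mono (prod_mono Subset.rfl (sphere_subset_closedBall.trans hRV))).prodMk
        continuousOn_const)) (a := d) fun q hq =>
      hout q.2 (hRV (sphere_subset_closedBall hq.2)) (hdR.trans_eq (mem_sphere.1 hq.2).symm) q.1
  set R' := min R m₁ with hR'
  have hdR' : d < R' := lt_min hdR hm₁
  set C : Set E := Prod.snd '' ((univ ×ˢ closedBall p₀ R) ∩
    (fun q : H × E => dist (A q.1 q.2) p₀) ⁻¹' Ici R') with hC
  have hCc : IsCompact C :=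
    ((isCompact_univ.prod (isCompact_closedBall p₀ R)).of_isClosed_subset
      ((continuous_dist.comp_continuousOn
        ((hA.continuousOn.mono (prod_mono Subset.rfl hRV)).prodMk
          continuousOn_const)).preimage_isClosed_of_isClosed
          (isClosed_univ.prod isClosed_closedBall) isClosed_Ici) inter_subset_left).image
      continuous_snd
  have hCd : ∀ x ∈ C, x ∈ closedBall p₀ R ∧ d < dist x p₀ := by
    rintro x ⟨⟨h, y⟩, ⟨⟨-, hy⟩, hge⟩, rfl⟩
    refine ⟨hy, not_le.1 fun hle => ?_⟩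
    have hge' : R' ≤ dist (A h y) p₀ := hge
    rw [hfix y (mem_closedBall.2 hle)] at hge'
    linarith
  obtain ⟨m₂, hm₂, hm₂le⟩ := hCc.exists_forall_le' (f := fun x => ‖Φ x - p₀‖)
    ((hΦc.mono fun x hx => (hCd x hx).1).sub continuousOn_const).norm (a := d) fun x hx => by
      obtain ⟨hxR, hdx⟩ := hCd x hx
      rw [hnorm x hxR hdx.le]
      obtain ⟨a, ha, hale⟩ := isCompact_univ.exists_forall_le' (f := fun h => ‖A h x - p₀‖)
        ((hA.continuous_orbit (hRV hxR)).sub continuous_const).norm.continuousOn (a := d)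
        fun h _ => by rw [← dist_eq_norm]; exact hout x (hRV hxR) hdx h
      refine lt_of_lt_of_le ha ?_
      calc a = ∫ _h, a ∂ν := by simp
        _ ≤ _ := integral_mono (integrable_const _) (hint x (hRV hxR)).norm
            fun h => hale h trivial
  set m := min m₂ R' with hm
  refine ⟨m, lt_min hm₂ hdR', ?_⟩
  have hmR : m ≤ R := (min_le_right _ _).trans (min_le_left _ _)
  by_contra! hne
  obtain ⟨x₀, hx₀, h₀, hfx₀⟩ := hne
  set O : Set E := ball p₀ m ∩ (fun x => A h₀ x - x) ⁻¹' ({0}ᶜ) with hO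
  have hOo : IsOpen O := ContinuousOn.isOpen_inter_preimage
    (((hA.continuousOn_apply h₀).mono
      ((ball_subset_closedBall.trans (closedBall_subset_closedBall hmR)).trans hRV)).sub
      continuousOn_id) isOpen_ball isOpen_compl_singleton
  set μ : Measure E := (Module.finBasis ℝ E).addHaar
  obtain ⟨z, hz, hzt⟩ : ∃ z ∈ O, IsThin (closedBall p₀ R ∩ Φ ⁻¹' {z}) := by
    by_contra! h
    exact (hOo.measure_pos μ ⟨x₀, hx₀, by simpa [sub_eq_zero] using hfx₀⟩).ne'
      (measure_mono_null h (ae_iff.1 (ae_thin_fibre μ hΦhol)))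
  have hzm : dist z p₀ < m := hz.1
  have hsphC : ∀ x ∈ sphere p₀ R, x ∈ C := fun x hx =>
    ⟨(1, x), ⟨⟨trivial, sphere_subset_closedBall hx⟩, by
      show R' ≤ dist (A 1 x) p₀
      rw [hA.one x (hRV (sphere_subset_closedBall hx)), mem_sphere.1 hx]
      exact min_le_left _ _⟩, rfl⟩
  have hfib : ∀ a ∈ closedBall p₀ R, Φ a = z → ∀ h, dist (A h a) p₀ < R' := by
    intro a ha haz h
    refine not_le.1 fun hge => ?_
    have h1 := hm₂le a ⟨(h, a), ⟨⟨trivial, ha⟩, hge⟩, rfl⟩
    rw [haz, ← dist_eq_norm] at h1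
    linarith [min_le_left m₂ R']
  -- stable degree of `Φ` and of the group elements
  set zT := closedBall z ((m - dist z p₀) / 2) with hzT
  have hzTm : ∀ w ∈ zT, dist w p₀ < m := fun w hw => by
    linarith [dist_triangle w z p₀, mem_closedBall.1 hw]
  obtain ⟨η₁, hη₁, hdeg₁⟩ := degOne_radial (ι := Unit) (ψ := fun _ => Φ) hR0
    (hΦc.comp continuousOn_snd fun q hq => hq.2) (isCompact_closedBall z _)
    (fun w hw => mem_ball.2 ((hzTm w hw).trans_le hmR))
    (fun _ x hx => by
      have hxb := sphere_subset_closedBall hx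
      have hdx : d ≤ dist x p₀ := by rw [mem_sphere.1 hx]; exact hdR.le
      have hpos : 0 < M x := by
        rw [← hnorm x hxb hdx]
        exact hd.trans (hm₂.trans_le (hm₂le x (hsphC x hx)))
      rw [show Φ x - p₀ = (M x * ‖B x‖⁻¹) • B x by simp [Φ], real_inner_smul_left]
      exact mul_pos (mul_pos hpos (inv_pos.2 (norm_pos_iff.2 (hB0 x hxb hdx).2)))
        (hB0 x hxb hdx).1)
    fun _ w hw x hx => by
      rw [← dist_eq_norm]
      exact ((hzTm w hw).trans_le (min_le_left _ _)).trans_le (hm₂le x (hsphC x hx))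
  set F : Set E := closedBall p₀ R ∩ Φ ⁻¹' {z} with hF
  have hFc : IsCompact F := (isCompact_closedBall p₀ R).of_isClosed_subset
    (hΦc.preimage_isClosed_of_isClosed isClosed_closedBall isClosed_singleton) inter_subset_left
  have hFin : F ⊆ ball p₀ R' := fun a ha => mem_ball.2 (by
    have := hfib a ha.1 ha.2 1
    rwa [hA.one a (hRV ha.1)] at this)
  obtain ⟨W, hWo, hFW, hWsub, hWc⟩ :=
    exists_open_between_and_isCompact_closure hFc isOpen_ball hFin
  obtain ⟨η₂, hη₂, hdeg₂⟩ := degOne_radial (ψ := A) hR0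
    (hA.continuousOn.mono (prod_mono Subset.rfl hRV)) hWc
    (fun w hw => ball_subset_ball (min_le_left _ _) (hWsub hw))
    (fun h x hx => hRdir x (sphere_subset_closedBall hx)
      (by rw [mem_sphere.1 hx]; exact hdR.le) h)
    fun h w hw x hx => by
      rw [← dist_eq_norm, ← dist_eq_norm]
      exact ((mem_ball.1 (hWsub hw)).trans_le (min_le_right _ _)).trans_le
        (hm₁le (h, x) ⟨trivial, hx⟩)
  set η := min (min η₁ η₂) ((m - dist z p₀) / 2) with hη
  have hη0 : 0 < η := lt_min (lt_min hη₁ hη₂) (by linarith)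
  obtain ⟨x, hx, hxz, hxfix⟩ := exists_fixed_in_fibre hA hg hp hH (isCompact_closedBall p₀ R) hRV
    hΦc (z := z) hη0
    (fun Ψ h1 h2 w hw h3 => hdeg₁ () Ψ h1
      (fun y hy => (h2 y hy).trans ((min_le_left _ _).trans (min_le_left _ _))) w
      (mem_closedBall.2 ((mem_closedBall.1 hw).trans (min_le_right _ _))) h3)
    (fun h y hy _ => hΦinv h y (hRV hy))
    (fun a ha haz h => mem_closedBall.2 ((hfib a ha haz h).le.trans (min_le_left _ _)))
    (fun a ha haz => interior_maximal ball_subset_closedBall isOpen_ball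
      (ball_subset_ball (min_le_left _ _) (hFin ⟨ha, haz⟩)))
    hWo (fun a ha haz => hFW ⟨ha, haz⟩)
    (fun h Ψ h1 h2 w hw h3 => hdeg₂ h Ψ h1
      (fun y hy => (h2 y hy).trans ((min_le_left _ _).trans (min_le_right _ _))) w
      (subset_closure hw) h3) hzt
  rw [hid x hxfix] at hxz
  subst hxz
  exact hz.2 (by simp [hxfix h₀])

end Vale.Agent.P228
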