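import Vale.Agent.P228.Thin

/-!
# Oscillation energy: small energy makes almost every fibre thin
-/

namespace Vale.Agent.P228

open Set Metric MeasureTheory Filter Function
open scoped Topology ENNReal

variable {E : Type*} [NormedAddCommGroup E] [InnerProductSpace ℝ E] [FiniteDimensional ℝ E]
variable [MeasurableSpace E] [BorelSpace E]

/-- `ρ` times the integral over `B` of the `n`-th power of the oscillation quotient of `f` on balls
of radius `ρ`, where `n` is the dimension. -/
noncomputable def oscEnergy (μ : Measure E) (f : E → E) (B : Set E) (ρ : ℝ) : ℝ≥0∞ :=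
  ENNReal.ofReal ρ * ∫⁻ x in B, (ediam (f '' ball x ρ) / ENNReal.ofReal ρ) ^ Module.finrank ℝ E ∂μ

/-- The energy of `f` on some ball around `x` tends to zero with the radius. -/
def SmallOsc (μ : Measure E) (f : E → E) (x : E) : Prop :=
  ∃ r > 0, Tendsto (oscEnergy μ f (ball x r)) (𝓝[>] 0) (𝓝 0)

omit [InnerProductSpace ℝ E] [FiniteDimensional ℝ E] [MeasurableSpace E] [BorelSpace E] in
theorem ediam_image_mono {f : E → E} {s t : Set E} (h : s ⊆ t) : ediam (f '' s) ≤ ediam (f '' t) :=
  ediam_image_le_iff.2 fun _ hx _ hy => edist_le_ediam_of_mem (mem_image_of_mem f (h hx))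
    (mem_image_of_mem f (h hy))

omit [FiniteDimensional ℝ E] [BorelSpace E] in
theorem oscEnergy_mono (μ : Measure E) (f : E → E) {B B' : Set E} (h : B ⊆ B') (ρ : ℝ) :
    oscEnergy μ f B ρ ≤ oscEnergy μ f B' ρ :=
  mul_le_mul' le_rfl (lintegral_mono_set h)

omit [FiniteDimensional ℝ E] [BorelSpace E] in
theorem oscEnergy_union_le (μ : Measure E) (f : E → E) (B B' : Set E) (ρ : ℝ) :
    oscEnergy μ f (B ∪ B') ρ ≤ oscEnergy μ f B ρ + oscEnergy μ f B' ρ := by
  simp only [oscEnergy, ← mul_add]
  exact mul_le_mul' le_rfl (lintegral_union_le _ _ _)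

omit [FiniteDimensional ℝ E] [BorelSpace E] in
/-- A compact set covered by balls of small energy has small energy. -/
theorem tendsto_oscEnergy_of_isCompact {μ : Measure E} {f : E → E} {B : Set E} (hB : IsCompact B)
    (hf : ∀ x ∈ B, SmallOsc μ f x) : Tendsto (oscEnergy μ f B) (𝓝[>] 0) (𝓝 0) := by
  refine hB.induction_on (p := fun s => Tendsto (oscEnergy μ f s) (𝓝[>] 0) (𝓝 0)) ?_ ?_ ?_ ?_
  · simp [funext fun ρ => show oscEnergy μ f ∅ ρ = 0 by simp [oscEnergy]]
  · intro s t hst ht
    exact tendsto_of_tendsto_of_tendsto_of_le_of_le tendsto_const_nhds ht (fun _ => zero_le)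
      fun ρ => oscEnergy_mono μ f hst ρ
  · intro s t hs ht
    refine tendsto_of_tendsto_of_tendsto_of_le_of_le tendsto_const_nhds ?_ (fun _ => zero_le)
      fun ρ => oscEnergy_union_le μ f s t ρ
    simpa using hs.add ht
  · intro x hx
    obtain ⟨r, hr, h⟩ := hf x hx
    exact ⟨ball x r, mem_nhdsWithin_of_mem_nhds (ball_mem_nhds x hr), h⟩

theorem addHaar_closedEBall_le (μ : Measure E) [μ.IsAddHaarMeasure] (z : E) (R : ℝ≥0∞) :
    μ (closedEBall z R) ≤ R ^ Module.finrank ℝ E * μ (ball (0 : E) 1) := by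
  by_cases hR : R = ∞
  · subst hR
    rcases Nat.eq_zero_or_pos (Module.finrank ℝ E) with h | h
    · have : Subsingleton E := Module.finrank_zero_iff.1 h
      rw [h, pow_zero, one_mul]
      exact measure_mono fun y _ => by simp [Subsingleton.elim y 0]
    · rw [ENNReal.top_pow h.ne', ENNReal.top_mul (measure_ball_pos μ 0 one_pos).ne']
      exact le_top
  · obtain ⟨t, rfl⟩ : ∃ t : NNReal, R = t := ⟨R.toNNReal, (ENNReal.coe_toNNReal hR).symm⟩
    rw [closedEBall_coe, μ.addHaar_closedBall z (NNReal.coe_nonneg t), ENNReal.ofReal_pow (NNReal.coe_nonneg t),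
      ENNReal.ofReal_coe_nnreal]

/-- Almost every fibre of a map of small energy on a ball is thin on a smaller ball. -/
theorem ae_thin_osc (μ : Measure E) [μ.IsAddHaarMeasure] {f : E → E} {x₀ : E} {r r' : ℝ}
    (hr : r' < r) (hf : Tendsto (oscEnergy μ f (ball x₀ r)) (𝓝[>] 0) (𝓝 0)) :
    ∀ᵐ z ∂μ, IsThin (closedBall x₀ r' ∩ f ⁻¹' {z}) := by
  classical
  set n := Module.finrank ℝ E with hn
  let b := stdOrthonormalBasis ℝ E
  set P := closedBall x₀ r'
  set key : ℕ → E → Fin n → ℤ := fun N x i => ⌊((N : ℝ) + 1) * b.repr x i⌋ with hkey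
  set D : ℕ → ℝ := fun N => ((n : ℝ) + 1) / ((N : ℝ) + 1) with hD
  have hD0 : ∀ N, 0 < D N := fun N => by simp only [hD]; positivity
  set K : ℕ → ℕ := fun N => ⌈((N : ℝ) + 1) * (‖x₀‖ + |r'|)⌉₊ + 1 with hK
  set T : ℕ → Finset (Fin n → ℤ) := fun N =>
    (Fintype.piFinset fun _ => Finset.Icc (-(K N : ℤ)) (K N)).filter
      (fun t => ∃ x ∈ P, key N x = t) with hT
  set ctr : ℕ → (Fin n → ℤ) → E := fun N t =>
    if h : ∃ x ∈ P, key N x = t then h.choose else 0 with hctr
  set R : ℕ → (Fin n → ℤ) → ℝ≥0∞ := fun N t => ediam (f '' ball (ctr N t) (2 * D N)) with hR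
  set S : ℕ → E → ℝ≥0∞ := fun N z => ∑ t ∈ T N,
    (closedEBall (f (ctr N t)) (R N t)).indicator (fun _ => ENNReal.ofReal (2 * D N)) z with hS
  have hmeasb : ∀ N t, MeasurableSet (closedEBall (f (ctr N t)) (R N t)) := fun N t =>
    isClosed_closedEBall.measurableSet
  have hmeas : ∀ N, Measurable (S N) := fun N =>
    Finset.measurable_sum _ fun t _ => measurable_const.indicator (hmeasb N t)
  -- points of one cell are close
  have hclose : ∀ N x y, key N x = key N y → dist x y ≤ D N := by
    intro N x y h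
    have hN : (0 : ℝ) < (N : ℝ) + 1 := by positivity
    have hi : ∀ i, |b.repr (x - y) i| ≤ 1 / ((N : ℝ) + 1) := by
      intro i
      have := Int.abs_sub_lt_one_of_floor_eq_floor (congrFun h i)
      rw [← mul_sub, abs_mul, abs_of_pos hN] at this
      rw [le_div_iff₀ hN, mul_comm]
      simpa using this.le
    rw [dist_eq_norm]
    calc ‖x - y‖ = ‖∑ i, b.repr (x - y) i • b i‖ := by rw [b.sum_repr]
      _ ≤ ∑ i, ‖b.repr (x - y) i • b i‖ := norm_sum_le _ _
      _ ≤ ∑ _i : Fin n, 1 / ((N : ℝ) + 1) := by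
          refine Finset.sum_le_sum fun i _ => ?_
          rw [norm_smul, b.orthonormal.1 i, mul_one, Real.norm_eq_abs]
          exact hi i
      _ ≤ D N := by
          simp only [Finset.sum_const, Finset.card_univ, Fintype.card_fin, nsmul_eq_mul, hD]
          rw [← mul_div_assoc, mul_one]
          gcongr
          linarith
  have habs : ∀ (x : E) i, |b.repr x i| ≤ ‖x‖ := fun x i => by
    calc |b.repr x i| ≤ ‖b.repr x‖ := by simpa using PiLp.norm_apply_le (b.repr x) i
      _ = ‖x‖ := b.repr.norm_map x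
  have hkeymem : ∀ N, ∀ x ∈ P, key N x ∈ T N := by
    intro N x hx
    refine Finset.mem_filter.2 ⟨Fintype.mem_piFinset.2 fun i => Finset.mem_Icc.2 ?_, x, hx, rfl⟩
    have hxn : ‖x‖ ≤ ‖x₀‖ + |r'| := by
      have h1 := mem_closedBall.1 hx
      rw [dist_eq_norm] at h1
      have h2 := norm_le_norm_add_norm_sub' x x₀
      linarith [le_abs_self r']
    have hxi : |((N : ℝ) + 1) * b.repr x i| ≤ ((N : ℝ) + 1) * (‖x₀‖ + |r'|) := by
      rw [abs_mul, abs_of_pos (by positivity : (0 : ℝ) < (N : ℝ) + 1)]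
      exact mul_le_mul_of_nonneg_left ((habs x i).trans hxn) (by positivity)
    have hK' : ((N : ℝ) + 1) * (‖x₀‖ + |r'|) + 1 ≤ (K N : ℝ) := by
      simp only [hK]; push_cast
      linarith [Nat.le_ceil (((N : ℝ) + 1) * (‖x₀‖ + |r'|))]
    obtain ⟨h1, h2⟩ := abs_le.1 hxi
    constructor
    · refine Int.le_floor.2 ?_
      push_cast
      linarith
    · refine Int.le_of_lt_add_one (Int.floor_lt.2 ?_)
      push_cast
      linarith
  have hctrP : ∀ N, ∀ t ∈ T N, ctr N t ∈ P ∧ key N (ctr N t) = t := by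
    intro N t ht
    have h := (Finset.mem_filter.1 ht).2
    simp only [hctr, dif_pos h]
    exact h.choose_spec
  -- few centres are close to one point
  set m : ℕ := (2 * n + 5) ^ n with hm
  have hfew : ∀ N x, ((T N).filter fun t => dist x (ctr N t) < D N).card ≤ m := by
    intro N x
    refine (Finset.card_le_card (t := Fintype.piFinset fun i =>
      Finset.Icc (key N x i - (n + 2)) (key N x i + (n + 2))) fun t ht => ?_).trans ?_
    · obtain ⟨htT, htd⟩ := Finset.mem_filter.1 ht
      refine Fintype.mem_piFinset.2 fun i => Finset.mem_Icc.2 ?_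
      rw [← congrFun (hctrP N t htT).2 i]
      have hN : (0 : ℝ) < (N : ℝ) + 1 := by positivity
      have h1 : |((N : ℝ) + 1) * b.repr x i - ((N : ℝ) + 1) * b.repr (ctr N t) i| < (n : ℝ) + 1 := by
        rw [← mul_sub, abs_mul, abs_of_pos hN]
        have h2 := habs (x - ctr N t) i
        rw [map_sub, PiLp.sub_apply, ← dist_eq_norm] at h2
        have h3 : dist x (ctr N t) * ((N : ℝ) + 1) < (n : ℝ) + 1 := (lt_div_iff₀ hN).1 htd
        nlinarith
      obtain ⟨h4, h5⟩ := abs_lt.1 h1
      simp only [hkey]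
      constructor
      · refine Int.le_floor.2 ?_
        push_cast
        linarith [Int.floor_le (((N : ℝ) + 1) * b.repr x i)]
      · have h6 : ((⌊((N : ℝ) + 1) * b.repr (ctr N t) i⌋ : ℤ) : ℝ) <
            ((⌊((N : ℝ) + 1) * b.repr x i⌋ + (n + 2) : ℤ) : ℝ) := by
          push_cast
          linarith [Int.floor_le (((N : ℝ) + 1) * b.repr (ctr N t) i),
            Int.lt_floor_add_one (((N : ℝ) + 1) * b.repr x i)]
        exact (Int.cast_lt.1 h6).le
    · rw [Fintype.card_piFinset, hm]
      simp only [Int.card_Icc]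
      refine le_of_eq ?_
      rw [Finset.prod_congr rfl fun i _ => show (key N x i + (n + 2) + 1 - (key N x i - (n + 2))).toNat
        = 2 * n + 5 by omega, Finset.prod_const, Finset.card_univ, Fintype.card_fin]
  have hDt : Tendsto D atTop (𝓝 0) := Tendsto.div_atTop tendsto_const_nhds
    (tendsto_atTop_add_const_right _ 1 tendsto_natCast_atTop_atTop)
  -- the expected cover length tends to zero
  have hlim : Tendsto (fun N => ∫⁻ z, S N z ∂μ) atTop (𝓝 0) := by
    set c : ℝ≥0∞ := ENNReal.ofReal (2 * 3 ^ n) * (m : ℝ≥0∞)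
    have hbound : ∀ᶠ N in atTop, ∫⁻ z, S N z ∂μ ≤ c * oscEnergy μ f (ball x₀ r) (3 * D N) := by
      filter_upwards [hDt.eventually_lt_const (sub_pos.2 hr)] with N hN
      have h0 : (ENNReal.ofReal (3 * D N)) ≠ 0 := by
        simp only [ne_eq, ENNReal.ofReal_eq_zero, not_le]; linarith [hD0 N]
      set g : E → ℝ≥0∞ := fun x => ediam (f '' ball x (3 * D N)) ^ n
      have hpt : ∀ x, ∑ t ∈ T N, (ball (ctr N t) (D N)).indicator (fun _ => R N t ^ n) x ≤
          (ball x₀ r).indicator (fun x => (m : ℝ≥0∞) * g x) x := by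
        intro x
        simp only [indicator_apply, mem_ball]
        rw [← Finset.sum_filter]
        split_ifs with hx
        · refine (Finset.sum_le_card_nsmul _ _ (g x) fun t ht => ?_).trans ?_
          · refine pow_le_pow_left' (ediam_image_mono (ball_subset_ball' ?_)) n
            linarith [(Finset.mem_filter.1 ht).2, dist_comm x (ctr N t)]
          · rw [nsmul_eq_mul]
            exact mul_le_mul' (by exact_mod_cast hfew N x) le_rfl
        · refine le_of_eq (Finset.sum_eq_zero fun t ht => ?_)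
          obtain ⟨htT, htd⟩ := Finset.mem_filter.1 ht
          exact absurd (by linarith [dist_triangle x (ctr N t) x₀,
            mem_closedBall.1 (hctrP N t htT).1]) hx
      have h1 : ∑ t ∈ T N, R N t ^ n * μ (ball (ctr N t) (D N)) ≤
          (m : ℝ≥0∞) * ∫⁻ x in ball x₀ r, g x ∂μ := by
        calc ∑ t ∈ T N, R N t ^ n * μ (ball (ctr N t) (D N))
            = ∫⁻ x, ∑ t ∈ T N, (ball (ctr N t) (D N)).indicator (fun _ => R N t ^ n) x ∂μ := by
              rw [lintegral_finsetSum _ fun t _ => measurable_const.indicator measurableSet_ball]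
              exact Finset.sum_congr rfl fun t _ => by
                rw [lintegral_indicator_const measurableSet_ball]
          _ ≤ ∫⁻ x, (ball x₀ r).indicator (fun x => (m : ℝ≥0∞) * g x) x ∂μ := lintegral_mono hpt
          _ = _ := by
              rw [lintegral_indicator measurableSet_ball,
                lintegral_const_mul' _ _ (ENNReal.natCast_ne_top m)]
      have hE : ∫⁻ x in ball x₀ r, g x ∂μ = ENNReal.ofReal (3 * D N) ^ n *
          ∫⁻ x in ball x₀ r, (ediam (f '' ball x (3 * D N)) / ENNReal.ofReal (3 * D N)) ^ n ∂μ := by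
        rw [← lintegral_const_mul' _ _ (ENNReal.pow_ne_top ENNReal.ofReal_ne_top)]
        refine lintegral_congr fun x => ?_
        rw [← mul_pow, ENNReal.mul_div_cancel h0 ENNReal.ofReal_ne_top]
      simp only [hS]
      rw [lintegral_finsetSum _ fun t _ => measurable_const.indicator (hmeasb N t)]
      simp only [lintegral_indicator_const (hmeasb N _)]
      refine (Finset.sum_le_sum fun t _ => mul_le_mul' le_rfl
        (addHaar_closedEBall_le μ (f (ctr N t)) (R N t))).trans ?_
      have hDn : ∀ t, μ (ball (ctr N t) (D N)) = ENNReal.ofReal (D N) ^ n * μ (ball (0 : E) 1) :=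
        fun t => by rw [μ.addHaar_ball_of_pos _ (hD0 N), ENNReal.ofReal_pow (hD0 N).le]
      have hDn0 : ENNReal.ofReal (D N) ^ n ≠ 0 := pow_ne_zero _ (by simp [hD0 N])
      have hDnt : ENNReal.ofReal (D N) ^ n ≠ ∞ := ENNReal.pow_ne_top ENNReal.ofReal_ne_top
      have h2 : ∀ t, ENNReal.ofReal (2 * D N) * (R N t ^ n * μ (ball (0 : E) 1)) =
          ENNReal.ofReal (2 * D N) * (ENNReal.ofReal (D N) ^ n)⁻¹ *
            (R N t ^ n * μ (ball (ctr N t) (D N))) := fun t => by
        rw [hDn, show R N t ^ n * (ENNReal.ofReal (D N) ^ n * μ (ball (0 : E) 1)) =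
          ENNReal.ofReal (D N) ^ n * (R N t ^ n * μ (ball (0 : E) 1)) by ring, mul_assoc,
          ← mul_assoc _ (ENNReal.ofReal (D N) ^ n), ENNReal.inv_mul_cancel hDn0 hDnt, one_mul]
      simp only [← hn, h2]
      rw [← Finset.mul_sum]
      refine (mul_le_mul' le_rfl h1).trans ?_
      rw [hE, oscEnergy, ← hn]
      refine le_of_le_of_eq (mul_le_mul' (mul_le_mul' (ENNReal.ofReal_le_ofReal
        (show 2 * D N ≤ 2 * (3 * D N) by linarith [hD0 N])) le_rfl) le_rfl) ?_
      simp only [c]
      rw [ENNReal.ofReal_mul (p := 3) (by norm_num), mul_pow, ENNReal.ofReal_mul (p := 2) (by norm_num),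
        ENNReal.ofReal_mul (p := (2 : ℝ)) (q := (3 : ℝ) ^ n) (by norm_num),
        ENNReal.ofReal_pow (p := (3 : ℝ)) (by norm_num) n,
        ENNReal.ofReal_mul (p := 3) (by norm_num)]
      set I := ∫⁻ x in ball x₀ r, _ ∂μ
      calc _ = ENNReal.ofReal 2 * ENNReal.ofReal 3 * ENNReal.ofReal (D N) * m *
            ENNReal.ofReal 3 ^ n * I * ((ENNReal.ofReal (D N) ^ n)⁻¹ * ENNReal.ofReal (D N) ^ n) := by
            ring
        _ = _ := by rw [ENNReal.inv_mul_cancel hDn0 hDnt]; ring
    have ht : Tendsto (fun N => oscEnergy μ f (ball x₀ r) (3 * D N)) atTop (𝓝 0) :=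
      hf.comp (tendsto_nhdsWithin_iff.2 ⟨by simpa using hDt.const_mul 3,
        Eventually.of_forall fun N => show (0 : ℝ) < 3 * D N by linarith [hD0 N]⟩)
    have h3 := ENNReal.Tendsto.const_mul (a := c) ht (Or.inr
      (ENNReal.mul_ne_top ENNReal.ofReal_ne_top (ENNReal.natCast_ne_top m)))
    rw [mul_zero] at h3
    exact tendsto_of_tendsto_of_tendsto_of_le_of_le' tendsto_const_nhds h3
      (Eventually.of_forall fun _ => zero_le) hbound
  have hzero : ∫⁻ z, liminf (fun N => S N z) atTop ∂μ = 0 :=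
    le_antisymm ((lintegral_liminf_le hmeas).trans_eq hlim.liminf_eq) zero_le
  filter_upwards [(lintegral_eq_zero_iff (Measurable.liminf hmeas)).1 hzero] with z hz a
  refine le_antisymm (le_of_le_of_eq ?_ hz) zero_le
  refine le_liminf_of_le (h := ?_)
  refine Eventually.of_forall fun N => ?_
  set T' := (T N).filter fun t => z ∈ closedEBall (f (ctr N t)) (R N t) with hT'
  have hsub : dist a '' (P ∩ f ⁻¹' {z}) ⊆ ⋃ t ∈ T', closedBall (dist a (ctr N t)) (D N) := by
    rintro _ ⟨x, ⟨hxP, hxz⟩, rfl⟩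
    obtain ⟨-, hck⟩ := hctrP N (key N x) (hkeymem N x hxP)
    have hd := hclose N x (ctr N (key N x)) hck.symm
    refine mem_iUnion₂.2 ⟨key N x, Finset.mem_filter.2 ⟨hkeymem N x hxP, ?_⟩, ?_⟩
    · rw [mem_closedEBall, ← show f x = z from hxz]
      exact edist_le_ediam_of_mem
        (mem_image_of_mem f (mem_ball.2 (by linarith [hD0 N])))
        (mem_image_of_mem f (mem_ball_self (by linarith [hD0 N])))
    · rw [mem_closedBall, Real.dist_eq]
      rw [dist_comm a x, dist_comm a (ctr N (key N x))]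
      exact (abs_dist_sub_le _ _ _).trans hd
  calc volume (dist a '' (P ∩ f ⁻¹' {z}))
      ≤ volume (⋃ t ∈ T', closedBall (dist a (ctr N t)) (D N)) := measure_mono hsub
    _ ≤ ∑ t ∈ T', volume (closedBall (dist a (ctr N t)) (D N)) := measure_biUnion_finset_le _ _
    _ = ∑ t ∈ T N, (closedEBall (f (ctr N t)) (R N t)).indicator
          (fun _ => ENNReal.ofReal (2 * D N)) z := by
        simp only [Real.volume_closedBall]
        rw [hT', Finset.sum_filter]
        exact Finset.sum_congr rfl fun t _ => by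
          simp only [indicator_apply]

end Vale.Agent.P228
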