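import Vale.Agent.P228.Action
import Vale.Agent.P228.Osc

/-!
# Averages inherit small oscillation energy
-/

namespace Vale.Agent.P228

open Set Metric MeasureTheory Filter Function TopologicalSpace
open scoped Topology ENNReal

variable {E : Type*} [NormedAddCommGroup E] [InnerProductSpace ℝ E] [FiniteDimensional ℝ E]
variable [MeasurableSpace E] [BorelSpace E]

section family

variable {P : Type*} [TopologicalSpace P] {F : P → E → E} {V : Set E}

/-- The oscillation over pairs of test points below `N`, from given distances. -/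
noncomputable def testOscN (ρ : ℝ) (N : ℕ) (v : ℕ → ℕ → ℝ≥0∞) (x : E) : ℝ≥0∞ :=
  (Finset.range N ×ˢ Finset.range N).sup fun ij =>
    (ball (denseSeq E ij.1) ρ ∩ ball (denseSeq E ij.2) ρ).indicator (fun _ => v ij.1 ij.2) x

/-- Distances between images of test points. -/
noncomputable def testDist (F : P → E → E) (V : Set E) (k : P) (i j : ℕ) : ℝ≥0∞ :=
  (V ×ˢ V).indicator (fun y : E × E => edist (F k y.1) (F k y.2)) (denseSeq E i, denseSeq E j)

/-- The oscillation over all pairs of test points. -/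
noncomputable def testOsc (F : P → E → E) (V : Set E) (ρ : ℝ) (k : P) (x : E) : ℝ≥0∞ :=
  ⨆ N, testOscN ρ N (testDist F V k) x

omit [MeasurableSpace E] [BorelSpace E] in
theorem monotone_testOscN (ρ : ℝ) (v : ℕ → ℕ → ℝ≥0∞) (x : E) :
    Monotone fun N => testOscN ρ N v x := fun _ _ h =>
  Finset.sup_mono (Finset.product_subset_product (Finset.range_mono h) (Finset.range_mono h))

omit [MeasurableSpace E] [BorelSpace E] in
theorem continuous_testDist (hF : ContinuousOn (uncurry F) (univ ×ˢ V)) (i j : ℕ) :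
    Continuous fun k => testDist F V k i j := by
  unfold testDist
  by_cases h : (denseSeq E i, denseSeq E j) ∈ V ×ˢ V
  · simp only [indicator_of_mem h]
    have hc : ∀ y ∈ V, Continuous fun k => F k y := fun y hy =>
      hF.comp_continuous (continuous_id.prodMk continuous_const) fun k => ⟨trivial, hy⟩
    exact (hc _ h.1).edist (hc _ h.2)
  · simp only [indicator_of_notMem h]
    exact continuous_const

omit [MeasurableSpace E] [BorelSpace E] in
/-- Test points compute the oscillation on balls inside the domain. -/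
theorem testOsc_eq (hF : ContinuousOn (uncurry F) (univ ×ˢ V)) {ρ : ℝ} (k : P) {x : E}
    (hx : ball x ρ ⊆ V) : testOsc F V ρ k x = ediam (F k '' ball x ρ) := by
  refine le_antisymm (iSup_le fun N => Finset.sup_le fun ij _ => ?_) (ediam_image_le_iff.2 ?_)
  · refine indicator_apply_le' (fun h => ?_) fun _ => zero_le
    have h1 : denseSeq E ij.1 ∈ ball x ρ := mem_ball_comm.1 h.1
    have h2 : denseSeq E ij.2 ∈ ball x ρ := mem_ball_comm.1 h.2
    rw [testDist, indicator_of_mem (show (denseSeq E ij.1, denseSeq E ij.2) ∈ V ×ˢ V from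
      ⟨hx h1, hx h2⟩)]
    exact edist_le_ediam_of_mem (mem_image_of_mem _ h1) (mem_image_of_mem _ h2)
  · intro y hy y' hy'
    set Q : Set (E × E) := ball x ρ ×ˢ ball x ρ
    have hc : ContinuousOn (fun p : E × E => edist (F k p.1) (F k p.2)) Q := by
      have h1 : ContinuousOn (F k) (ball x ρ) :=
        hF.comp (continuous_const.prodMk continuous_id).continuousOn fun y hy => ⟨trivial, hx hy⟩
      exact continuous_edist.comp_continuousOn
        ((h1.comp continuousOn_fst fun p hp => hp.1).prodMk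
          (h1.comp continuousOn_snd fun p hp => hp.2))
    have hQo : IsOpen Q := isOpen_ball.prod isOpen_ball
    have hd : (y, y') ∈ closure (Q ∩ (range (denseSeq E) ×ˢ range (denseSeq E))) :=
      (Dense.prod (denseRange_denseSeq E) (denseRange_denseSeq E)).open_subset_closure_inter hQo
        ⟨hy, hy'⟩
    refine isClosed_Iic.closure_subset_iff.2 ?_
      ((hc.continuousAt (hQo.mem_nhds ⟨hy, hy'⟩)).continuousWithinAt.mem_closure_image hd)
    rintro _ ⟨⟨_, _⟩, ⟨⟨h1, h2⟩, ⟨i, rfl⟩, ⟨j, rfl⟩⟩, rfl⟩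
    show edist _ _ ≤ testOsc F V ρ k x
    rw [testOsc]
    refine le_iSup_of_le (max i j + 1) ?_
    unfold testOscN
    refine le_trans ?_ (Finset.le_sup (b := (i, j)) ?_)
    · rw [indicator_of_mem (show x ∈ ball (denseSeq E i) ρ ∩ ball (denseSeq E j) ρ from
        ⟨mem_ball_comm.1 h1, mem_ball_comm.1 h2⟩), testDist, indicator_of_mem
        (show (denseSeq E i, denseSeq E j) ∈ V ×ˢ V from ⟨hx h1, hx h2⟩)]
    · simp only [Finset.mem_product, Finset.mem_range]
      omega

theorem measurable_testOsc [MeasurableSpace P] [BorelSpace P]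
    (hF : ContinuousOn (uncurry F) (univ ×ˢ V)) (ρ : ℝ) :
    Measurable (uncurry (testOsc F V ρ)) := by
  refine Measurable.iSup fun N => ?_
  unfold testOscN
  induction (Finset.range N ×ˢ Finset.range N) using Finset.induction_on with
  | empty => simp only [Finset.sup_empty]; exact measurable_const
  | insert ij s hs ih =>
    simp only [Finset.sup_insert]
    refine Measurable.max ?_ ih
    have : (fun q : P × E => (ball (denseSeq E ij.1) ρ ∩ ball (denseSeq E ij.2) ρ).indicator
        (fun _ => testDist F V q.1 ij.1 ij.2) q.2) =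
        (univ ×ˢ (ball (denseSeq E ij.1) ρ ∩ ball (denseSeq E ij.2) ρ) : Set (P × E)).indicator
          fun q => testDist F V q.1 ij.1 ij.2 := by
      funext q
      by_cases h : q.2 ∈ ball (denseSeq E ij.1) ρ ∩ ball (denseSeq E ij.2) ρ
      · rw [indicator_of_mem h, indicator_of_mem (show q ∈ univ ×ˢ _ from ⟨trivial, h⟩)]
      · rw [indicator_of_notMem h, indicator_of_notMem (fun h' => h h'.2)]
    rw [this]
    exact ((continuous_testDist hF _ _).measurable.comp measurable_fst).indicator
      (MeasurableSet.univ.prod (measurableSet_ball.inter measurableSet_ball))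

/-- The integrand of the energy, read off from test points. -/
theorem oscEnergy_eq (μ : Measure E)
    (hF : ContinuousOn (uncurry F) (univ ×ˢ V)) {x₀ : E} {r R ρ : ℝ}
    (hρ : r + ρ ≤ R) (hR : closedBall x₀ R ⊆ V) (k : P) :
    oscEnergy μ (F k) (ball x₀ r) ρ = ENNReal.ofReal ρ *
      ∫⁻ x in ball x₀ r, (testOsc F V ρ k x / ENNReal.ofReal ρ) ^ Module.finrank ℝ E ∂μ := by
  unfold oscEnergy
  congr 1
  refine setLIntegral_congr_fun measurableSet_ball fun x hx => ?_
  rw [testOsc_eq hF k ((ball_subset_closedBall.trans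
    (closedBall_subset_closedBall' (by linarith [mem_ball.1 hx]))).trans hR)]

/-- A bound on the energy is a closed condition on the parameter. -/
theorem isClosed_oscEnergy_le (μ : Measure E) (hF : ContinuousOn (uncurry F) (univ ×ˢ V))
    {x₀ : E} {r R ρ : ℝ} (hρ0 : 0 < ρ) (hρ : r + ρ ≤ R) (hR : closedBall x₀ R ⊆ V) (c : ℝ≥0∞) :
    IsClosed {k | oscEnergy μ (F k) (ball x₀ r) ρ ≤ c} := by
  set d := Module.finrank ℝ E
  set J : ℕ → (ℕ → ℕ → ℝ≥0∞) → E → ℝ≥0∞ := fun N v x =>
    (testOscN ρ N v x / ENNReal.ofReal ρ) ^ d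
  have h0 : ENNReal.ofReal ρ ≠ 0 := by simp [hρ0]
  have hpow : Continuous fun a : ℝ≥0∞ => (a / ENNReal.ofReal ρ) ^ d :=
    (ENNReal.continuous_pow d).comp (ENNReal.continuous_div_const _ h0)
  have hcv : ∀ N x, Continuous fun v : ℕ → ℕ → ℝ≥0∞ => J N v x := by
    intro N x
    refine hpow.comp ?_
    unfold testOscN
    induction (Finset.range N ×ˢ Finset.range N) using Finset.induction_on with
    | empty => simp only [Finset.sup_empty]; exact continuous_const
    | insert ij s hs ih =>
      simp only [Finset.sup_insert]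
      refine Continuous.max ?_ ih
      by_cases h : x ∈ ball (denseSeq E ij.1) ρ ∩ ball (denseSeq E ij.2) ρ
      · simp only [indicator_of_mem h]
        exact (continuous_apply ij.2).comp (continuous_apply ij.1)
      · simp only [indicator_of_notMem h]
        exact continuous_const
  have hmv : ∀ N v, Measurable (J N v) := by
    intro N v
    refine hpow.measurable.comp ?_
    unfold testOscN
    induction (Finset.range N ×ˢ Finset.range N) using Finset.induction_on with
    | empty => simp only [Finset.sup_empty]; exact measurable_const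
    | insert ij s hs ih =>
      simp only [Finset.sup_insert]
      exact (measurable_const.indicator (measurableSet_ball.inter measurableSet_ball)).max ih
  have hclv : ∀ N, IsClosed {v | ENNReal.ofReal ρ * ∫⁻ x in ball x₀ r, J N v x ∂μ ≤ c} := by
    intro N
    refine IsSeqClosed.isClosed fun v v₀ hv htend => ?_
    have hle : ∫⁻ x in ball x₀ r, J N v₀ x ∂μ ≤
        liminf (fun j => ∫⁻ x in ball x₀ r, J N (v j) x ∂μ) atTop := by
      refine le_of_eq_of_le (lintegral_congr fun x => ?_) (lintegral_liminf_le fun j => hmv N _)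
      exact (((hcv N x).tendsto v₀).comp htend).liminf_eq.symm
    refine le_trans (mul_le_mul' le_rfl hle) ?_
    have hb : ∀ j, ∫⁻ x in ball x₀ r, J N (v j) x ∂μ ≤ c / ENNReal.ofReal ρ := fun j => by
      rw [ENNReal.le_div_iff_mul_le (Or.inl h0) (Or.inl ENNReal.ofReal_ne_top), mul_comm]
      exact hv j
    refine (mul_le_mul' le_rfl (liminf_le_of_frequently_le'
      (Frequently.of_forall hb))).trans ?_
    exact ENNReal.mul_div_le
  have heq : {k | oscEnergy μ (F k) (ball x₀ r) ρ ≤ c} =
      ⋂ N, (testDist F V) ⁻¹' {v | ENNReal.ofReal ρ * ∫⁻ x in ball x₀ r, J N v x ∂μ ≤ c} := by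
    ext k
    simp only [mem_ofPred_eq, mem_iInter, mem_preimage]
    rw [oscEnergy_eq μ hF hρ hR k]
    constructor
    · intro h N
      refine le_trans (mul_le_mul' le_rfl (lintegral_mono fun x => ?_)) h
      exact pow_le_pow_left' (ENNReal.div_le_div_right (le_iSup (fun N => testOscN ρ N _ x) N) _) _
    · intro h
      have hb : ∀ N, ∫⁻ x in ball x₀ r, J N (testDist F V k) x ∂μ ≤ c / ENNReal.ofReal ρ :=
        fun N => by
          rw [ENNReal.le_div_iff_mul_le (Or.inl h0) (Or.inl ENNReal.ofReal_ne_top), mul_comm]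
          exact h N
      have he : ∀ x, (testOsc F V ρ k x / ENNReal.ofReal ρ) ^ d =
          liminf (fun N => J N (testDist F V k) x) atTop := fun x =>
        ((hpow.tendsto _).comp (tendsto_atTop_iSup (monotone_testOscN ρ _ x))).liminf_eq.symm
      rw [lintegral_congr he]
      refine le_trans (mul_le_mul' le_rfl ?_) ENNReal.mul_div_le
      exact (lintegral_liminf_le (u := atTop) fun N => hmv N (testDist F V k)).trans
        (liminf_le_of_frequently_le' (Frequently.of_forall hb))
  rw [heq]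
  exact isClosed_iInter fun N => (hclv N).preimage
    (continuous_pi fun i => continuous_pi fun j => continuous_testDist hF i j)

variable [CompactSpace P] [MeasurableSpace P] [BorelSpace P]

omit [MeasurableSpace E] [BorelSpace E] in
theorem continuousOn_average (hV : IsOpen V) (hF : ContinuousOn (uncurry F) (univ ×ˢ V))
    (ν : Measure P) [IsProbabilityMeasure ν] :
    ContinuousOn (fun y => ∫ k, F k y ∂ν) V := by
  intro y hy
  refine ContinuousAt.continuousWithinAt ?_
  obtain ⟨R, hR, hRV⟩ := nhds_basis_closedBall.mem_iff.1 (hV.mem_nhds hy)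
  have hKc : IsCompact ((univ : Set P) ×ˢ closedBall y R) :=
    isCompact_univ.prod (isCompact_closedBall y R)
  obtain ⟨C, hC⟩ := hKc.exists_bound_of_continuousOn (hF.mono (prod_mono Subset.rfl hRV))
  have hck : ∀ w ∈ V, Continuous fun k => F k w := fun w hw =>
    hF.comp_continuous (continuous_id.prodMk continuous_const) fun k => ⟨trivial, hw⟩
  refine continuousAt_of_dominated (bound := fun _ => C) ?_ ?_ (integrable_const _)
    (Eventually.of_forall fun k => ?_)
  · filter_upwards [hV.mem_nhds hy] with w hw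
    exact (hck w hw).aestronglyMeasurable_of_compactSpace
  · filter_upwards [closedBall_mem_nhds y hR] with w hw
    exact Eventually.of_forall fun k => hC (k, w) ⟨trivial, hw⟩
  · exact (hF.continuousAt ((isOpen_univ.prod hV).mem_nhds ⟨trivial, hy⟩)).comp
      (continuous_const.prodMk continuous_id).continuousAt

omit [MeasurableSpace E] [BorelSpace E] in
theorem ediam_average_le {x₀ : E} {ρ : ℝ} (hF : ContinuousOn (uncurry F) (univ ×ˢ V))
    (ν : Measure P) [IsProbabilityMeasure ν] (hx : ball x₀ ρ ⊆ V) :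
    ediam ((fun y => ∫ k, F k y ∂ν) '' ball x₀ ρ) ≤ ∫⁻ k, testOsc F V ρ k x₀ ∂ν := by
  refine ediam_image_le_iff.2 fun y hy y' hy' => ?_
  have hint : ∀ w ∈ V, Integrable (fun k => F k w) ν := fun w hw =>
    (hF.comp_continuous (continuous_id.prodMk continuous_const) fun k => ⟨trivial, hw⟩
      ).integrable_of_hasCompactSupport (HasCompactSupport.of_compactSpace _)
  rw [edist_eq_enorm_sub, ← integral_sub (hint y (hx hy)) (hint y' (hx hy'))]
  refine (enorm_integral_le_lintegral_enorm _).trans (lintegral_mono fun k => ?_)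
  rw [testOsc_eq hF k hx, ← edist_eq_enorm_sub]
  exact edist_le_ediam_of_mem (mem_image_of_mem _ hy) (mem_image_of_mem _ hy')

omit [TopologicalSpace P] [CompactSpace P] [BorelSpace P] in
theorem pow_lintegral_le (ν : Measure P) [IsProbabilityMeasure ν] {g : P → ℝ≥0∞}
    (hg : AEMeasurable g ν) (d : ℕ) : (∫⁻ k, g k ∂ν) ^ d ≤ ∫⁻ k, g k ^ d ∂ν := by
  rcases Nat.eq_zero_or_pos d with rfl | hd
  · simp
  have h1 := eLpNorm'_le_eLpNorm'_of_exponent_le (p := (1 : ℝ)) (q := (d : ℝ)) one_pos
    (by exact_mod_cast hd) ν hg.aestronglyMeasurable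
  simp only [eLpNorm'_eq_lintegral_enorm, enorm_eq_self, ENNReal.rpow_one, div_one] at h1
  have h2 := pow_le_pow_left' h1 d
  rwa [← ENNReal.rpow_natCast (_ ^ (1 / (d : ℝ))) d, ← ENNReal.rpow_mul,
    one_div_mul_cancel (by exact_mod_cast hd.ne'), ENNReal.rpow_one,
    funext fun k => ENNReal.rpow_natCast (g k) d] at h2

/-- **Averages inherit small energy**, given a common bound. -/
theorem tendsto_oscEnergy_average (μ : Measure E) [SFinite μ]
    (hF : ContinuousOn (uncurry F) (univ ×ˢ V)) (ν : Measure P) [IsProbabilityMeasure ν]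
    {x₀ : E} {r R ρ₀ : ℝ} (hρ₀ : 0 < ρ₀) (hρR : r + ρ₀ ≤ R) (hR : closedBall x₀ R ⊆ V)
    (hb : ∀ k ρ, 0 < ρ → ρ < ρ₀ → oscEnergy μ (F k) (ball x₀ r) ρ ≤ 1)
    (ht : ∀ k, Tendsto (oscEnergy μ (F k) (ball x₀ r)) (𝓝[>] 0) (𝓝 0)) :
    Tendsto (oscEnergy μ (fun y => ∫ k, F k y ∂ν) (ball x₀ r)) (𝓝[>] 0) (𝓝 0) := by
  set d := Module.finrank ℝ E
  set I : ℝ → P → ℝ≥0∞ := fun ρ k => ENNReal.ofReal ρ *
    ∫⁻ x in ball x₀ r, (testOsc F V ρ k x / ENNReal.ofReal ρ) ^ d ∂μ
  have hev : ∀ᶠ ρ : ℝ in 𝓝[>] 0, 0 < ρ ∧ ρ < ρ₀ :=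
    (eventually_mem_nhdsWithin.and ((eventually_lt_nhds hρ₀).filter_mono nhdsWithin_le_nhds))
  have hmeas : ∀ ρ, Measurable (I ρ) := fun ρ =>
    (((measurable_testOsc hF ρ).div_const _).pow_const d).lintegral_prod_right'.const_mul _
  have hI : Tendsto (fun ρ => ∫⁻ k, I ρ k ∂ν) (𝓝[>] 0) (𝓝 (∫⁻ _k, 0 ∂ν)) := by
    refine tendsto_lintegral_filter_of_dominated_convergence (fun _ => 1)
      (Eventually.of_forall hmeas) ?_ (by simp) (Eventually.of_forall fun k => ?_)
    · filter_upwards [hev] with ρ hρ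
      refine Eventually.of_forall fun k => ?_
      rw [show I ρ k = _ from (oscEnergy_eq μ hF (by linarith) hR k).symm]
      exact hb k ρ hρ.1 hρ.2
    · refine (ht k).congr' ?_
      filter_upwards [hev] with ρ hρ
      exact oscEnergy_eq μ hF (by linarith) hR k
  rw [lintegral_zero] at hI
  refine tendsto_of_tendsto_of_tendsto_of_le_of_le' tendsto_const_nhds hI
    (Eventually.of_forall fun _ => zero_le) ?_
  filter_upwards [hev] with ρ hρ
  have h0 : ENNReal.ofReal ρ ≠ 0 := by simp [hρ.1]
  calc oscEnergy μ (fun y => ∫ k, F k y ∂ν) (ball x₀ r) ρ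
      ≤ ENNReal.ofReal ρ * ∫⁻ x in ball x₀ r,
          ∫⁻ k, (testOsc F V ρ k x / ENNReal.ofReal ρ) ^ d ∂ν ∂μ := by
        refine mul_le_mul' le_rfl (setLIntegral_mono' measurableSet_ball fun x hx => ?_)
        have hm : AEMeasurable (fun k => testOsc F V ρ k x / ENNReal.ofReal ρ) ν :=
          (((measurable_testOsc hF ρ).comp measurable_prodMk_right).div_const _).aemeasurable
        refine le_trans (pow_le_pow_left' ?_ d) (pow_lintegral_le ν hm d)
        simp only [div_eq_mul_inv]
        rw [lintegral_mul_const' _ _ (ENNReal.inv_ne_top.2 h0)]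
        refine mul_le_mul' (ediam_average_le hF ν ((ball_subset_closedBall.trans
          (closedBall_subset_closedBall' (by linarith [mem_ball.1 hx]))).trans hR)) le_rfl
    _ = ∫⁻ k, I ρ k ∂ν := by
        simp only [I]
        rw [lintegral_const_mul' _ _ ENNReal.ofReal_ne_top]
        congr 1
        refine lintegral_lintegral_swap ?_
        exact ((((measurable_testOsc hF ρ).div_const _).pow_const d).comp measurable_swap).aemeasurable

end family

variable {K : Type*} [Group K] [TopologicalSpace K] {A : K → E → E} {V : Set E}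

omit [BorelSpace E] in
theorem IsAction.tendsto_oscEnergy (_hA : IsAction A V) (μ : Measure E)
    (hosc : ∀ g, ∀ x ∈ V, SmallOsc μ (A g) x) {x₀ : E} {r R : ℝ}
    (hRV : closedBall x₀ R ⊆ V) (g : K) (hrR : r ≤ R) :
    Tendsto (oscEnergy μ (A g) (ball x₀ r)) (𝓝[>] 0) (𝓝 0) :=
  tendsto_of_tendsto_of_tendsto_of_le_of_le tendsto_const_nhds
    (tendsto_oscEnergy_of_isCompact (isCompact_closedBall x₀ R) fun x hx => hosc g x (hRV hx))
    (fun _ => zero_le) fun ρ => oscEnergy_mono μ _ (ball_subset_closedBall.trans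
      (closedBall_subset_closedBall hrR)) ρ

/-- By Baire, an open set of elements shares one energy bound on a ball. -/
theorem IsAction.exists_bounded_coset [IsTopologicalGroup K] [CompactSpace K] (hA : IsAction A V)
    (μ : Measure E) (hosc : ∀ g, ∀ x ∈ V, SmallOsc μ (A g) x) {x₀ : E} {r R : ℝ} (hrR : r < R)
    (hRV : closedBall x₀ R ⊆ V) :
    ∃ c : K, ∃ W ∈ 𝓝 c, ∃ ρ₀ > 0, r + ρ₀ ≤ R ∧
      ∀ g ∈ W, ∀ ρ, 0 < ρ → ρ < ρ₀ → oscEnergy μ (A g) (ball x₀ r) ρ ≤ 1 := by
  set ρm : ℕ → ℝ := fun m => min (((m : ℝ) + 1)⁻¹) (R - r)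
  have hρm : ∀ m, 0 < ρm m := fun m => lt_min (by positivity) (sub_pos.2 hrR)
  set F : ℕ → Set K := fun m =>
    ⋂ ρ ∈ Ioo 0 (ρm m), {g | oscEnergy μ (A g) (ball x₀ r) ρ ≤ 1}
  have hFc : ∀ m, IsClosed (F m) := fun m => isClosed_biInter fun ρ hρ =>
    isClosed_oscEnergy_le μ hA.continuousOn hρ.1
      (by linarith [hρ.2, min_le_right (((m : ℝ) + 1)⁻¹) (R - r)]) hRV 1
  have hcov : ⋃ m, F m = univ := by
    refine eq_univ_of_forall fun g => ?_
    obtain ⟨u, hu, hsub⟩ := mem_nhdsGT_iff_exists_Ioo_subset.1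
      ((hA.tendsto_oscEnergy μ hosc hRV g hrR.le).eventually_le_const zero_lt_one)
    obtain ⟨m, hm⟩ := exists_nat_gt u⁻¹
    refine mem_iUnion.2 ⟨m, mem_iInter₂.2 fun ρ hρ => hsub ⟨hρ.1, ?_⟩⟩
    refine hρ.2.trans_le ((min_le_left _ _).trans ?_)
    rw [inv_le_comm₀ (by positivity) (mem_Ioi.1 hu)]
    linarith
  have : T2Space K → Nonempty K := fun _ => ⟨1⟩
  obtain ⟨m, c, hint⟩ := nonempty_interior_of_iUnion_of_closed hFc hcov
  refine ⟨c, F m, mem_interior_iff_mem_nhds.1 hint, ρm m, hρm m, ?_, fun g hg ρ h0 h1 =>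
    mem_iInter₂.1 hg ρ ⟨h0, h1⟩⟩
  linarith [min_le_right (((m : ℝ) + 1)⁻¹) (R - r)]

end Vale.Agent.P228
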