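import Vale.Agent.P228.Osc
import Vale.Agent.P228.Action

/-!
# Maps dominated by finitely many maps of small oscillation energy
-/

namespace Vale.Agent.P228

open Set Metric MeasureTheory Filter Function
open scoped Topology ENNReal

variable {E : Type*} [NormedAddCommGroup E] [InnerProductSpace ℝ E] [FiniteDimensional ℝ E]
variable [MeasurableSpace E] [BorelSpace E]

omit [InnerProductSpace ℝ E] [FiniteDimensional ℝ E] in
theorem measurable_ediam_image (f : E → E) (ρ : ℝ) :
    Measurable fun x => ediam (f '' ball x ρ) := by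
  refine LowerSemicontinuous.measurable (lowerSemicontinuous_iff_isOpen_preimage.2 fun c => ?_)
  refine isOpen_iff_mem_nhds.2 fun x hx => ?_
  simp only [mem_preimage, mem_Ioi] at hx
  have hne : ¬ ediam (f '' ball x ρ) ≤ c := not_le.2 hx
  rw [ediam_image_le_iff] at hne
  push Not at hne
  obtain ⟨y, hy, y', hy', hc⟩ := hne
  filter_upwards [isOpen_ball.mem_nhds (mem_ball_comm.1 hy),
    isOpen_ball.mem_nhds (mem_ball_comm.1 hy')] with w hw hw'
  exact hc.trans_le (edist_le_ediam_of_mem (mem_image_of_mem f (mem_ball_comm.1 hw))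
    (mem_image_of_mem f (mem_ball_comm.1 hw')))

omit [FiniteDimensional ℝ E] in
/-- A map dominated on a ball by finitely many maps of small energy has small energy. -/
theorem tendsto_oscEnergy_of_dominated (μ : Measure E) {ι : Type*} [Fintype ι] [Nonempty ι] {f : E → E}
    {g : ι → E → E} {x₀ : E} {r R : ℝ} (hrR : r < R) {L : ℝ≥0∞} (hL : L ≠ ∞)
    (hdom : ∀ y ∈ ball x₀ R, ∀ y' ∈ ball x₀ R,
      edist (f y) (f y') ≤ L * ∑ q, edist (g q y) (g q y'))
    (hg : ∀ q, Tendsto (oscEnergy μ (g q) (ball x₀ r)) (𝓝[>] 0) (𝓝 0)) :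
    Tendsto (oscEnergy μ f (ball x₀ r)) (𝓝[>] 0) (𝓝 0) := by
  set d := Module.finrank ℝ E
  set C : ℝ≥0∞ := (L * Fintype.card ι) ^ d
  have hC : C ≠ ∞ := ENNReal.pow_ne_top (ENNReal.mul_ne_top hL (ENNReal.natCast_ne_top _))
  have h1 := ENNReal.Tendsto.const_mul (a := C)
    (tendsto_finsetSum Finset.univ fun q _ => hg q) (Or.inr hC)
  simp only [Finset.sum_const_zero, mul_zero] at h1
  refine tendsto_of_tendsto_of_tendsto_of_le_of_le' tendsto_const_nhds h1
    (Eventually.of_forall fun _ => zero_le) ?_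
  filter_upwards [(eventually_lt_nhds (sub_pos.2 hrR)).filter_mono nhdsWithin_le_nhds,
    eventually_mem_nhdsWithin] with ρ hρ hρ0
  have h0 : ENNReal.ofReal ρ ≠ 0 := by simpa using hρ0
  simp only [oscEnergy]
  rw [← Finset.mul_sum, mul_left_comm C]
  refine mul_le_mul' le_rfl ?_
  rw [← lintegral_finsetSum _ fun q _ =>
      ((measurable_ediam_image (g q) ρ).div_const _).pow_const d, ← lintegral_const_mul' _ _ hC]
  refine setLIntegral_mono' measurableSet_ball fun x hx => ?_
  set a : ι → ℝ≥0∞ := fun q => ediam (g q '' ball x ρ)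
  have hsub : ball x ρ ⊆ ball x₀ R := ball_subset_ball' (by linarith [mem_ball.1 hx])
  have hsum : ediam (f '' ball x ρ) ≤ L * ∑ q, a q := ediam_image_le_iff.2 fun y hy y' hy' =>
    (hdom y (hsub hy) y' (hsub hy')).trans (mul_le_mul' le_rfl (Finset.sum_le_sum fun q _ =>
      edist_le_ediam_of_mem (mem_image_of_mem _ hy) (mem_image_of_mem _ hy')))
  obtain ⟨q₀, -, hq₀⟩ := Finset.exists_max_image Finset.univ a Finset.univ_nonempty
  calc (ediam (f '' ball x ρ) / ENNReal.ofReal ρ) ^ d
      ≤ ((L * Fintype.card ι) * (a q₀ / ENNReal.ofReal ρ)) ^ d := by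
        refine pow_le_pow_left' ((ENNReal.div_le_div_right (hsum.trans ?_) _).trans_eq
          (mul_div_assoc _ _ _)) d
        rw [mul_assoc]
        refine mul_le_mul' le_rfl ((Finset.sum_le_card_nsmul _ _ _ fun q _ =>
          hq₀ q (Finset.mem_univ q)).trans_eq ?_)
        rw [nsmul_eq_mul, Finset.card_univ]
    _ = C * (a q₀ / ENNReal.ofReal ρ) ^ d := mul_pow _ _ _
    _ ≤ C * ∑ q, (a q / ENNReal.ofReal ρ) ^ d :=
        mul_le_mul' le_rfl (Finset.single_le_sum (f := fun q => (a q / ENNReal.ofReal ρ) ^ d)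
          (fun _ _ => zero_le) (Finset.mem_univ q₀))

end Vale.Agent.P228
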