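import Vale.Agent.P228.OscManifold

/-!
# Locally Hölder maps and maps of quasiconformal type have small oscillation energy
-/

namespace Vale.Agent.P228

open Set Metric Filter Function MeasureTheory
open scoped Topology ENNReal

variable {E : Type*} [NormedAddCommGroup E] [InnerProductSpace ℝ E] [FiniteDimensional ℝ E]
variable [MeasurableSpace E] [BorelSpace E]

/-- A locally Hölder map with exponent `a`, `n (1 - a) < 1`, has small energy. -/
theorem smallOsc_of_hoelder (μ : Measure E) [μ.IsAddHaarMeasure] {f : E → E} {x : E} {R C a : ℝ}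
    (hR : 0 < R) (ha : 0 < a) (hna : (Module.finrank ℝ E : ℝ) * (1 - a) < 1)
    (hf : ∀ y ∈ ball x R, ∀ y' ∈ ball x R, dist (f y) (f y') ≤ C * dist y y' ^ a) :
    SmallOsc μ f x := by
  set d := Module.finrank ℝ E
  refine ⟨R / 2, half_pos hR, ?_⟩
  set c : ℝ := (|C| * (2 : ℝ) ^ a) ^ d
  have hfin : μ (ball x (R / 2)) ≠ ∞ := measure_ball_lt_top.ne
  have hlim : Tendsto (fun ρ : ℝ => ENNReal.ofReal (c * ρ ^ (1 - (d : ℝ) * (1 - a))) *
      μ (ball x (R / 2))) (𝓝[>] 0) (𝓝 0) := by
    have h1 : Tendsto (fun ρ : ℝ => c * ρ ^ (1 - (d : ℝ) * (1 - a))) (𝓝[>] 0) (𝓝 0) := by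
      have h := ((Real.continuousAt_rpow_const 0 (1 - (d : ℝ) * (1 - a))
        (Or.inr (by linarith))).tendsto.const_mul c).mono_left
          (nhdsWithin_le_nhds (s := Ioi (0 : ℝ)))
      rwa [Real.zero_rpow (show (1 : ℝ) - d * (1 - a) ≠ 0 by linarith), mul_zero] at h
    simpa using ENNReal.Tendsto.mul_const (ENNReal.tendsto_ofReal h1) (Or.inr hfin)
  refine tendsto_of_tendsto_of_tendsto_of_le_of_le' tendsto_const_nhds hlim
    (Eventually.of_forall fun _ => zero_le) ?_
  filter_upwards [eventually_mem_nhdsWithin,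
    (eventually_lt_nhds (half_pos hR)).filter_mono nhdsWithin_le_nhds] with ρ hρ0 hρ
  have hρ0' : (0 : ℝ) < ρ := hρ0
  calc oscEnergy μ f (ball x (R / 2)) ρ
      ≤ ENNReal.ofReal ρ * ∫⁻ _y in ball x (R / 2),
          ENNReal.ofReal ((|C| * (2 * ρ) ^ a / ρ) ^ d) ∂μ := by
        refine mul_le_mul' le_rfl (setLIntegral_mono' measurableSet_ball fun y hy => ?_)
        rw [ENNReal.ofReal_pow (by positivity), ENNReal.ofReal_div_of_pos hρ0']
        refine pow_le_pow_left' (ENNReal.div_le_div_right ?_ _) _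
        refine ediam_image_le_iff.2 fun u hu v hv => ?_
        rw [edist_dist]
        have hs : ball y ρ ⊆ ball x R := ball_subset_ball' (by linarith [mem_ball.1 hy])
        refine ENNReal.ofReal_le_ofReal ((hf u (hs hu) v (hs hv)).trans ?_)
        refine mul_le_mul (le_abs_self C) (Real.rpow_le_rpow dist_nonneg ?_ ha.le) (by positivity)
          (abs_nonneg C)
        linarith [dist_triangle_right u v y, mem_ball.1 hu, mem_ball.1 hv]
    _ = ENNReal.ofReal (c * ρ ^ (1 - (d : ℝ) * (1 - a))) * μ (ball x (R / 2)) := by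
        rw [setLIntegral_const, ← mul_assoc, ← ENNReal.ofReal_mul hρ0'.le]
        congr 2
        simp only [c]
        rw [Real.mul_rpow two_pos.le hρ0'.le, mul_pow, div_pow, mul_pow, mul_pow, Real.rpow_sub hρ0',
          Real.rpow_one, mul_sub, mul_one, Real.rpow_sub hρ0', Real.rpow_natCast,
          mul_comm (d : ℝ) a, Real.rpow_mul hρ0'.le, Real.rpow_natCast]
        field_simp

/-- An injective map which sends small balls to sets of volume comparable with the `n`-th power of
their diameter (as quasiconformal homeomorphisms do) has small energy. -/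
theorem smallOsc_of_roundBalls (μ : Measure E) [μ.IsAddHaarMeasure] {f : E → E} {x : E}
    {R : ℝ} {c : NNReal} (hR : 0 < R) (hf : ContinuousOn f (closedBall x R))
    (hinj : InjOn f (closedBall x R))
    (hround : ∀ y ρ, 0 < ρ → closedBall y ρ ⊆ closedBall x R →
      ediam (f '' ball y ρ) ^ Module.finrank ℝ E ≤ c * μ (f '' ball y ρ)) :
    SmallOsc μ f x := by
  set d := Module.finrank ℝ E
  refine ⟨R / 2, half_pos hR, ?_⟩
  set U : ℝ≥0∞ := c * (μ (ball (0 : E) 1) * μ (f '' closedBall x R))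
  have hU : U ≠ ∞ := ENNReal.mul_ne_top ENNReal.coe_ne_top (ENNReal.mul_ne_top
    measure_ball_lt_top.ne ((isCompact_closedBall x R).image_of_continuousOn hf).measure_ne_top)
  have hlim : Tendsto (fun ρ : ℝ => ENNReal.ofReal ρ * U) (𝓝[>] 0) (𝓝 0) := by
    simpa using ENNReal.Tendsto.mul_const (ENNReal.tendsto_ofReal
      ((tendsto_id (x := 𝓝 (0 : ℝ))).mono_left (nhdsWithin_le_nhds (s := Ioi 0)))) (Or.inr hU)
  refine tendsto_of_tendsto_of_tendsto_of_le_of_le' tendsto_const_nhds hlim
    (Eventually.of_forall fun _ => zero_le) ?_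
  filter_upwards [eventually_mem_nhdsWithin,
    (eventually_lt_nhds (half_pos hR)).filter_mono nhdsWithin_le_nhds] with ρ hρ0 hρ
  have hρ0' : (0 : ℝ) < ρ := hρ0
  refine mul_le_mul' le_rfl ?_
  set Q : Set (E × E) := (closedBall x R ×ˢ closedBall x (R / 2)) ∩ {q | dist q.1 q.2 ≤ ρ}
  have hQ : IsCompact Q := ((isCompact_closedBall x R).prod (isCompact_closedBall x (R / 2))
    ).inter_right (isClosed_le (continuous_fst.dist continuous_snd) continuous_const)
  set S : Set (E × E) := (fun q : E × E => (f q.1, q.2)) '' Q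
  have hS : MeasurableSet S := (hQ.image_of_continuousOn
    (((hf.comp continuousOn_fst fun q hq => hq.1.1)).prodMk continuousOn_snd)).measurableSet
  have hT : ENNReal.ofReal ρ ^ d ≠ 0 ∧ ENNReal.ofReal ρ ^ d ≠ ∞ :=
    ⟨pow_ne_zero _ (by simp [hρ0']), ENNReal.pow_ne_top ENNReal.ofReal_ne_top⟩
  set s : E → E → ℝ≥0∞ := fun y z => S.indicator (fun _ => 1) (z, y)
  have hpt : ∀ y ∈ ball x (R / 2), (ediam (f '' ball y ρ) / ENNReal.ofReal ρ) ^ d ≤
      c / ENNReal.ofReal ρ ^ d * ∫⁻ z, s y z ∂μ := by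
    intro y hy
    have hs : closedBall y ρ ⊆ closedBall x R :=
      closedBall_subset_closedBall' (by linarith [mem_ball.1 hy])
    rw [div_eq_mul_inv, mul_pow, ← ENNReal.inv_pow, div_eq_mul_inv, mul_right_comm]
    refine mul_le_mul' ((hround y ρ hρ0' hs).trans (mul_le_mul' le_rfl ?_)) le_rfl
    have e : ∫⁻ z, s y z ∂μ = μ ((fun z => (z, y)) ⁻¹' S) :=
      lintegral_indicator_one ((measurable_id.prodMk measurable_const) hS)
    rw [e]
    refine measure_mono ?_
    rintro _ ⟨u, hu, rfl⟩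
    exact ⟨(u, y), ⟨⟨hs (ball_subset_closedBall hu), mem_closedBall.2 (mem_ball.1 hy).le⟩,
      (mem_ball.1 hu).le⟩, rfl⟩
  have hsm : Measurable (uncurry s) := (measurable_const.indicator hS).comp measurable_swap
  calc ∫⁻ y in ball x (R / 2), (ediam (f '' ball y ρ) / ENNReal.ofReal ρ) ^ d ∂μ
      ≤ ∫⁻ y in ball x (R / 2), c / ENNReal.ofReal ρ ^ d * ∫⁻ z, s y z ∂μ ∂μ :=
        setLIntegral_mono' measurableSet_ball hpt
    _ ≤ c / ENNReal.ofReal ρ ^ d * ∫⁻ z, ∫⁻ y, s y z ∂μ ∂μ := by
        refine (setLIntegral_le_lintegral _ _).trans_eq ?_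
        rw [lintegral_const_mul' _ _ (ENNReal.div_ne_top ENNReal.coe_ne_top hT.1),
          lintegral_lintegral_swap hsm.aemeasurable]
    _ ≤ c / ENNReal.ofReal ρ ^ d * ∫⁻ z, (f '' closedBall x R).indicator
          (fun _ => ENNReal.ofReal ρ ^ d * μ (ball (0 : E) 1)) z ∂μ := by
        refine mul_le_mul' le_rfl (lintegral_mono fun z => ?_)
        have e : ∫⁻ y, s y z ∂μ = μ ((fun y => (z, y)) ⁻¹' S) :=
          lintegral_indicator_one ((measurable_const.prodMk measurable_id) hS)
        rw [e]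
        by_cases hz : z ∈ f '' closedBall x R
        · obtain ⟨u, hu, rfl⟩ := hz
          rw [indicator_of_mem (mem_image_of_mem f hu), ← ENNReal.ofReal_pow hρ0'.le,
            ← μ.addHaar_closedBall u hρ0'.le]
          refine measure_mono ?_
          rintro y ⟨⟨v, w⟩, ⟨⟨hv, -⟩, hvw⟩, he⟩
          simp only [Prod.mk.injEq] at he
          obtain ⟨he1, rfl⟩ := he
          have hvw' : dist v w ≤ ρ := hvw
          have hvu : v = u := hinj hv hu he1
          rw [hvu, dist_comm] at hvw'
          exact mem_closedBall.2 hvw'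
        · rw [indicator_of_notMem hz]
          refine le_of_eq (measure_mono_null ?_ measure_empty)
          rintro y ⟨⟨v, w⟩, ⟨⟨hv, -⟩, -⟩, he⟩
          exact hz ⟨v, hv, congrArg Prod.fst he⟩
    _ = U := by
        rw [lintegral_indicator_const ((isCompact_closedBall x R).image_of_continuousOn hf).measurableSet]
        simp only [U]
        calc (c : ℝ≥0∞) / ENNReal.ofReal ρ ^ d *
              (ENNReal.ofReal ρ ^ d * μ (ball (0 : E) 1) * μ (f '' closedBall x R))
            = c * (μ (ball (0 : E) 1) * μ (f '' closedBall x R)) *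
              ((ENNReal.ofReal ρ ^ d)⁻¹ * ENNReal.ofReal ρ ^ d) := by
              rw [div_eq_mul_inv]; ring
          _ = _ := by rw [ENNReal.inv_mul_cancel hT.1 hT.2, mul_one]

end Vale.Agent.P228
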