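import Vale.Agent.P228.OscAverage
import Vale.Agent.P228.NewmanThin

/-!
# Actions of small oscillation energy are locally trivial on an open subgroup
-/

namespace Vale.Agent.P228

open Set Metric MeasureTheory Filter Function
open scoped Topology ENNReal

variable {E : Type*} [NormedAddCommGroup E] [InnerProductSpace ℝ E] [FiniteDimensional ℝ E]
variable [MeasurableSpace E] [BorelSpace E]
variable {K : Type*} [Group K] [TopologicalSpace K] [IsTopologicalGroup K] [CompactSpace K]
  [TotallyDisconnectedSpace K]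
variable {A : K → E → E} {V : Set E}

/-- **Local triviality**: every point has a neighbourhood fixed by an open normal subgroup. -/
theorem IsAction.locally_fixed_osc (hA : IsAction A V) (μ : Measure E) [μ.IsAddHaarMeasure] (hosc : ∀ g, ∀ x ∈ V, SmallOsc μ (A g) x) :
    ∀ x ∈ V, ∃ H : OpenNormalSubgroup K, x ∈ fixInterior A V H := by
  intro x hxV
  by_contra hx
  obtain ⟨δ', hδ', hδ'V⟩ := (nhds_basis_closedBall.mem_iff).1 (hA.isOpen.mem_nhds hxV)
  set δ := δ' / 2 with hδdef
  have hδ : 0 < δ := half_pos hδ'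
  set y₁ := x
  have hball : ball y₁ δ ⊆ V := fun y hy => hδ'V (mem_closedBall.2 (by
    linarith [mem_ball.1 hy]))
  obtain ⟨c, W₀, hW₀, ρ₀, hρ₀, hρ₀δ, hbd⟩ := hA.exists_bounded_coset μ hosc
    (show δ < δ' by linarith) hδ'V
  set r := δ / 2 with hr
  have hr0 : 0 < r := half_pos hδ
  have hrδ : closedBall y₁ r ⊆ ball y₁ δ := closedBall_subset_ball (by rw [hr]; linarith)
  set D := closedBall y₁ r with hD
  have hDc : IsCompact D := isCompact_closedBall _ _
  have hDV : D ⊆ V := hrδ.trans hball
  set s := r / 24 with hs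
  have hs0 : 0 < s := by positivity
  -- `A c⁻¹` near the image of the ball
  obtain ⟨ρ₁, hρ₁, hρ₁V⟩ :=
    (hDc.image_of_continuousOn ((hA.continuousOn_apply c).mono hDV)).exists_cthickening_subset_open
      hA.isOpen (image_subset_iff.2 fun w hw => hA.mapsTo c (hDV hw))
  set K₁ := cthickening ρ₁ (A c '' D) with hK₁
  have hK₁c : IsCompact K₁ :=
    (hDc.image_of_continuousOn ((hA.continuousOn_apply c).mono hDV)).cthickening
  obtain ⟨θ₁, hθ₁, hu₁⟩ := Metric.uniformContinuousOn_iff.1
    (hK₁c.uniformContinuousOn_of_continuous ((hA.continuousOn_apply c⁻¹).mono hρ₁V)) s hs0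
  set σ := min ρ₁ (θ₁ / 2) with hσ
  have hσ0 : 0 < σ := by positivity
  -- `A c` near the ball
  obtain ⟨ρ₂, hρ₂, hρ₂V⟩ := hDc.exists_cthickening_subset_open hA.isOpen hDV
  obtain ⟨θ₂, hθ₂, hu₂⟩ := Metric.uniformContinuousOn_iff.1
    (hDc.cthickening.uniformContinuousOn_of_continuous
      ((hA.continuousOn_apply c).mono hρ₂V)) σ hσ0
  set ε := min (min s θ₂) ρ₂ with hε
  have hε0 : 0 < ε := by positivity
  obtain ⟨W₁, hW₁, hW₁o, h1W₁⟩ := mem_nhds_iff.1 (hA.eventually_small hDc hDV hε0)
  obtain ⟨W₂, hW₂, hW₂o, hcW₂⟩ := mem_nhds_iff.1 hW₀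
  obtain ⟨H, hH⟩ := ProfiniteGrp.exist_openNormalSubgroup_sub_open_nhds_of_one
    (hW₁o.inter (hW₂o.preimage (continuous_const_mul c)))
    (show (1 : K) ∈ W₁ ∧ c * 1 ∈ W₂ by rw [mul_one]; exact ⟨h1W₁, hcW₂⟩)
  refine hx ⟨H, interior_maximal (t := ball y₁ (r / 2)) ?_ isOpen_ball
    (mem_ball_self (by positivity))⟩
  intro z hz
  have hzV : z ∈ V := hDV (mem_closedBall.2 (by linarith [mem_ball.1 hz]))
  refine ⟨hzV, fun g hg => ?_⟩
  let S : Subgroup K :=
    { carrier := {k | A k z = z}
      one_mem' := hA.one z hzV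
      mul_mem' := fun {a b} ha hb => by
        show A (a * b) z = z
        rw [hA.mul a b z hzV, show A b z = z from hb]
        exact ha
      inv_mem' := fun {a} ha => by
        show A a⁻¹ z = z
        conv_lhs => rw [← show A a z = z from ha]
        exact hA.inv_apply a hzV }
  refine mem_of_forall_proP (S := S) (isClosed_eq (hA.continuous_orbit hzV) continuous_const) g
    fun p hp x hxg hPp => ?_
  set P : Subgroup K := (Subgroup.zpowers x).topologicalClosure with hP
  have hxH : x ∈ H :=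
    (Subgroup.topologicalClosure_minimal _ (Subgroup.zpowers_le.2 hg)
      H.toOpenSubgroup.isClosed) hxg
  have hPH : ∀ k : P, (k : K) ∈ H := fun k =>
    (Subgroup.topologicalClosure_minimal _ (Subgroup.zpowers_le.2 hxH)
      H.toOpenSubgroup.isClosed) k.2
  have : CompactSpace P :=
    isCompact_iff_compactSpace.1 (Subgroup.isClosed_topologicalClosure _).isCompact
  have : TotallyDisconnectedSpace P := Subtype.totallyDisconnectedSpace
  set x' : P := ⟨x, Subgroup.le_topologicalClosure _ (Subgroup.mem_zpowers x)⟩ with hx'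
  have hdense : Dense (Subgroup.zpowers x' : Set P) := by
    intro w
    rw [closure_subtype]
    have e : (Subtype.val '' (Subgroup.zpowers x' : Set P)) = (Subgroup.zpowers x : Set K) := by
      ext u
      simp only [mem_image, SetLike.mem_coe, Subgroup.mem_zpowers_iff]
      constructor
      · rintro ⟨_, ⟨k, rfl⟩, rfl⟩
        exact ⟨k, by simp [x']⟩
      · rintro ⟨k, rfl⟩
        exact ⟨x' ^ k, ⟨k, rfl⟩, by simp [x']⟩
    rw [e]
    exact w.2
  let : MeasurableSpace P := borel P
  have : BorelSpace P := ⟨rfl⟩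
  set ν : Measure P := (Measure.haarMeasure (⊤ : TopologicalSpace.PositiveCompacts P)).inv with hν
  have : IsProbabilityMeasure ν := by
    refine ⟨?_⟩
    rw [hν, Measure.inv_apply, Set.inv_univ]
    simpa using Measure.haarMeasure_self (K₀ := (⊤ : TopologicalSpace.PositiveCompacts P))
  have hAP : IsAction (fun k : P => A k) V :=
    ⟨hA.isOpen, fun k => hA.mapsTo k, hA.one, fun g h => hA.mul g h,
      hA.continuousOn.comp ((continuous_subtype_val.comp continuous_fst).prodMk
        continuous_snd).continuousOn fun p hp => ⟨trivial, hp.2⟩⟩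
  -- the average over the coset
  set φ : E → E := fun y => ∫ k : P, A (c * k) y ∂ν with hφ
  have hint : ∀ y ∈ V, Integrable (fun k : P => A (c * k) y) ν := fun y hy =>
    ((hA.continuous_orbit hy).comp ((continuous_const_mul c).comp
      continuous_subtype_val)).integrable_of_hasCompactSupport (HasCompactSupport.of_compactSpace _)
  have hcont : ContinuousOn (fun q : P × E => A (c * q.1) q.2) (univ ×ˢ V) :=
    hA.continuousOn.comp (((continuous_const_mul c).comp
      (continuous_subtype_val.comp continuous_fst)).prodMk continuous_snd).continuousOn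
      fun q hq => ⟨trivial, hq.2⟩
  have hφosc : Tendsto (oscEnergy μ φ (ball y₁ δ)) (𝓝[>] 0) (𝓝 0) :=
    tendsto_oscEnergy_average μ hcont ν hρ₀ hρ₀δ hδ'V
      (fun k ρ h0 h1 => hbd _ (hW₂ (hH (hPH k)).2) ρ h0 h1)
      fun k => hA.tendsto_oscEnergy μ hosc hδ'V _ (show δ ≤ δ' by linarith)
  have hsmall : ∀ k : P, ∀ y ∈ D, dist (A k y) y < ε := fun k y hy => hW₁ (hH (hPH k)).1 y hy
  have hφc : ∀ y ∈ D, φ y ∈ K₁ ∧ dist (φ y) (A c y) ≤ σ := by
    intro y hy
    have hd : dist (φ y) (A c y) ≤ σ := by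
      have e : φ y - A c y = ∫ k : P, (A (c * k) y - A c y) ∂ν := by
        rw [integral_sub (hint y (hDV hy)) (integrable_const _)]
        simp [hφ]
      rw [dist_eq_norm, e]
      have hb : ∀ k : P, ‖A (c * k) y - A c y‖ ≤ σ := fun k => by
        rw [hA.mul c k y (hDV hy), ← dist_eq_norm]
        refine (hu₂ _ (mem_cthickening_of_dist_le _ y _ _ hy ?_) y
          (self_subset_cthickening _ hy) ?_).le
        · exact (hsmall k y hy).le.trans (min_le_right _ _)
        · exact (hsmall k y hy).trans_le ((min_le_left _ _).trans (min_le_right _ _))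
      simpa using norm_integral_le_of_norm_le_const (μ := ν) (Eventually.of_forall hb)
    exact ⟨mem_cthickening_of_dist_le _ (A c y) _ _ (mem_image_of_mem _ hy)
      (hd.trans (min_le_left _ _)), hd⟩
  have hφcont : ContinuousOn φ D :=
    continuousOn_average hA.isOpen hcont ν |>.mono hDV
  have hinvc : ∀ u ∈ V, A c (A c⁻¹ u) = u := fun u hu => by
    rw [← hA.mul _ _ u hu, mul_inv_cancel, hA.one u hu]
  have hfix := newman_thin hAP (g := x') hdense hp hPp (c := y₁) (R := r) hs0 hDV
    (fun k w hw => by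
      rw [← dist_eq_norm]
      exact (hsmall k w hw).le.trans ((min_le_left _ _).trans (min_le_left _ _)))
    (ψ := fun y => A c⁻¹ (φ y))
    ((hA.continuousOn_apply c⁻¹).comp hφcont fun y hy => hρ₁V (hφc y hy).1)
    (fun y hy => by
      have h1 : A c y ∈ K₁ := self_subset_cthickening _ (mem_image_of_mem _ hy)
      have h2 := (hu₁ _ (hφc y hy).1 _ h1 ((hφc y hy).2.trans_lt
        ((min_le_right _ _).trans_lt (half_lt_self hθ₁)))).le
      rwa [hA.inv_apply c (hDV hy), dist_eq_norm] at h2)
    (fun k y hy _ => by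
      show A c⁻¹ (φ (A k y)) = A c⁻¹ (φ y)
      congr 1
      show ∫ h : P, A (c * h) (A k y) ∂ν = ∫ h : P, A (c * h) y ∂ν
      have e : ∀ h : P, A (c * h) (A k y) = A (c * (h * k : P)) y := fun h => by
        rw [← hA.mul _ _ y (hDV hy), Subgroup.coe_mul, mul_assoc]
      simp only [e]
      exact integral_mul_right_eq_self (fun h : P => A (c * h) y) k)
    (fun y hy hfy => by
      have e : φ y = A c y := by
        have : ∀ k : P, A (c * k) y = A c y := fun k => by rw [hA.mul c k y (hDV hy), hfy k]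
        simp [hφ, this]
      rw [e]
      exact hA.inv_apply c (hDV hy))
    (fun O hO hO0 hOr => by
      obtain ⟨w, hw⟩ := hO0
      set O' : Set E := V ∩ A c⁻¹ ⁻¹' O
      have hO'o : IsOpen O' := (hA.continuousOn_apply c⁻¹).isOpen_inter_preimage hA.isOpen hO
      have hwV : w ∈ V := hDV (ball_subset_closedBall (hOr hw))
      have hO'0 : O'.Nonempty := ⟨A c w, hA.mapsTo c hwV, by
        rw [mem_preimage, hA.inv_apply c hwV]; exact hw⟩
      obtain ⟨z', hz', hzt⟩ : ∃ z' ∈ O', IsThin (closedBall y₁ r ∩ φ ⁻¹' {z'}) := by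
        by_contra! h
        exact (hO'o.measure_pos μ hO'0).ne'
          (measure_mono_null h (ae_iff.1 (ae_thin_osc μ (show r < δ by rw [hr]; linarith) hφosc)))
      refine ⟨A c⁻¹ z', hz'.2, hzt.mono fun y hy => ⟨hy.1, ?_⟩⟩
      have e := congrArg (A c) (show A c⁻¹ (φ y) = A c⁻¹ z' from hy.2)
      rwa [hinvc _ (hρ₁V (hφc y hy.1).1), hinvc _ hz'.1] at e)
  exact hfix z (mem_ball.2 (by rw [hs]; linarith [mem_ball.1 hz])) x'

end Vale.Agent.P228
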