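import Vale.Agent.P228.NewmanThin
import Vale.Agent.P228.OscAverage
import Vale.Agent.P228.OscDominated

/-!
# The fixed set of a locally trivial action of small oscillation energy grows across spheres
-/

namespace Vale.Agent.P228

open Set Metric MeasureTheory Filter Function
open scoped Topology RealInnerProductSpace ENNReal

variable {E : Type*} [NormedAddCommGroup E] [InnerProductSpace ℝ E] [FiniteDimensional ℝ E]
variable [MeasurableSpace E] [BorelSpace E]
variable {H : Type*} [Group H] [TopologicalSpace H] [IsTopologicalGroup H] [CompactSpace H]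
  [TotallyDisconnectedSpace H] [MeasurableSpace H] [BorelSpace H]
variable {A : H → E → E} {V : Set E}

/-- On a compact set of points of small energy almost every fibre is thin. -/
theorem ae_thin_of_smallOsc (μ : Measure E) [μ.IsAddHaarMeasure] {f : E → E} {B : Set E}
    (hB : IsCompact B) (hf : ∀ x ∈ B, SmallOsc μ f x) :
    ∀ᵐ z ∂μ, IsThin (B ∩ f ⁻¹' {z}) := by
  refine hB.induction_on (p := fun s => ∀ᵐ z ∂μ, IsThin (s ∩ f ⁻¹' {z})) ?_ ?_ ?_ ?_
  · exact Eventually.of_forall fun z a => by simp
  · intro s t hst ht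
    filter_upwards [ht] with z hz using hz.mono (inter_subset_inter_left _ hst)
  · intro s t hs ht
    filter_upwards [hs, ht] with z h1 h2 a
    rw [union_inter_distrib_right, image_union]
    exact measure_union_null (h1 a) (h2 a)
  · intro x hx
    obtain ⟨r, hr, h⟩ := hf x hx
    exact ⟨closedBall x (r / 2), mem_nhdsWithin_of_mem_nhds (closedBall_mem_nhds x (by linarith)),
      ae_thin_osc μ (by linarith) h⟩

/-- The fixed set of a locally trivial action of small energy grows across spheres. -/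
theorem fixed_near_sphere_osc (hA : IsAction A V) {g : H} (hg : Dense (Subgroup.zpowers g : Set H))
    {p : ℕ} (hp : p.Prime) (hH : IsOrbitPrime p H) (ν : Measure H) [IsProbabilityMeasure ν]
    [ν.IsMulRightInvariant] (μ : Measure E) [μ.IsAddHaarMeasure]
    (hosc : ∀ h, ∀ x ∈ V, SmallOsc μ (A h) x)
    (hloc : ∀ x ∈ V, ∃ N : OpenNormalSubgroup H, x ∈ fixInterior A V N)
    {p₀ : E} {d : ℝ} (hd : 0 < d) (hsub : closedBall p₀ d ⊆ V)
    (hfix : ∀ x ∈ closedBall p₀ d, ∀ h, A h x = x) :
    ∃ m, d < m ∧ ∀ z ∈ ball p₀ m, ∀ h, A h z = z := by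
  -- a shell in which directions are nearly kept
  set G : Set E :=
    {x ∈ V | x ∈ ball p₀ d ∨ ∀ h, 0 < ⟪A h x - p₀, x - p₀⟫} with hG
  have hGnhds : ∀ x ∈ closedBall p₀ d, G ∈ 𝓝 x := by
    intro x hx
    rcases (mem_closedBall.1 hx).lt_or_eq with hlt | he
    · filter_upwards [isOpen_ball.mem_nhds hlt, hA.isOpen.mem_nhds (hsub hx)] with y hy hyV
      exact ⟨hyV, Or.inl hy⟩
    · have hev : ∀ᶠ y in 𝓝 x, ∀ h ∈ (univ : Set H), 0 < ⟪A h y - p₀, y - p₀⟫ := by
        refine isCompact_univ.eventually_forall_of_forall_eventually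
          (P := fun y h => 0 < ⟪A h y - p₀, y - p₀⟫) fun h _ => ?_
        have hsw : ContinuousAt (fun z : E × H => A z.2 z.1) (x, h) :=
          (hA.continuousOn.continuousAt ((isOpen_univ.prod hA.isOpen).mem_nhds
            (show (h, x) ∈ univ ×ˢ V from ⟨trivial, hsub hx⟩))).comp
              (x := (x, h)) (f := fun z : E × H => (z.2, z.1)) continuous_swap.continuousAt
        refine ((hsw.sub continuousAt_const).inner
          (continuousAt_fst.sub continuousAt_const)).eventually (lt_mem_nhds ?_)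
        simp only [Pi.sub_apply]
        rw [hfix x hx h, real_inner_self_eq_norm_sq, ← dist_eq_norm, he]
        positivity
      filter_upwards [hev, hA.isOpen.mem_nhds (hsub hx)] with y hy hyV
      exact ⟨hyV, Or.inr fun h => hy h trivial⟩
  obtain ⟨δ, hδ, hδsub⟩ := (isCompact_closedBall p₀ d).exists_cthickening_subset_open
    isOpen_interior fun x hx => mem_interior_iff_mem_nhds.2 (hGnhds x hx)
  rw [cthickening_closedBall hδ.le hd.le] at hδsub
  set R := δ + d with hR
  have hdR : d < R := by linarith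
  have hR0 : 0 < R := hd.trans hdR
  have hRG : closedBall p₀ R ⊆ G := hδsub.trans interior_subset
  have hRV : closedBall p₀ R ⊆ V := fun x hx => (hRG hx).1
  have hRdir : ∀ x ∈ closedBall p₀ R, d ≤ dist x p₀ → ∀ h, 0 < ⟪A h x - p₀, x - p₀⟫ :=
    fun x hx hdx => (hRG hx).2.resolve_left fun h => absurd (mem_ball.1 h) (not_lt.2 hdx)
  have hout : ∀ x ∈ V, d < dist x p₀ → ∀ h, d < dist (A h x) p₀ := by
    intro x hx hdx h
    by_contra hle
    have hj : A h x ∈ closedBall p₀ d := mem_closedBall.2 (not_lt.1 hle)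
    have e := hfix _ hj h⁻¹
    rw [hA.inv_apply h hx] at e
    rw [← e, mem_closedBall] at hj
    linarith
  set B : E → E := fun x => ∫ h, (A h x - p₀) ∂ν with hB
  set M : E → ℝ := fun x => ∫ h, ‖A h x - p₀‖ ∂ν with hM
  set Φ : E → E := fun x => p₀ + (M x * ‖B x‖⁻¹) • B x with hΦ
  have hint : ∀ x ∈ V, Integrable (fun h => A h x - p₀) ν := fun x hx =>
    (hA.integrable_orbit ν hx).sub (integrable_const _)
  have hid : ∀ x, (∀ h, A h x = x) → Φ x = x := by
    intro x hx
    have hBx : B x = x - p₀ := by simp [B, hx]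
    have hMx : M x = ‖x - p₀‖ := by simp [M, hx]
    by_cases h : x = p₀
    · subst h; simp [Φ, hBx, hMx]
    · simp [Φ, hBx, hMx, sub_ne_zero.2 h]
  have hB0 : ∀ x ∈ closedBall p₀ R, d ≤ dist x p₀ →
      0 < ⟪B x, x - p₀⟫ ∧ B x ≠ 0 := by
    intro x hx hdx
    have hxV := hRV hx
    obtain ⟨a, ha, hale⟩ := isCompact_univ.exists_forall_le'
      (f := fun h => ⟪A h x - p₀, x - p₀⟫)
      (((hA.continuous_orbit hxV).sub continuous_const).inner continuous_const).continuousOn
      (a := (0 : ℝ)) fun h _ => hRdir x hx hdx h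
    have e : ⟪B x, x - p₀⟫ = ∫ h, ⟪A h x - p₀, x - p₀⟫ ∂ν := by
      rw [hB, real_inner_comm, ← integral_inner (hint x hxV)]
      simp only [real_inner_comm (x - p₀)]
    have hpos : 0 < ⟪B x, x - p₀⟫ := by
      rw [e]
      refine lt_of_lt_of_le ha ?_
      calc a = ∫ _h, a ∂ν := by simp
        _ ≤ _ := integral_mono (integrable_const _) ((hint x hxV).inner_const _)
            fun h => hale h trivial
    exact ⟨hpos, fun h => by simp [h] at hpos⟩
  have hnorm : ∀ x ∈ closedBall p₀ R, d ≤ dist x p₀ → ‖Φ x - p₀‖ = M x := by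
    intro x hx hdx
    have : 0 ≤ M x := integral_nonneg fun h => norm_nonneg _
    simp [Φ, norm_smul, abs_of_nonneg this, (hB0 x hx hdx).2]
  have hΦinv : ∀ k, ∀ x ∈ V, Φ (A k x) = Φ x := by
    intro k x hx
    have e1 : B (A k x) = B x := by
      simp only [hB, ← hA.mul _ k x hx]
      exact integral_mul_right_eq_self (fun h => A h x - p₀) k
    have e2 : M (A k x) = M x := by
      simp only [hM, ← hA.mul _ k x hx]
      exact integral_mul_right_eq_self (fun h => ‖A h x - p₀‖) k
    simp [Φ, e1, e2]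
  have hΦosc : ∀ x ∈ closedBall p₀ R, ContinuousAt Φ x ∧ SmallOsc μ Φ x := by
    intro x hx
    have hxV := hRV hx
    obtain ⟨N, hN⟩ := hloc x hxV
    have : Finite (H ⧸ N.toSubgroup) :=
      Subgroup.quotient_finite_of_isOpen N.toSubgroup N.toOpenSubgroup.isOpen
    have := Fintype.ofFinite (H ⧸ N.toSubgroup)
    obtain ⟨e₀, he₀, he₀N⟩ := nhds_basis_ball.mem_iff.1 (isOpen_interior.mem_nhds hN)
    have hfi : ∀ w ∈ ball x e₀, w ∈ fixInterior A V N := fun w hw => he₀N hw
    have hcos : ∀ (h : H), ∀ w ∈ ball x e₀,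
        A h w = A (QuotientGroup.mk h : H ⧸ N.toSubgroup).out w := by
      intro h w hw
      set q : H ⧸ N.toSubgroup := QuotientGroup.mk h with hq
      have hn : q.out⁻¹ * h ∈ N := QuotientGroup.eq.1 (q.out_eq'.trans hq)
      conv_lhs => rw [show h = q.out * (q.out⁻¹ * h) by rw [mul_inv_cancel_left]]
      rw [hA.mul _ _ w (fixInterior_subset N (hfi w hw)), fixInterior_fixed (hfi w hw) hn]
    set S : E → E → ℝ≥0∞ := fun y y' =>
      ∑ q : H ⧸ N.toSubgroup, edist (A q.out y) (A q.out y')
    have hBd : ∀ y ∈ ball x e₀, ∀ y' ∈ ball x e₀,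
        edist (B y) (B y') ≤ S y y' ∧ edist (M y) (M y') ≤ S y y' := by
      intro y hy y' hy'
      have hyV := fixInterior_subset N (hfi y hy)
      have hy'V := fixInterior_subset N (hfi y' hy')
      have hterm : ∀ h, ‖A h y - A h y'‖ₑ ≤ S y y' := fun h => by
        rw [← edist_eq_enorm_sub, hcos h y hy, hcos h y' hy']
        exact Finset.single_le_sum (f := fun q : H ⧸ N.toSubgroup =>
          edist (A q.out y) (A q.out y')) (fun _ _ => zero_le) (Finset.mem_univ _)
      constructor
      · rw [edist_eq_enorm_sub, hB]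
        rw [← integral_sub (hint y hyV) (hint y' hy'V)]
        refine (enorm_integral_le_lintegral_enorm _).trans
          ((lintegral_mono (g := fun _ => S y y') fun h => ?_).trans_eq (by simp))
        simpa using hterm h
      · rw [edist_eq_enorm_sub, hM]
        rw [← integral_sub (hint y hyV).norm (hint y' hy'V).norm]
        refine (enorm_integral_le_lintegral_enorm _).trans
          ((lintegral_mono (g := fun _ => S y y') fun h => ?_).trans_eq (by simp))
        refine le_trans ?_ (hterm h)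
        rw [← ofReal_norm, ← ofReal_norm, Real.norm_eq_abs]
        exact ENNReal.ofReal_le_ofReal ((abs_norm_sub_norm_le _ _).trans (by simp))
    obtain ⟨e₁, he₁, L, hdom⟩ : ∃ e₁ > 0, ∃ L : NNReal, ∀ y ∈ ball x e₁, ∀ y' ∈ ball x e₁,
        edist (Φ y) (Φ y') ≤ L * S y y' := by
      by_cases hdx : dist x p₀ < d
      · obtain ⟨e, he, hsub'⟩ := Metric.mem_nhds_iff.1 (inter_mem (isOpen_ball.mem_nhds hdx)
          (ball_mem_nhds x he₀))
        refine ⟨e, he, 1, fun y hy y' hy' => ?_⟩
        have hy1 := fun h => hfix y (mem_closedBall.2 (mem_ball.1 (hsub' hy).1).le) h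
        have hy2 := fun h => hfix y' (mem_closedBall.2 (mem_ball.1 (hsub' hy').1).le) h
        rw [hid y hy1, hid y' hy2, ENNReal.coe_one, one_mul]
        calc edist y y' = edist (A ((1 : H) : H ⧸ N.toSubgroup).out y)
              (A ((1 : H) : H ⧸ N.toSubgroup).out y') := by rw [hy1, hy2]
          _ ≤ S y y' := Finset.single_le_sum (f := fun q : H ⧸ N.toSubgroup =>
              edist (A q.out y) (A q.out y')) (fun _ _ => zero_le) (Finset.mem_univ _)
      · have hne : B x ≠ 0 := (hB0 x hx (not_lt.1 hdx)).2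
        have hG' : ContDiffAt ℝ 1 (fun u : E × ℝ => p₀ + (u.2 * ‖u.1‖⁻¹) • u.1) (B x, M x) :=
          contDiffAt_const.add ((contDiffAt_snd.mul ((contDiffAt_fst.norm ℝ hne).inv
            (norm_ne_zero_iff.2 hne))).smul contDiffAt_fst)
        obtain ⟨L, T, hT, hLT⟩ := hG'.exists_lipschitzOnWith
        have hc : ContinuousAt (fun y => (B y, M y)) x := by
          have hBc : ContinuousOn (fun y => ∫ h, (A h y - p₀) ∂ν) V :=
            continuousOn_average hA.isOpen (F := fun h y => A h y - p₀)
              (hA.continuousOn.sub continuousOn_const) ν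
          have hMc : ContinuousAt M x := by
            refine EMetric.tendsto_nhds.2 fun ε hε => ?_
            have hS : Tendsto (fun y => S y x) (𝓝 x) (𝓝 0) := by
              have := tendsto_finsetSum Finset.univ (f := fun (q : H ⧸ N.toSubgroup) y =>
                edist (A q.out y) (A q.out x)) (a := fun _ => (0 : ℝ≥0∞)) (x := 𝓝 x) fun q _ =>
                  tendsto_iff_edist_tendsto_0.1 (hA.continuousAt_apply q.out hxV)
              simpa using this
            filter_upwards [ball_mem_nhds x he₀, hS.eventually_lt_const hε] with y hy hy'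
            exact ((hBd y hy x (mem_ball_self he₀)).2).trans_lt hy'
          exact ((hBc.continuousAt (hA.isOpen.mem_nhds hxV)).prodMk hMc :)
        obtain ⟨e, he, hsub'⟩ := Metric.mem_nhds_iff.1 (inter_mem (hc.preimage_mem_nhds hT)
          (ball_mem_nhds x he₀))
        refine ⟨e, he, L, fun y hy y' hy' => ?_⟩
        refine (hLT (hsub' hy).1 (hsub' hy').1).trans (mul_le_mul' le_rfl ?_)
        have h2 := hBd y (hsub' hy).2 y' (hsub' hy').2
        rw [Prod.edist_eq]
        exact max_le h2.1 h2.2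
    refine ⟨?_, ?_⟩
    · refine EMetric.tendsto_nhds.2 fun ε hε => ?_
      have hS : Tendsto (fun y => (L : ℝ≥0∞) * S y x) (𝓝 x) (𝓝 0) := by
        have := tendsto_finsetSum Finset.univ (f := fun (q : H ⧸ N.toSubgroup) y =>
          edist (A q.out y) (A q.out x)) (a := fun _ => (0 : ℝ≥0∞)) (x := 𝓝 x) fun q _ =>
            tendsto_iff_edist_tendsto_0.1 (hA.continuousAt_apply q.out hxV)
        simpa [S] using ENNReal.Tendsto.const_mul (a := (L : ℝ≥0∞)) this (Or.inr ENNReal.coe_ne_top)
      filter_upwards [ball_mem_nhds x he₁, hS.eventually_lt_const hε] with y hy hy'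
      exact (hdom y hy x (mem_ball_self he₁)).trans_lt hy'
    · choose rq hrq hrt using fun q : H ⧸ N.toSubgroup => hosc q.out x hxV
      set r₀ := min (e₁ / 2) (Finset.univ.inf' Finset.univ_nonempty rq)
      have hr₀ : 0 < r₀ := lt_min (by linarith) ((Finset.lt_inf'_iff _).2 fun q _ => hrq q)
      refine ⟨r₀, hr₀, tendsto_oscEnergy_of_dominated μ (R := e₁)
        (by linarith [min_le_left (e₁ / 2) (Finset.univ.inf' Finset.univ_nonempty rq)])
        ENNReal.coe_ne_top hdom fun q => ?_⟩
      exact tendsto_of_tendsto_of_tendsto_of_le_of_le tendsto_const_nhds (hrt q) (fun _ => zero_le)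
        fun ρ => oscEnergy_mono μ _ (ball_subset_ball ((min_le_right _ _).trans
          (Finset.inf'_le _ (Finset.mem_univ q)))) ρ
  have hΦc : ContinuousOn Φ (closedBall p₀ R) := fun x hx =>
    (hΦosc x hx).1.continuousWithinAt
  -- radii
  obtain ⟨m₁, hm₁, hm₁le⟩ := (isCompact_univ.prod (isCompact_sphere p₀ R)).exists_forall_le'
    (f := fun q : H × E => dist (A q.1 q.2) p₀)
    (continuous_dist.comp_continuousOn
      ((hA.continuousOn.mono (prod_mono Subset.rfl (sphere_subset_closedBall.trans hRV))).prodMk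
        continuousOn_const)) (a := d) fun q hq =>
      hout q.2 (hRV (sphere_subset_closedBall hq.2)) (hdR.trans_eq (mem_sphere.1 hq.2).symm) q.1
  set R' := min R m₁ with hR'
  have hdR' : d < R' := lt_min hdR hm₁
  set C : Set E := Prod.snd '' ((univ ×ˢ closedBall p₀ R) ∩
    (fun q : H × E => dist (A q.1 q.2) p₀) ⁻¹' Ici R') with hC
  have hCc : IsCompact C :=
    ((isCompact_univ.prod (isCompact_closedBall p₀ R)).of_isClosed_subset
      ((continuous_dist.comp_continuousOn
        ((hA.continuousOn.mono (prod_mono Subset.rfl hRV)).prodMk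
          continuousOn_const)).preimage_isClosed_of_isClosed
          (isClosed_univ.prod isClosed_closedBall) isClosed_Ici) inter_subset_left).image
      continuous_snd
  have hCd : ∀ x ∈ C, x ∈ closedBall p₀ R ∧ d < dist x p₀ := by
    rintro x ⟨⟨h, y⟩, ⟨⟨-, hy⟩, hge⟩, rfl⟩
    refine ⟨hy, not_le.1 fun hle => ?_⟩
    have hge' : R' ≤ dist (A h y) p₀ := hge
    rw [hfix y (mem_closedBall.2 hle)] at hge'
    linarith
  obtain ⟨m₂, hm₂, hm₂le⟩ := hCc.exists_forall_le' (f := fun x => ‖Φ x - p₀‖)
    ((hΦc.mono fun x hx => (hCd x hx).1).sub continuousOn_const).norm (a := d) fun x hx => by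
      obtain ⟨hxR, hdx⟩ := hCd x hx
      rw [hnorm x hxR hdx.le]
      obtain ⟨a, ha, hale⟩ := isCompact_univ.exists_forall_le' (f := fun h => ‖A h x - p₀‖)
        ((hA.continuous_orbit (hRV hxR)).sub continuous_const).norm.continuousOn (a := d)
        fun h _ => by rw [← dist_eq_norm]; exact hout x (hRV hxR) hdx h
      refine lt_of_lt_of_le ha ?_
      calc a = ∫ _h, a ∂ν := by simp
        _ ≤ _ := integral_mono (integrable_const _) (hint x (hRV hxR)).norm
            fun h => hale h trivial
  set m := min m₂ R' with hm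
  refine ⟨m, lt_min hm₂ hdR', ?_⟩
  have hmR : m ≤ R := (min_le_right _ _).trans (min_le_left _ _)
  by_contra! hne
  obtain ⟨x₀, hx₀, h₀, hfx₀⟩ := hne
  set O : Set E := ball p₀ m ∩ (fun x => A h₀ x - x) ⁻¹' ({0}ᶜ) with hO
  have hOo : IsOpen O := ContinuousOn.isOpen_inter_preimage
    (((hA.continuousOn_apply h₀).mono
      ((ball_subset_closedBall.trans (closedBall_subset_closedBall hmR)).trans hRV)).sub
      continuousOn_id) isOpen_ball isOpen_compl_singleton
  obtain ⟨z, hz, hzt⟩ : ∃ z ∈ O, IsThin (closedBall p₀ R ∩ Φ ⁻¹' {z}) := by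
    by_contra! h
    exact (hOo.measure_pos μ ⟨x₀, hx₀, by simpa [sub_eq_zero] using hfx₀⟩).ne'
      (measure_mono_null h (ae_iff.1 (ae_thin_of_smallOsc μ (isCompact_closedBall p₀ R)
        fun x hx => (hΦosc x hx).2)))
  have hzm : dist z p₀ < m := hz.1
  have hsphC : ∀ x ∈ sphere p₀ R, x ∈ C := fun x hx =>
    ⟨(1, x), ⟨⟨trivial, sphere_subset_closedBall hx⟩, by
      show R' ≤ dist (A 1 x) p₀
      rw [hA.one x (hRV (sphere_subset_closedBall hx)), mem_sphere.1 hx]
      exact min_le_left _ _⟩, rfl⟩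
  have hfib : ∀ a ∈ closedBall p₀ R, Φ a = z → ∀ h, dist (A h a) p₀ < R' := by
    intro a ha haz h
    refine not_le.1 fun hge => ?_
    have h1 := hm₂le a ⟨(h, a), ⟨⟨trivial, ha⟩, hge⟩, rfl⟩
    rw [haz, ← dist_eq_norm] at h1
    linarith [min_le_left m₂ R']
  -- stable degree of `Φ` and of the group elements
  set zT := closedBall z ((m - dist z p₀) / 2) with hzT
  have hzTm : ∀ w ∈ zT, dist w p₀ < m := fun w hw => by
    linarith [dist_triangle w z p₀, mem_closedBall.1 hw]
  obtain ⟨η₁, hη₁, hdeg₁⟩ := degOne_radial (ι := Unit) (ψ := fun _ => Φ) hR0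
    (hΦc.comp continuousOn_snd fun q hq => hq.2) (isCompact_closedBall z _)
    (fun w hw => mem_ball.2 ((hzTm w hw).trans_le hmR))
    (fun _ x hx => by
      have hxb := sphere_subset_closedBall hx
      have hdx : d ≤ dist x p₀ := by rw [mem_sphere.1 hx]; exact hdR.le
      have hpos : 0 < M x := by
        rw [← hnorm x hxb hdx]
        exact hd.trans (hm₂.trans_le (hm₂le x (hsphC x hx)))
      rw [show Φ x - p₀ = (M x * ‖B x‖⁻¹) • B x by simp [Φ], real_inner_smul_left]
      exact mul_pos (mul_pos hpos (inv_pos.2 (norm_pos_iff.2 (hB0 x hxb hdx).2)))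
        (hB0 x hxb hdx).1)
    fun _ w hw x hx => by
      rw [← dist_eq_norm]
      exact ((hzTm w hw).trans_le (min_le_left _ _)).trans_le (hm₂le x (hsphC x hx))
  set F : Set E := closedBall p₀ R ∩ Φ ⁻¹' {z} with hF
  have hFc : IsCompact F := (isCompact_closedBall p₀ R).of_isClosed_subset
    (hΦc.preimage_isClosed_of_isClosed isClosed_closedBall isClosed_singleton) inter_subset_left
  have hFin : F ⊆ ball p₀ R' := fun a ha => mem_ball.2 (by
    have := hfib a ha.1 ha.2 1
    rwa [hA.one a (hRV ha.1)] at this)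
  obtain ⟨W, hWo, hFW, hWsub, hWc⟩ :=
    exists_open_between_and_isCompact_closure hFc isOpen_ball hFin
  obtain ⟨η₂, hη₂, hdeg₂⟩ := degOne_radial (ψ := A) hR0
    (hA.continuousOn.mono (prod_mono Subset.rfl hRV)) hWc
    (fun w hw => ball_subset_ball (min_le_left _ _) (hWsub hw))
    (fun h x hx => hRdir x (sphere_subset_closedBall hx)
      (by rw [mem_sphere.1 hx]; exact hdR.le) h)
    fun h w hw x hx => by
      rw [← dist_eq_norm, ← dist_eq_norm]
      exact ((mem_ball.1 (hWsub hw)).trans_le (min_le_right _ _)).trans_le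
        (hm₁le (h, x) ⟨trivial, hx⟩)
  set η := min (min η₁ η₂) ((m - dist z p₀) / 2) with hη
  have hη0 : 0 < η := lt_min (lt_min hη₁ hη₂) (by linarith)
  obtain ⟨x, hx, hxz, hxfix⟩ := exists_fixed_in_fibre hA hg hp hH (isCompact_closedBall p₀ R) hRV
    hΦc (z := z) hη0
    (fun Ψ h1 h2 w hw h3 => hdeg₁ () Ψ h1
      (fun y hy => (h2 y hy).trans ((min_le_left _ _).trans (min_le_left _ _))) w
      (mem_closedBall.2 ((mem_closedBall.1 hw).trans (min_le_right _ _))) h3)
    (fun h y hy _ => hΦinv h y (hRV hy))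
    (fun a ha haz h => mem_closedBall.2 ((hfib a ha haz h).le.trans (min_le_left _ _)))
    (fun a ha haz => interior_maximal ball_subset_closedBall isOpen_ball
      (ball_subset_ball (min_le_left _ _) (hFin ⟨ha, haz⟩)))
    hWo (fun a ha haz => hFW ⟨ha, haz⟩)
    (fun h Ψ h1 h2 w hw h3 => hdeg₂ h Ψ h1
      (fun y hy => (h2 y hy).trans ((min_le_left _ _).trans (min_le_right _ _))) w
      (subset_closure hw) h3) hzt
  rw [hid x hxfix] at hxz
  subst hxz
  exact hz.2 (by simp [hxfix h₀])

end Vale.Agent.P228
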