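import Vale.Agent.P228.HolSpread
import Vale.Agent.P228.OscLocal
import Vale.Agent.P228.OscSphere

/-!
# The fixed set of an action of small oscillation energy is closed
-/

namespace Vale.Agent.P228

open Set Metric MeasureTheory Filter Function
open scoped Topology ENNReal

variable {E : Type*} [NormedAddCommGroup E] [InnerProductSpace ℝ E] [FiniteDimensional ℝ E]
variable [MeasurableSpace E] [BorelSpace E]
variable {K : Type*} [Group K] [TopologicalSpace K] [IsTopologicalGroup K] [CompactSpace K]
  [TotallyDisconnectedSpace K]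
variable {A : K → E → E} {V : Set E}

/-- Across the boundary of a fixed ball. -/
theorem IsAction.fixed_beyond_ball_osc (hA : IsAction A V) (μ : Measure E) [μ.IsAddHaarMeasure] (hosc : ∀ g, ∀ x ∈ V, SmallOsc μ (A g) x)
    {p₀ : E} {d : ℝ} (hd : 0 < d) (hsub : closedBall p₀ d ⊆ V)
    (hfix : ∀ x ∈ closedBall p₀ d, ∀ h, A h x = x) :
    ∃ m, d < m ∧ ∀ z ∈ ball p₀ m, ∀ h, A h z = z := by
  classical
  have hloc := hA.locally_fixed_osc μ hosc
  obtain ⟨N, hN⟩ := exists_fixInterior_of_isCompact (A := A) (V := V) (isCompact_closedBall p₀ d)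
    fun x hx => mem_iUnion.2 (hloc x (hsub hx))
  obtain ⟨δ, hδ, hδN⟩ := (isCompact_closedBall p₀ d).exists_cthickening_subset_open
    isOpen_interior hN
  rw [cthickening_closedBall hδ.le hd.le] at hδN
  have : Finite (K ⧸ N.toSubgroup) :=
    Subgroup.quotient_finite_of_isOpen N.toSubgroup N.toOpenSubgroup.isOpen
  have := Fintype.ofFinite (K ⧸ N.toSubgroup)
  have hcos : ∀ q : K ⧸ N.toSubgroup, ∃ m, d < m ∧ m ≤ δ + d ∧ ∀ z ∈ ball p₀ m, ∀ x : K,
      QuotientGroup.mk x = q →
      (∃ p : ℕ, p.Prime ∧ IsOrbitPrime p (Subgroup.zpowers x).topologicalClosure) →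
        A x z = z := by
    intro q
    by_cases hex : ∃ x : K, QuotientGroup.mk x = q ∧
        ∃ p : ℕ, p.Prime ∧ IsOrbitPrime p (Subgroup.zpowers x).topologicalClosure
    swap
    · exact ⟨δ + d, by linarith, le_rfl, fun z _ x hx hp => absurd ⟨x, hx, hp⟩ hex⟩
    obtain ⟨x₀, hx₀, p, hp, hPp⟩ := hex
    set P : Subgroup K := (Subgroup.zpowers x₀).topologicalClosure with hP
    have : CompactSpace P :=
      isCompact_iff_compactSpace.1 (Subgroup.isClosed_topologicalClosure _).isCompact
    have : TotallyDisconnectedSpace P := Subtype.totallyDisconnectedSpace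
    set x' : P := ⟨x₀, Subgroup.le_topologicalClosure _ (Subgroup.mem_zpowers x₀)⟩ with hx'
    have hdense : Dense (Subgroup.zpowers x' : Set P) := by
      intro w
      rw [closure_subtype]
      have e : (Subtype.val '' (Subgroup.zpowers x' : Set P)) =
          (Subgroup.zpowers x₀ : Set K) := by
        ext u
        simp only [mem_image, SetLike.mem_coe, Subgroup.mem_zpowers_iff]
        constructor
        · rintro ⟨_, ⟨k, rfl⟩, rfl⟩
          exact ⟨k, by simp [x']⟩
        · rintro ⟨k, rfl⟩
          exact ⟨x' ^ k, ⟨k, rfl⟩, by simp [x']⟩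
      rw [e]
      exact w.2
    let : MeasurableSpace P := borel P
    have : BorelSpace P := ⟨rfl⟩
    set ν : Measure P :=
      (Measure.haarMeasure (⊤ : TopologicalSpace.PositiveCompacts P)).inv with hν
    have : IsProbabilityMeasure ν := by
      refine ⟨?_⟩
      rw [hν, Measure.inv_apply, Set.inv_univ]
      simpa using Measure.haarMeasure_self (K₀ := (⊤ : TopologicalSpace.PositiveCompacts P))
    have hAP : IsAction (fun k : P => A k) V :=
      ⟨hA.isOpen, fun k => hA.mapsTo k, hA.one, fun g h => hA.mul g h,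
        hA.continuousOn.comp ((continuous_subtype_val.comp continuous_fst).prodMk
          continuous_snd).continuousOn fun p hp => ⟨trivial, hp.2⟩⟩
    obtain ⟨m, hm, hmfix⟩ := fixed_near_sphere_osc hAP (g := x') hdense hp hPp ν μ
      (fun h => hosc h)
      (fun y hy => by
        obtain ⟨M, hM⟩ := hloc y hy
        obtain ⟨M', hM'⟩ := ProfiniteGrp.exist_openNormalSubgroup_sub_open_nhds_of_one
          (M.toOpenSubgroup.isOpen.preimage (continuous_subtype_val : Continuous ((↑) : P → K)))
          M.toSubgroup.one_mem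
        exact ⟨M', interior_maximal
          (s := {w ∈ V | ∀ k ∈ M', (fun k : P => A k) k w = w}) (t := fixInterior A V M)
          (fun w hw => ⟨fixInterior_subset M hw, fun k hk => fixInterior_fixed hw (hM' hk)⟩)
          isOpen_interior hM⟩)
      hd hsub (fun w hw h => hfix w hw h)
    refine ⟨min m (δ + d), lt_min hm (by linarith), min_le_right _ _, fun z hz x hx _ => ?_⟩
    have hzN : z ∈ fixInterior A V N :=
      hδN (ball_subset_closedBall (ball_subset_ball (min_le_right _ _) hz))
    have hn : x₀⁻¹ * x ∈ N := QuotientGroup.eq.1 (hx₀.trans hx.symm)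
    conv_lhs => rw [show x = x₀ * (x₀⁻¹ * x) by rw [mul_inv_cancel_left]]
    rw [hA.mul _ _ z (fixInterior_subset N hzN), fixInterior_fixed hzN hn]
    exact hmfix z (ball_subset_ball (min_le_left _ _) hz) x'
  choose m hm hmδ hmfix using hcos
  set m₀ := Finset.univ.inf' Finset.univ_nonempty m with hm₀
  refine ⟨m₀, (Finset.lt_inf'_iff _).2 fun q _ => hm q, fun z hz g => ?_⟩
  have hzV : z ∈ V := by
    refine fixInterior_subset N (hδN (ball_subset_closedBall (ball_subset_ball ?_ hz)))
    exact (Finset.inf'_le m (Finset.mem_univ (QuotientGroup.mk g))).trans (hmδ _)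
  let S : Subgroup K :=
    { carrier := {k | A k z = z}
      one_mem' := hA.one z hzV
      mul_mem' := fun {a b} ha hb => by
        show A (a * b) z = z
        rw [hA.mul a b z hzV, show A b z = z from hb]
        exact ha
      inv_mem' := fun {a} ha => by
        show A a⁻¹ z = z
        conv_lhs => rw [← show A a z = z from ha]
        exact hA.inv_apply a hzV }
  exact mem_of_forall_proP (S := S) (isClosed_eq (hA.continuous_orbit hzV) continuous_const) g
    fun p hp x _ hPp => hmfix (QuotientGroup.mk x) z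
      (ball_subset_ball (Finset.inf'_le m (Finset.mem_univ _)) hz) x rfl ⟨p, hp, hPp⟩

/-- An action fixing a nonempty open subset of a connected open set fixes all of it. -/
theorem IsAction.spread_osc (hA : IsAction A V) (μ : Measure E) [μ.IsAddHaarMeasure] (hosc : ∀ g, ∀ x ∈ V, SmallOsc μ (A g) x) {U : Set E}
    (hU : IsOpen U) (hUc : IsPreconnected U) (hUV : U ⊆ V) {O : Set E} (hO : IsOpen O)
    (hO0 : (U ∩ O).Nonempty) (hfix : ∀ x ∈ O, ∀ g, A g x = x) :
    ∀ x ∈ U, ∀ g, A g x = x := by
  set F : Set E := interior {x | ∀ g, A g x = x} with hF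
  suffices h : U ⊆ F from fun x hx => interior_subset (s := {x | ∀ g, A g x = x}) (h hx)
  refine hUc.subset_of_closure_inter_subset isOpen_interior
    (hO0.mono (inter_subset_inter_right U (interior_maximal hfix hO))) ?_
  rintro x ⟨hxc, hxU⟩
  by_contra hxF
  obtain ⟨ρ, hρ, hball⟩ := Metric.isOpen_iff.1 hU x hxU
  obtain ⟨p₀, hp₀F, hp₀x⟩ := Metric.mem_closure_iff.1 hxc (ρ / 4) (by positivity)
  obtain ⟨y, hyF, hydist⟩ := isOpen_interior.isClosed_compl.exists_infDist_eq_dist
    (⟨x, hxF⟩ : (Fᶜ : Set E).Nonempty) p₀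
  set d := dist p₀ y with hd'
  have hd0 : 0 < d := dist_pos.2 fun h => hyF (h ▸ hp₀F)
  have hdρ : d ≤ dist p₀ x := hydist ▸ infDist_le_dist_of_mem hxF
  have hsub : ∀ w ∈ ball p₀ d, ∀ g, A g w = w := by
    intro w hw
    have hwF : w ∈ F := by
      by_contra hwf
      have := hydist ▸ infDist_le_dist_of_mem (x := p₀) (show w ∈ Fᶜ from hwf)
      rw [mem_ball, dist_comm] at hw
      linarith
    exact interior_subset (s := {x | ∀ g, A g x = x}) hwF
  have hcU : closedBall p₀ d ⊆ U := fun w hw => hball (mem_ball.2 (by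
    linarith [dist_triangle w p₀ x, dist_comm p₀ x, mem_closedBall.1 hw]))
  have hfixc : ∀ w ∈ closedBall p₀ d, ∀ g, A g w = w := by
    intro w hw g
    have hmem : w ∈ closure (ball p₀ d) := by rwa [closure_ball _ hd0.ne']
    have := mem_closure_iff_nhdsWithin_neBot.1 hmem
    refine tendsto_nhds_unique_of_eventuallyEq
      ((hA.continuousAt_apply g (hUV (hcU hw))).tendsto.mono_left
        (nhdsWithin_le_nhds (s := ball p₀ d)))
      (tendsto_id.mono_left nhdsWithin_le_nhds) ?_
    exact eventually_of_mem self_mem_nhdsWithin fun v hv => hsub v hv g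
  obtain ⟨m, hm, hres⟩ := hA.fixed_beyond_ball_osc μ hosc hd0 (hcU.trans hUV) hfixc
  exact hyF (interior_maximal (s := {x | ∀ g, A g x = x}) hres isOpen_ball
    (mem_ball.2 (by rwa [dist_comm])))

end Vale.Agent.P228
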