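import Vale.Agent.P228.HolManifold
import Vale.Agent.P228.OscSpread

/-!
# Actions of small oscillation energy on manifolds
-/

namespace Vale.Agent.P228

open Set Metric Filter Function MeasureTheory
open scoped Topology Manifold ENNReal

variable {n : ℕ} {M : Type*} [TopologicalSpace M] [ChartedSpace (EuclideanSpace ℝ (Fin n)) M]
  {G : Type*} [Group G] [TopologicalSpace G] [IsTopologicalGroup G]
  [CompactSpace G] [TotallyDisconnectedSpace G] [MulAction G M] [ContinuousSMul G M]

/-- In any two charts `y ↦ g • y` has, near each point, oscillation energy tending to zero. -/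
abbrev SmallOscChart (n : ℕ) {G M : Type*} [SMul G M] [TopologicalSpace M]
    [ChartedSpace (EuclideanSpace ℝ (Fin n)) M] (g : G) : Prop :=
  ∀ x z : M, ∀ w ∈ (chartAt (EuclideanSpace ℝ (Fin n)) x).target,
    g • (chartAt (EuclideanSpace ℝ (Fin n)) x).symm w ∈
        (chartAt (EuclideanSpace ℝ (Fin n)) z).source →
      SmallOsc volume (fun y => chartAt (EuclideanSpace ℝ (Fin n)) z
        (g • (chartAt (EuclideanSpace ℝ (Fin n)) x).symm y)) w

omit [IsTopologicalGroup G] [CompactSpace G] [TotallyDisconnectedSpace G] [ContinuousSMul G M] in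
/-- In the chart at `x` the elements of `N` have small oscillation energy. -/
theorem osc_action_chart (hd : ∀ g : G, SmallOscChart (M := M) n g) (N : OpenNormalSubgroup G)
    (x : M) {P : Set M} (hPs : P ⊆ chartCore (n := n) N x) :
    ∀ k : N.toSubgroup, ∀ w ∈ (chartAt (EuclideanSpace ℝ (Fin n)) x).target ∩
        (chartAt (EuclideanSpace ℝ (Fin n)) x).symm ⁻¹' P,
      SmallOsc volume (fun y => chartAt (EuclideanSpace ℝ (Fin n)) x
        ((k : G) • (chartAt (EuclideanSpace ℝ (Fin n)) x).symm y)) w :=
  fun k w hw => hd (k : G) x x w hw.1 (hPs hw.2 k k.2)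

/-- Every point has a neighbourhood fixed by an open normal subgroup. -/
theorem exists_fixed_nhds_osc (hd : ∀ g : G, SmallOscChart (M := M) n g) (x : M) :
    ∃ N : OpenNormalSubgroup G, ∃ U : Set M, IsOpen U ∧ x ∈ U ∧ ∀ k ∈ N, ∀ y ∈ U, k • y = y := by
  set φ := chartAt (EuclideanSpace ℝ (Fin n)) x with hφ
  have hc : Continuous fun k : G => k • x := continuous_id.smul continuous_const
  obtain ⟨N, hN⟩ := ProfiniteGrp.exist_openNormalSubgroup_sub_open_nhds_of_one
    (φ.open_source.preimage hc) (by simp [hφ, mem_chart_source])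
  have : CompactSpace N.toSubgroup :=
    isCompact_iff_compactSpace.1 N.toOpenSubgroup.isClosed.isCompact
  have : TotallyDisconnectedSpace N.toSubgroup := Subtype.totallyDisconnectedSpace
  have hinv : ∀ k ∈ N, ∀ y ∈ chartCore (n := n) N x, k • y ∈ chartCore (n := n) N x := by
    intro k hk y hy k' hk'
    rw [smul_smul]
    exact hy _ (mul_mem hk' hk)
  have hA := isAction_chart N x (isOpen_chartCore N x) Subset.rfl hinv
  have hxc : x ∈ chartCore (n := n) N x := fun k hk => hN hk
  have hxs : x ∈ φ.source := mem_chart_source _ x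
  obtain ⟨H, hH⟩ := hA.locally_fixed_osc volume (osc_action_chart hd N x Subset.rfl) (φ x) ⟨φ.map_source hxs, by
    rwa [mem_preimage, φ.left_inv hxs]⟩
  -- a normal subgroup of `G` inside `H`
  have hHo : IsOpen (Subtype.val '' (H : Set N.toSubgroup) : Set G) :=
    N.toOpenSubgroup.isOpen.isOpenMap_subtype_val _ H.toOpenSubgroup.isOpen
  obtain ⟨N', hN'⟩ := ProfiniteGrp.exist_openNormalSubgroup_sub_open_nhds_of_one hHo
    ⟨1, H.toSubgroup.one_mem, rfl⟩
  refine ⟨N', φ.source ∩ φ ⁻¹' fixInterior _ _ H,
    φ.continuousOn.isOpen_inter_preimage φ.open_source isOpen_interior, ⟨hxs, hH⟩, ?_⟩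
  rintro k hk y ⟨hys, hyF⟩
  obtain ⟨h, hh, rfl⟩ := hN' hk
  have e := fixInterior_fixed hyF hh
  have hmem := fixInterior_subset H hyF
  rw [mem_inter_iff, mem_preimage, φ.left_inv hys] at hmem
  change φ ((h : G) • φ.symm (φ y)) = φ y at e
  rw [φ.left_inv hys] at e
  exact φ.injOn (hmem.2 h h.2) hys e

/-- On a connected manifold the kernel of the action is open. -/
theorem exists_trivial_subgroup_osc [T2Space M] [ConnectedSpace M]
    (hd : ∀ g : G, SmallOscChart (M := M) n g) :
    ∃ N : OpenNormalSubgroup G, ∀ k ∈ N, ∀ y : M, k • y = y := by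
  obtain ⟨x₀⟩ := (inferInstance : Nonempty M)
  obtain ⟨N, U₀, hU₀, hx₀, hfix₀⟩ := exists_fixed_nhds_osc (n := n) hd x₀
  set F : Set M := interior {y | ∀ k ∈ N, k • y = y} with hF
  suffices h : F = univ from
    ⟨N, fun k hk y => interior_subset (s := {y | ∀ k ∈ N, k • y = y}) (h ▸ mem_univ y : y ∈ F) k hk⟩
  refine IsClopen.eq_univ ⟨isClosed_of_closure_subset ?_, isOpen_interior⟩
    ⟨x₀, interior_maximal (t := U₀) (fun y hy k hk => hfix₀ k hk y hy) hU₀ hx₀⟩
  intro x hx
  set φ := chartAt (EuclideanSpace ℝ (Fin n)) x with hφ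
  have hclosed : IsClosed {y : M | ∀ k ∈ N, k • y = y} := by
    simp only [ofPred_forall]
    exact isClosed_biInter fun k _ => isClosed_eq (continuous_const_smul k) continuous_id
  have hfx : ∀ k ∈ N, k • x = x := (closure_minimal interior_subset hclosed) hx
  have hxs : x ∈ φ.source := mem_chart_source _ x
  set P : Set M := chartCore (n := n) N x with hP
  have hPo : IsOpen P := isOpen_chartCore N x
  have hPi : ∀ k ∈ N, ∀ y ∈ P, k • y ∈ P :=
    fun k hk y hy k' hk' => by rw [smul_smul]; exact hy _ (mul_mem hk' hk)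
  have hxP : x ∈ P := fun k hk => by rw [hfx k hk]; exact hxs
  have : CompactSpace N.toSubgroup :=
    isCompact_iff_compactSpace.1 N.toOpenSubgroup.isClosed.isCompact
  have : TotallyDisconnectedSpace N.toSubgroup := Subtype.totallyDisconnectedSpace
  have hA := isAction_chart N x hPo Subset.rfl hPi
  set V := φ.target ∩ φ.symm ⁻¹' P with hV
  have hxV : φ x ∈ V := ⟨φ.map_source hxs, by rwa [mem_preimage, φ.left_inv hxs]⟩
  obtain ⟨ε, hε, hball⟩ := Metric.isOpen_iff.1 hA.isOpen _ hxV
  set U' : Set M := φ.source ∩ φ ⁻¹' ball (φ x) ε with hU'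
  have hU'o : IsOpen U' := φ.continuousOn.isOpen_inter_preimage φ.open_source isOpen_ball
  obtain ⟨z, hzU, hzF⟩ := mem_closure_iff.1 hx U' hU'o ⟨hxs, mem_ball_self hε⟩
  refine interior_maximal (t := U') ?_ hU'o ⟨hxs, mem_ball_self hε⟩
  intro y hy k hk
  have hres := hA.spread_osc volume (osc_action_chart hd N x Subset.rfl) isOpen_ball
    (convex_ball _ ε).isPreconnected hball (O := φ.target ∩ φ.symm ⁻¹' F)
    (φ.isOpen_inter_preimage_symm isOpen_interior)
    ⟨φ z, hzU.2, φ.map_source hzU.1, by rwa [mem_preimage, φ.left_inv hzU.1]⟩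
    (fun w hw j => by
      show φ ((j : G) • φ.symm w) = w
      rw [interior_subset (s := {y | ∀ k ∈ N, k • y = y}) hw.2 j j.2, φ.right_inv hw.1])
  have e : φ (k • φ.symm (φ y)) = φ y := hres (φ y) hy.2 ⟨k, hk⟩
  have hyV : φ y ∈ V := hball hy.2
  rw [mem_inter_iff, mem_preimage, φ.left_inv hy.1] at hyV
  rw [φ.left_inv hy.1] at e
  exact φ.injOn (hyV.2 k hk) hy.1 e

/-- A compact totally disconnected group acting faithfully on a connected manifold by maps which
have small oscillation energy at every point is finite. -/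
theorem finite_of_osc [T2Space M] [ConnectedSpace M] [FaithfulSMul G M]
    (hd : ∀ g : G, SmallOscChart (M := M) n g) : Finite G := by
  obtain ⟨N, hN⟩ := exists_trivial_subgroup_osc (n := n) hd
  have h1 : (N : Set G) = {1} := by
    refine Subset.antisymm (fun k hk => ?_) (singleton_subset_iff.2 N.toSubgroup.one_mem)
    exact eq_of_smul_eq_smul (α := M) fun y => by rw [hN k hk y, one_smul]
  have : DiscreteTopology G :=
    discreteTopology_of_isOpen_singleton_one (h1 ▸ N.toOpenSubgroup.isOpen)
  exact finite_of_compact_of_discrete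

section LocallyCompact

variable {n : ℕ} {M : Type*} [TopologicalSpace M] [T2Space M] [ConnectedSpace M]
  [ChartedSpace (EuclideanSpace ℝ (Fin n)) M]

/-- A locally compact totally disconnected group acting faithfully on a connected manifold by maps
which have small oscillation energy at every point is discrete. -/
theorem discrete_of_osc {G : Type*} [Group G] [TopologicalSpace G]
    [IsTopologicalGroup G] [LocallyCompactSpace G] [TotallyDisconnectedSpace G] [MulAction G M]
    [ContinuousSMul G M] [FaithfulSMul G M]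
    (hd : ∀ g : G, SmallOscChart (M := M) n g) : DiscreteTopology G := by
  obtain ⟨S, hSo, hSc⟩ := exists_compact_open_subgroup (G := G)
  have : CompactSpace S := isCompact_iff_compactSpace.1 hSc
  have : TotallyDisconnectedSpace S := Subtype.totallyDisconnectedSpace
  have : ContinuousSMul S M :=
    ⟨(continuous_subtype_val.comp continuous_fst).smul continuous_snd⟩
  have : FaithfulSMul S M :=
    ⟨fun h => Subtype.ext (eq_of_smul_eq_smul (α := M) fun y => h y)⟩
  have : Finite S := finite_of_osc (n := n) (M := M) fun g => hd g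
  refine discreteTopology_of_isOpen_singleton_one ?_
  have hfin : IsClosed ((S : Set G) \ {1}) :=
    ((Set.toFinite (S : Set G)).subset sdiff_subset).isClosed
  have : ({1} : Set G) = (S : Set G) \ ((S : Set G) \ {1}) := by
    ext g
    simp only [mem_singleton_iff, Set.mem_sdiff, SetLike.mem_coe]
    exact ⟨fun h => ⟨h ▸ S.one_mem, fun h' => h'.2 h⟩,
      fun h => not_not.1 fun hg => h.2 ⟨h.1, hg⟩⟩
  rw [this]
  exact hSo.sdiff hfin

/-- The `p`-adic integers have no faithful action by such maps. -/
theorem not_padicInt_osc (p : ℕ) [Fact p.Prime] [MulAction (Multiplicative ℤ_[p]) M]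
    [ContinuousSMul (Multiplicative ℤ_[p]) M] [FaithfulSMul (Multiplicative ℤ_[p]) M] :
    ¬ ∀ g : Multiplicative ℤ_[p], SmallOscChart (M := M) n g := fun hd => by
  have := finite_of_osc (n := n) hd
  exact not_finite (Multiplicative ℤ_[p])

end LocallyCompact

end Vale.Agent.P228
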